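import Vale.Agent.P159.H789.Pk
import Vale.Agent.P159.H37.Spec0L
import Vale.Agent.P159.H353.Wgt

/-!
P159, helper789: the torus weights `wM (wT b N) M`, `wt N b t` have `EM`, `Ev`, `PK`.
-/

open Finset

namespace Vale.Agent.P159.H789

open Vale.Agent.P159.H37
open Vale.Agent.P159.TM.SpecC (Tor wT)

variable {N : ℕ} [NeZero N] {b : ℝ}

theorem wT_le (hb : 0 ≤ b) (h : Tor N → ℤ) : wT b N h ≤ wT b N 0 := by
  unfold wT
  refine Finset.prod_le_prod (fun _ _ => mul_nonneg (Vale.Agent.P159.H353.wI_nonneg hb _)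
    (Vale.Agent.P159.H353.wI_nonneg hb _)) fun x _ => ?_
  refine mul_le_mul ?_ ?_ (Vale.Agent.P159.H353.wI_nonneg hb _)
    (Vale.Agent.P159.H353.wI_nonneg hb _)
  · exact Vale.Agent.P159.H353.wI_anti hb (by simp)
  · exact Vale.Agent.P159.H353.wI_anti hb (by simp)

theorem wT_zero_pos (hb : 0 ≤ b) : 0 < wT b N 0 := by
  unfold wT
  refine Finset.prod_pos fun x _ => ?_
  simpa using mul_pos (Vale.Agent.P159.H353.wI_zero_pos hb) (Vale.Agent.P159.H353.wI_zero_pos hb)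

theorem wT_even (h : Tor N → ℤ) : wT b N (-h) = wT b N h := by
  unfold wT
  refine Finset.prod_congr rfl fun x _ => ?_
  have e1 : (-h) (x + (1, 0)) - (-h) x = -(h (x + (1, 0)) - h x) := by simp; ring
  have e2 : (-h) (x + (0, 1)) - (-h) x = -(h (x + (0, 1)) - h x) := by simp; ring
  rw [e1, e2, Vale.Agent.P159.H353.wI_neg, Vale.Agent.P159.H353.wI_neg]

/-- exponential moments, coercive mass form -/
theorem em_wM_wT (hb : 0 ≤ b) {M : Matrix (Tor N) (Tor N) ℝ} {m0 : ℝ} (hm0 : 0 < m0)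
    (hM : ∀ u : Tor N → ℝ, m0 * ∑ x, u x ^ 2 ≤ qf M u) : TM.H104.EM (wM (wT b N) M) :=
  em_wM (wT_nonneg hb N) (wT_le hb) ⟨0, wT_zero_pos hb⟩ hm0 hM

theorem ev_wM_wT (M : Matrix (Tor N) (Tor N) ℝ) : Ev (wM (wT b N) M) :=
  ev_wM wT_even M

/-- **(PK) for the torus weight with any coercive mass form** -/
theorem pk_wM_wT' (hb : 0 ≤ b) {M : Matrix (Tor N) (Tor N) ℝ} {m0 : ℝ} (hm0 : 0 < m0)
    (hM : ∀ u : Tor N → ℝ, m0 * ∑ x, u x ^ 2 ≤ qf M u) : PK (wM (wT b N) M) :=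
  pk_wM_wT hb N M (em_wM_wT hb hm0 hM)

variable {t : ℝ}

theorem coer_smul (t : ℝ) (u : Tor N → ℝ) :
    t * ∑ x, u x ^ 2 ≤ qf (t • (1 : Matrix (Tor N) (Tor N) ℝ)) u := by
  rw [qf_smul_one]

theorem em_wt (hb : 0 ≤ b) (ht : 0 < t) : TM.H104.EM (wt N b t) :=
  em_wM_wT hb ht (coer_smul t)

theorem ev_wt : Ev (wt N b t) := ev_wM_wT _

theorem pk_wt (hb : 0 ≤ b) (ht : 0 < t) : PK (wt N b t) :=
  pk_wM_wT' hb ht (coer_smul t)

end Vale.Agent.P159.H789
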