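import Vale.Agent.P159.H789.Star
import Vale.Agent.P159.H37.Spec0L

/-!
P159, helper789: MET, STAR in the letters of `H37/Spec0`.
-/

open scoped Topology
open Finset Filter Matrix

namespace Vale.Agent.P159.H789

open Vale.Agent.P159.H37
open TM.H104 (EM Ex Cv Lg li nh Gr T Ex_add Ex_cmul)

variable {V : Type*} [Fintype V] {μ : (V → ℤ) → ℝ}

/-! ### bilinear forms of the covariance matrix -/

theorem Gr.sum' {ι : Type*} (s : Finset ι) {F : ι → (V → ℤ) → ℝ} (hF : ∀ i ∈ s, Gr (F i)) :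
    Gr fun h => ∑ i ∈ s, F i h := by
  classical
  induction s using Finset.induction_on with
  | empty => simpa using Gr.const (V := V) 0
  | insert a s ha ih =>
    have h1 := (hF a (by simp)).add (ih fun i hi => hF i (by simp [hi]))
    simpa only [Finset.sum_insert ha] using h1

theorem Ex_zero' (μ : (V → ℤ) → ℝ) (J : V → ℝ) : Ex μ J (fun _ => 0) = 0 := by
  unfold TM.H104.Ex TM.H104.T
  simp

theorem Ex_sum (hμ : EM μ) {ι : Type*} (s : Finset ι) {F : ι → (V → ℤ) → ℝ}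
    (hF : ∀ i ∈ s, Gr (F i)) (J : V → ℝ) :
    Ex μ J (fun h => ∑ i ∈ s, F i h) = ∑ i ∈ s, Ex μ J (F i) := by
  classical
  induction s using Finset.induction_on with
  | empty => simpa using Ex_zero' μ J
  | insert a s ha ih =>
    have h1 : ∀ i ∈ s, Gr (F i) := fun i hi => hF i (by simp [hi])
    simp only [Finset.sum_insert ha]
    rw [Ex_add hμ (hF a (by simp)) (Gr.sum' s h1), ih h1]

theorem Gr.coord (x : V) : Gr fun h : V → ℤ => (h x : ℝ) := by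
  refine Gr.mk' (A := 1) (B := 1) fun h => ?_
  rw [one_mul, one_mul]
  have h1 : |(h x : ℝ)| ≤ nh h :=
    Finset.single_le_sum (f := fun x => |(h x : ℝ)|) (fun _ _ => abs_nonneg _) (Finset.mem_univ x)
  linarith [Real.add_one_le_exp (nh h)]

theorem Ex_li (hμ : EM μ) (J u : V → ℝ) : Ex μ J (li u) = ∑ x, u x * Ex μ J fun h => (h x : ℝ) := by
  have h1 : Ex μ J (li u) = Ex μ J fun h => ∑ x, u x * (h x : ℝ) := rfl
  rw [h1, Ex_sum hμ Finset.univ fun x _ => (Gr.coord x).cmul (u x)]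
  exact Finset.sum_congr rfl fun x _ => Ex_cmul _ _ _

theorem Ex_li_li (hμ : EM μ) (J u v : V → ℝ) :
    Ex μ J (fun h => li u h * li v h) =
      ∑ x, ∑ y, u x * v y * Ex μ J fun h => (h x : ℝ) * (h y : ℝ) := by
  have h1 : (fun h : V → ℤ => li u h * li v h) =
      fun h => ∑ x, ∑ y, (u x * v y) * ((h x : ℝ) * (h y : ℝ)) := by
    funext h
    unfold TM.H104.li
    rw [Finset.sum_mul_sum]
    exact Finset.sum_congr rfl fun x _ => Finset.sum_congr rfl fun y _ => by ring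
  have h2 : ∀ x y : V, Gr fun h : V → ℤ => (u x * v y) * ((h x : ℝ) * (h y : ℝ)) := fun x y =>
    ((Gr.coord x).mul (Gr.coord y)).cmul _
  rw [h1, Ex_sum hμ Finset.univ fun x _ => Gr.sum' Finset.univ fun y _ => h2 x y]
  refine Finset.sum_congr rfl fun x _ => ?_
  rw [Ex_sum hμ Finset.univ fun y _ => h2 x y]
  exact Finset.sum_congr rfl fun y _ => Ex_cmul _ _ _

/-- `<u, C_J v> = Cov_J (<u,h>, <v,h>)` -/
theorem bf_Cm (hμ : EM μ) (J u v : V → ℝ) : bf (Cm μ J) u v = Cv μ J (li u) (li v) := by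
  have h1 : Cv μ J (li u) (li v) = Ex μ J (fun h => li u h * li v h) -
      Ex μ J (li u) * Ex μ J (li v) := rfl
  rw [h1, Ex_li_li hμ, Ex_li hμ, Ex_li hμ, Finset.sum_mul_sum, ← Finset.sum_sub_distrib]
  unfold bf
  refine Finset.sum_congr rfl fun x _ => ?_
  rw [← Finset.sum_sub_distrib]
  refine Finset.sum_congr rfl fun y _ => ?_
  have h2 : Cm μ J x y = Ex μ J (fun h => (h x : ℝ) * (h y : ℝ)) -
      Ex μ J (fun h => (h x : ℝ)) * Ex μ J (fun h => (h y : ℝ)) := rfl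
  rw [h2]
  ring

theorem bf_Gm (hμ : EM μ) (u v : V → ℝ) : bf (Gm μ) u v = Cv μ 0 (li u) (li v) := bf_Cm hμ 0 u v

theorem qf_Cm (hμ : EM μ) (J u : V → ℝ) : qf (Cm μ J) u = Cv μ J (li u) (li u) := bf_Cm hμ J u u

theorem qf_Gm (hμ : EM μ) (u : V → ℝ) : qf (Gm μ) u = Cv μ 0 (li u) (li u) := bf_Cm hμ 0 u u

theorem Cm_symm (μ : (V → ℤ) → ℝ) (J : V → ℝ) : (Cm μ J)ᵀ = Cm μ J := by
  ext x y
  exact TM.H104.Cv_comm _ _ _

/-! ### (PK) and the kernel -/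

theorem psdk_of_pk (h : PK μ) : PSDK (yy μ) := fun n a c => h n a c

theorem exp_Lg (hμ : EM μ) (J : V → ℝ) : Real.exp (Lg μ J) = yy μ J := by
  have h1 : Lg μ J = Real.log (yy μ J) := rfl
  rw [h1, Real.exp_log]
  exact TM.H104.T_one_pos hμ J

theorem exp_Tq (hμ : EM μ) (J : V → ℝ) :
    Real.exp (Tq μ J) = yy μ (J + J) * yy μ 0 ^ 3 / yy μ J ^ 4 := by
  unfold Tq
  rw [Real.exp_add, Real.exp_sub, two_smul, exp_Lg hμ]
  have e4 : Real.exp (4 * Lg μ J) = yy μ J ^ 4 := by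
    rw [← exp_Lg hμ, ← Real.exp_nat_mul]
    norm_num
  have e3 : Real.exp (3 * Lg μ 0) = yy μ 0 ^ 3 := by
    rw [← exp_Lg hμ, ← Real.exp_nat_mul]
    norm_num
  rw [e4, e3]
  ring

theorem K4_eq (μ : (V → ℤ) → ℝ) (u x : V → ℝ) : H37.K4 μ u u x x = H789.K4 μ u x := by
  unfold H37.K4 H789.K4
  have e1 : (fun h : V → ℤ => li u h * li u h * li x h * li x h) =
      fun h => li u h ^ 2 * li x h ^ 2 := by
    funext h; ring
  have e2 : (fun h : V → ℤ => li u h * li u h) = fun h => li u h ^ 2 := by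
    funext h; ring
  have e3 : (fun h : V → ℤ => li x h * li x h) = fun h => li x h ^ 2 := by
    funext h; ring
  rw [e1, e2, e3]
  ring

theorem yy_even' (he : Ev μ) (J : V → ℝ) : yy μ (-J) = yy μ J := yy_even he J

theorem yy_pos (hμ : EM μ) (J : V → ℝ) : 0 < yy μ J := TM.H104.T_one_pos hμ J

/-! ### the inequalities -/

/-- **Regev - Stephens-Davidowitz / Ginibre**: `Z(x)^2 Z(y)^2 ≤ Z(0)^2 Z(x+y) Z(x-y)` -/
theorem Lg_par (hμ : EM μ) (he : Ev μ) (hK : PK μ) (x y : V → ℝ) :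
    2 * Lg μ x + 2 * Lg μ y ≤ Lg μ (x + y) + Lg μ (x - y) + 2 * Lg μ 0 := by
  have key : ∀ s t : ℝ, 0 ≤ s ^ 2 * (yy μ (x + y) * yy μ 0) + 2 * (s * t * (yy μ x * yy μ y)) +
      t ^ 2 * (yy μ (x - y) * yy μ 0) := by
    intro s t
    have h1 := hK 2 ![(1 / 2 : ℝ) • (x + y), (1 / 2 : ℝ) • (x - y)] ![s, t]
    simp only [Fin.sum_univ_two, Matrix.cons_val_zero, Matrix.cons_val_one, Ker] at h1
    have e1 : (1 / 2 : ℝ) • (x + y) + (1 / 2 : ℝ) • (x + y) = x + y := by module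
    have e2 : (1 / 2 : ℝ) • (x + y) - (1 / 2 : ℝ) • (x + y) = 0 := sub_self _
    have e3 : (1 / 2 : ℝ) • (x + y) + (1 / 2 : ℝ) • (x - y) = x := by module
    have e4 : (1 / 2 : ℝ) • (x + y) - (1 / 2 : ℝ) • (x - y) = y := by module
    have e5 : (1 / 2 : ℝ) • (x - y) + (1 / 2 : ℝ) • (x + y) = x := by module
    have e6 : (1 / 2 : ℝ) • (x - y) - (1 / 2 : ℝ) • (x + y) = -y := by module
    have e7 : (1 / 2 : ℝ) • (x - y) + (1 / 2 : ℝ) • (x - y) = x - y := by module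
    have e8 : (1 / 2 : ℝ) • (x - y) - (1 / 2 : ℝ) • (x - y) = 0 := sub_self _
    rw [e1, e2, e3, e4, e5, e6, e7, e8] at h1
    have e9 : Zs μ (-y) = Zs μ y := yy_even he y
    rw [e9] at h1
    have h2 : s * s * (Zs μ (x + y) * Zs μ 0) + s * t * (Zs μ x * Zs μ y) +
        (t * s * (Zs μ x * Zs μ y) + t * t * (Zs μ (x - y) * Zs μ 0)) =
        s ^ 2 * (yy μ (x + y) * yy μ 0) + 2 * (s * t * (yy μ x * yy μ y)) +
      t ^ 2 * (yy μ (x - y) * yy μ 0) := by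
      change s * s * (yy μ (x + y) * yy μ 0) + s * t * (yy μ x * yy μ y) +
        (t * s * (yy μ x * yy μ y) + t * t * (yy μ (x - y) * yy μ 0)) = _
      ring
    rw [← h2]
    exact h1
  have h3 := disc key
  have h4 : Real.log ((yy μ x * yy μ y) ^ 2) ≤
      Real.log (yy μ (x + y) * yy μ 0 * (yy μ (x - y) * yy μ 0)) :=
    Real.log_le_log (by have := yy_pos hμ x; have := yy_pos hμ y; positivity) h3
  have a1 := (yy_pos hμ x).ne'
  have a2 := (yy_pos hμ y).ne'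
  have a3 := (yy_pos hμ (x + y)).ne'
  have a4 := (yy_pos hμ (x - y)).ne'
  have a5 := (yy_pos hμ (0 : V → ℝ)).ne'
  rw [Real.log_pow, Real.log_mul a1 a2, Real.log_mul (mul_ne_zero a3 a5) (mul_ne_zero a4 a5),
    Real.log_mul a3 a5, Real.log_mul a4 a5] at h4
  push_cast at h4
  change 2 * Real.log (yy μ x) + 2 * Real.log (yy μ y) ≤
    Real.log (yy μ (x + y)) + Real.log (yy μ (x - y)) + 2 * Real.log (yy μ 0)
  linarith

theorem qf_par (M : Matrix V V ℝ) (x y : V → ℝ) :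
    qf M (x + y) + qf M (x - y) = 2 * qf M x + 2 * qf M y := by
  unfold qf
  simp only [Finset.mul_sum, ← Finset.sum_add_distrib, Pi.add_apply, Pi.sub_apply]
  exact Finset.sum_congr rfl fun i _ => Finset.sum_congr rfl fun j _ => by ring

/-- parallelogram inequality: `2 R(x) + 2 R(y) ≤ R(x+y) + R(x-y)` -/
theorem Rs_par (hμ : EM μ) (he : Ev μ) (hK : PK μ) (x y : V → ℝ) :
    2 * Rs μ x + 2 * Rs μ y ≤ Rs μ (x + y) + Rs μ (x - y) := by
  have h1 := Lg_par hμ he hK x y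
  have h2 := qf_par (Gm μ) x y
  unfold Rs
  linarith

theorem Rs_zero (μ : (V → ℤ) → ℝ) : Rs μ 0 = 0 := by
  unfold Rs
  simp [qf]

theorem Rs_neg (he : Ev μ) (x : V → ℝ) : Rs μ (-x) = Rs μ x := by
  have h1 : Lg μ (-x) = Lg μ x := by
    change Real.log (yy μ (-x)) = Real.log (yy μ x)
    rw [yy_even' he]
  unfold Rs
  rw [h1, qf_neg]

theorem Tq_eq (μ : (V → ℤ) → ℝ) (J : V → ℝ) : Tq μ J = Rs μ ((2 : ℝ) • J) - 4 * Rs μ J := by
  unfold Tq Rs
  rw [qf_smul]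
  ring

theorem Tq_nonneg (hμ : EM μ) (he : Ev μ) (hK : PK μ) (J : V → ℝ) : 0 ≤ Tq μ J := by
  have h1 := Rs_par hμ he hK J J
  rw [sub_self, Rs_zero, ← two_smul ℝ J] at h1
  rw [Tq_eq]
  linarith

/-- **MET, two-sided**: `(exp(R(a+c) + R(a-c) - 2R(a) - 2R(c)) - 1)² ≤ (e^{T(a)} - 1)(e^{T(c)} - 1)` -/
theorem met2 (hμ : EM μ) (he : Ev μ) (hK : PK μ) (a c : V → ℝ) :
    (Real.exp (Rs μ (a + c) + Rs μ (a - c) - 2 * Rs μ a - 2 * Rs μ c) - 1) ^ 2 ≤
      (Real.exp (Tq μ a) - 1) * (Real.exp (Tq μ c) - 1) := by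
  have h1 := met (psdk_of_pk hK) (yy_even' he) (yy_pos hμ) a c
  have h2 : Real.exp (Rs μ (a + c) + Rs μ (a - c) - 2 * Rs μ a - 2 * Rs μ c) =
      yy μ (a + c) * yy μ (a - c) * yy μ 0 ^ 2 / (yy μ a ^ 2 * yy μ c ^ 2) := by
    have h3 : Rs μ (a + c) + Rs μ (a - c) - 2 * Rs μ a - 2 * Rs μ c =
        Lg μ (a + c) + Lg μ (a - c) + 2 * Lg μ 0 - (2 * Lg μ a + 2 * Lg μ c) := by
      have := qf_par (Gm μ) a c
      unfold Rs
      linarith
    have e2 : ∀ J : V → ℝ, Real.exp (2 * Lg μ J) = yy μ J ^ 2 := fun J => by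
      rw [← exp_Lg hμ, ← Real.exp_nat_mul]
      norm_num
    rw [h3, Real.exp_sub, Real.exp_add, Real.exp_add, Real.exp_add, exp_Lg hμ, exp_Lg hμ, e2, e2,
      e2]
  rw [h2, exp_Tq hμ, exp_Tq hμ]
  exact h1

theorem K4_nonneg' (hμ : EM μ) (he : Ev μ) (hK : PK μ) (u x : V → ℝ) : 0 ≤ H37.K4 μ u u x x := by
  rw [K4_eq]
  exact K4_nonneg hμ he (psdk_of_pk hK) u x

/-- **STAR** in the letters of `Spec0` -/
theorem star' (hμ : EM μ) (he : Ev μ) (hK : PK μ) (J u x : V → ℝ) :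
    (Cv μ J (li u) (li x) - Cv μ 0 (li u) (li x)) ^ 2 ≤
      1 / 2 * (Real.exp (Tq μ J) - 1) * H37.K4 μ u u x x := by
  rw [K4_eq, exp_Tq hμ]
  exact star hμ he (psdk_of_pk hK) J u x

theorem star_bf (hμ : EM μ) (he : Ev μ) (hK : PK μ) (J u x : V → ℝ) :
    (bf (Cm μ J) u x - bf (Gm μ) u x) ^ 2 ≤
      1 / 2 * (Real.exp (Tq μ J) - 1) * H37.K4 μ u u x x := by
  rw [bf_Cm hμ, bf_Gm hμ]
  exact star' hμ he hK J u x

theorem bf_single_left [DecidableEq V] (M : Matrix V V ℝ) (x : V) (v : V → ℝ) :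
    bf M (Pi.single x 1) v = (M *ᵥ v) x := by
  rw [bf_eq, single_one_dotProduct]

/-- **vector form of STAR** -/
theorem star_vec [DecidableEq V] (hμ : EM μ) (he : Ev μ) (hK : PK μ) (J u : V → ℝ) :
    ∑ x, ((Cm μ J - Gm μ) *ᵥ u) x ^ 2 ≤
      1 / 2 * (Real.exp (Tq μ J) - 1) *
        ∑ x, H37.K4 μ u u (Pi.single x 1) (Pi.single x 1) := by
  rw [Finset.mul_sum]
  refine Finset.sum_le_sum fun x _ => ?_
  have h1 := star_bf hμ he hK J (Pi.single x 1) u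
  rw [bf_single_left, bf_single_left] at h1
  have h2 : ((Cm μ J - Gm μ) *ᵥ u) x = (Cm μ J *ᵥ u) x - (Gm μ *ᵥ u) x := by
    rw [Matrix.sub_mulVec]
    rfl
  have h3 : H37.K4 μ (Pi.single x 1) (Pi.single x 1) u u =
      H37.K4 μ u u (Pi.single x 1) (Pi.single x 1) := by
    rw [K4_eq, K4_eq]
    unfold H789.K4
    simp only [mul_comm]
  rw [h2]
  rw [h3] at h1
  exact h1

/-- entries: `(C_J(x,y) - G(x,y))² ≤ (1/2)(e^{T(J)} - 1) κ₄(e_x,e_x,e_y,e_y)` -/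
theorem star_entry [DecidableEq V] (hμ : EM μ) (he : Ev μ) (hK : PK μ) (J : V → ℝ) (x y : V) :
    (Cm μ J x y - Gm μ x y) ^ 2 ≤ 1 / 2 * (Real.exp (Tq μ J) - 1) *
      H37.K4 μ (Pi.single x 1) (Pi.single x 1) (Pi.single y 1) (Pi.single y 1) := by
  have h1 := star_bf hμ he hK J (Pi.single x 1) (Pi.single y 1)
  rw [bf_single_left, bf_single_left, Matrix.mulVec_single_one, Matrix.mulVec_single_one] at h1
  exact h1

end Vale.Agent.P159.H789
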