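import Vale.Agent.P159.H789.TaH

/-!
P159, module TORAP (helper789), part I: AP of the state on all admissible tori **and all finer
cells** (V cells), as a family.
-/

set_option linter.unusedSectionVars false

namespace Vale.Agent.P159.H789

open Finset Matrix MeasureTheory ProbabilityTheory
open Vale.Agent.P159.TM.Spec (V Rng)
open Vale.Agent.P159.TM.H265 (HA)
open Vale.Agent.P159.H972
open Vale.Agent.P159.H239 (Fam Sel)

noncomputable section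

variable {b1 b2 pf : ℝ}

/-- the torus ratio as a power of `e` -/
lemma tt_pow {P : Par} {W ys x1 thp th C0 : ℝ} {X0 Q : ℕ}
    (hP : Sel P b1 b2 pf W ys X0 x1 Q thp th C0) {n r : ℕ} {e : ℝ} (he : 0 < e)
    (he1 : e ≤ 1) (hr : P.TT n e r) :
    (2 : ℝ) ^ (r - n) ≤ 2 ^ (1 + 4 * P.q0) * e ^ (-(th + 4 * (x1 + (Q + 3) * thp))) := by
  have hlog : 0 ≤ Real.logb 2 (1 / e) :=
    Real.logb_nonneg (by norm_num) (by rw [le_div_iff₀ he]; linarith)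
  obtain ⟨ℓ, hℓ⟩ : ∃ ℓ : ℝ, ℓ = Real.logb 2 (1 / e) := ⟨_, rfl⟩
  have k1 : (P.kE e : ℝ) ≤ P.th * Real.logb 2 (1 / e) + 1 := by
    have := P.th0
    exact (Nat.ceil_lt_add_one (by positivity)).le
  have k2 : (P.w e : ℝ) ≤ P.thp * Real.logb 2 (1 / e) + 1 := by
    have := P.thp0
    exact (Nat.ceil_lt_add_one (by positivity)).le
  rw [← hℓ] at hlog k1 k2
  have h1 : r - n ≤ P.kE e + P.q0 * (4 * P.w e) := by
    have := hr.2
    omega
  have h2 : ((r - n : ℕ) : ℝ) ≤ P.kE e + P.q0 * (4 * P.w e) := by exact_mod_cast h1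
  have h3 : ((r - n : ℕ) : ℝ) ≤ (th + 4 * (x1 + (Q + 3) * thp)) * ℓ + ((1 + 4 * P.q0 : ℕ) : ℝ) := by
    have h4 : (P.q0 : ℝ) * (4 * P.w e) ≤ P.q0 * (4 * (P.thp * ℓ + 1)) :=
      mul_le_mul_of_nonneg_left (by linarith) (Nat.cast_nonneg _)
    have h5 : (P.q0 : ℝ) * (4 * (P.thp * ℓ + 1)) = 4 * (P.q0 * P.thp) * ℓ + 4 * P.q0 := by ring
    have h6 := mul_le_mul_of_nonneg_right hP.hq hlog
    rw [h5] at h4
    rw [hP.hth] at k1
    push_cast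
    linarith
  rw [← Real.rpow_natCast]
  refine (Real.rpow_le_rpow_of_exponent_le (by norm_num) h3).trans (le_of_eq ?_)
  rw [Real.rpow_add (by norm_num), Real.rpow_natCast, mul_comm]
  congr 1
  rw [mul_comm _ ℓ, Real.rpow_mul (by norm_num), hℓ, Real.rpow_logb (by norm_num) (by norm_num)
    (by positivity), one_div, Real.inv_rpow he.le, Real.rpow_neg he.le]

/-- **AP of the state on all admissible tori and all finer cells** -/
theorem fam_apV {b : ℝ} (hb1 : 0 < b1) (h1 : b1 ≤ b) : Fam b1 b2 pf fun P _ =>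
    ∀ (a : ℝ) (n : ℕ) (e τ : ℝ), 0 < e → e ≤ P.es → 12 ≤ n → GP P b a n e τ → ∀ r, P.TT n e r →
    ∀ X : ℝ, 6 ≤ X → X ^ 2 * e ^ (-(P.th / 400)) ≤ 2 ^ (r - n) → X ≤ 2 ^ P.xE e →
    ∀ s', s' ≤ P.sE n e → AP b n r s' (X / 72) (tn n) (2 * e ^ (1 / 8 : ℝ)) := by
  have hb : 0 ≤ b := hb1.le.trans h1
  obtain ⟨Cc, cc, hCc, hcc, hcc1, hcell⟩ := H30.ap_cells_P hb
  obtain ⟨W0, h⟩ := fam_apTT (b1 := b1) (b2 := b2) (pf := pf) hb1
  refine ⟨W0, fun W hW => ?_⟩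
  obtain ⟨ys0, hys0, h⟩ := h W hW
  refine ⟨ys0, hys0, fun ys hy1 hy2 => ?_⟩
  obtain ⟨X00, h⟩ := h ys hy1 hy2
  refine ⟨X00, fun X0 hX0 => ?_⟩
  obtain ⟨r1, hr1, h⟩ := h X0 hX0
  refine ⟨r1, hr1, fun x1 hx1 hx1' => ?_⟩
  obtain ⟨Q0, h⟩ := h x1 hx1 hx1'
  refine ⟨Q0, fun Q hQ => ?_⟩
  obtain ⟨r2, hr2, h⟩ := h Q hQ
  refine ⟨r2, hr2, fun thp ht1 ht2 => ?_⟩
  obtain ⟨r3, hr3, h⟩ := h thp ht1 ht2
  refine ⟨r3, hr3, fun th ht3 ht4 => ?_⟩
  obtain ⟨C00, h⟩ := h th ht3 ht4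
  obtain ⟨ρ, hρ⟩ : ∃ ρ : ℝ, ρ = th + 4 * (x1 + (Q + 3) * thp) := ⟨_, rfl⟩
  refine ⟨max C00 ((1 / 4 + 2 * ρ + 6 * x1) / cc), fun C0 hC hC' => ?_⟩
  obtain ⟨E0, hE0, h⟩ := h C0 hC ((le_max_left _ _).trans hC')
  have hCC : 1 / 4 + 2 * ρ + 6 * x1 ≤ cc * C0 := by
    have h2 := (le_max_right _ _).trans hC'
    rw [div_le_iff₀ hcc] at h2
    linarith
  -- the constant depends on `q0`, which is bounded
  obtain ⟨qm, hqm⟩ : ∃ qm : ℕ, (x1 + (Q + 3) * thp) / thp ≤ qm := ⟨_, Nat.le_ceil _⟩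
  obtain ⟨E1, hE1, hE⟩ := small_pow (Cc * (2 ^ (1 + 4 * qm)) ^ 2 * 64) (p := 1 / 8) (by norm_num)
  refine ⟨min E0 (min 1 E1), by positivity, fun P hP hes => ?_⟩
  obtain ⟨N00, h⟩ := h P hP (hes.trans (min_le_left _ _))
  refine ⟨N00, fun N0 hN => ?_⟩
  intro a n e τ he hes' hn hG r hr X hX hXr hX2 s' hs'
  have he1 : e ≤ 1 := hes'.trans (hes.trans ((min_le_right _ _).trans (min_le_left _ _)))
  have key := h N0 hN b a n e τ he hes' hn hG r hr X (by linarith) hXr hX2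
  have hnr : n ≤ r := (Nat.le_add_right _ _).trans hr.1
  have e72 : X / 72 = X / 6 / 12 := by ring
  have pe : ∀ p : ℝ, 0 < e ^ p := fun p => Real.rpow_pos_of_pos he p
  rw [e72]
  refine hcell P n r s' e (X / 6) _ he hes' hnr hs' (by linarith) (by have := pe (1 / 8); linarith)
    ?_ key
  -- the numbers
  have t1 := tt_pow hP he he1 hr
  rw [← hρ] at t1
  have hq0 : P.q0 ≤ qm := by
    have h2 : (P.q0 : ℝ) ≤ (x1 + (Q + 3) * thp) / thp := by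
      rw [le_div_iff₀ ht1, ← hP.hthp]
      have := hP.hq
      rw [← hP.hthp] at this
      exact this
    exact_mod_cast h2.trans hqm
  have t2 : (2 : ℝ) ^ r / 2 ^ n = 2 ^ (r - n) := by
    rw [div_eq_iff (by positivity), ← pow_add]
    congr 1
    omega
  have t3 : (2 : ℝ) ^ (1 + 4 * P.q0) ≤ 2 ^ (1 + 4 * qm) :=
    pow_le_pow_right₀ (by norm_num) (by omega)
  have t4 : ((2 : ℝ) ^ (r - n)) ^ 2 ≤ (2 ^ (1 + 4 * qm)) ^ 2 * e ^ (-(2 * ρ)) := by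
    have h2 : (2 : ℝ) ^ (r - n) ≤ 2 ^ (1 + 4 * qm) * e ^ (-ρ) :=
      t1.trans (mul_le_mul_of_nonneg_right t3 (pe _).le)
    refine (pow_le_pow_left₀ (by positivity) h2 2).trans (le_of_eq ?_)
    have h3 : e ^ (-(2 * ρ)) = e ^ (-ρ) * e ^ (-ρ) := by
      rw [← Real.rpow_add he]
      ring_nf
    rw [h3]
    ring
  have t5 : (X / 6) ^ 6 ≤ 64 * e ^ (-(6 * x1)) := by
    have h2 : X / 6 ≤ 2 * e ^ (-x1) := by
      have h3 := two_lg_le (c := x1) hx1.le he he1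
      have h4 : X ≤ 2 * e ^ (-x1) := by
        refine hX2.trans ?_
        unfold Par.xE
        rw [hP.hx1]
        exact h3
      linarith
    refine (pow_le_pow_left₀ (by linarith) h2 6).trans (le_of_eq ?_)
    have h3 : e ^ (-(6 * x1)) = (e ^ (-x1)) ^ 6 := by
      rw [← Real.rpow_natCast, ← Real.rpow_mul he.le]
      congr 1
      push_cast
      ring
    rw [h3]
    ring
  rw [t2, hP.hC0]
  have t6 : e ^ (cc * C0) ≤ e ^ (1 / 4 + 2 * ρ + 6 * x1) :=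
    Real.rpow_le_rpow_of_exponent_ge he he1 hCC
  have t7 : e ^ (-(2 * ρ)) * e ^ (-(6 * x1)) * e ^ (1 / 4 + 2 * ρ + 6 * x1) =
      e ^ (1 / 8 : ℝ) * e ^ (1 / 8 : ℝ) := by
    rw [← Real.rpow_add he, ← Real.rpow_add he, ← Real.rpow_add he]
    congr 1
    ring
  have t8 := hE e he (hes'.trans (hes.trans ((min_le_right _ _).trans (min_le_right _ _))))
  calc Cc * (((2 : ℝ) ^ (r - n)) ^ 2 * (X / 6) ^ 6) * e ^ (cc * C0)
      ≤ Cc * (((2 ^ (1 + 4 * qm)) ^ 2 * e ^ (-(2 * ρ))) * (64 * e ^ (-(6 * x1)))) *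
        e ^ (1 / 4 + 2 * ρ + 6 * x1) := by
        refine mul_le_mul (mul_le_mul_of_nonneg_left (mul_le_mul t4 t5 (by positivity) ?_) hCc.le)
          t6 (pe _).le ?_
        · have := pe (-(2 * ρ))
          positivity
        · have := pe (-(2 * ρ))
          have := pe (-(6 * x1))
          positivity
    _ = Cc * (2 ^ (1 + 4 * qm)) ^ 2 * 64 *
        (e ^ (-(2 * ρ)) * e ^ (-(6 * x1)) * e ^ (1 / 4 + 2 * ρ + 6 * x1)) := by ring
    _ = Cc * (2 ^ (1 + 4 * qm)) ^ 2 * 64 * e ^ (1 / 8 : ℝ) * e ^ (1 / 8 : ℝ) := by rw [t7]; ring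
    _ ≤ 1 * e ^ (1 / 8 : ℝ) := mul_le_mul_of_nonneg_right t8 (pe _).le
    _ ≤ 2 * e ^ (1 / 8 : ℝ) := by have := pe (1 / 8); linarith

end

end Vale.Agent.P159.H789
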