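import Vale.Agent.P159.H789.Closure
import Vale.Agent.P159.H612.Local

/-!
P159, helper789: the calculus of `R` along lines, `C_J ≥ G`, `R` convex, and the closure lemma
`R(2ⁿ J) ≤ 1 → R(J) ≤ 8 (κ₄(J,J,J,J)/2)^(1 - 2^(-n))`.
-/

open scoped Topology
open Finset Filter Matrix Set

namespace Vale.Agent.P159.H789

open Vale.Agent.P159.H37
open TM.H104 (EM Ex Cv Lg li nh Gr)

variable {V : Type*} [Fintype V] {μ : (V → ℤ) → ℝ}

theorem qf_line (M : Matrix V V ℝ) (J u : V → ℝ) (s : ℝ) :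
    qf M (J + s • u) = qf M J + s * (bf M J u + bf M u J) + s ^ 2 * qf M u := by
  unfold qf bf
  simp only [Finset.mul_sum, ← Finset.sum_add_distrib, Pi.add_apply, Pi.smul_apply, smul_eq_mul]
  exact Finset.sum_congr rfl fun i _ => Finset.sum_congr rfl fun j _ => by ring

theorem bf_Gm_comm (μ : (V → ℤ) → ℝ) (J u : V → ℝ) : bf (Gm μ) J u = bf (Gm μ) u J :=
  bf_comm (Cm_symm μ 0) J u

/-- first derivative of `R` along a line -/
theorem hasDerivAt_Rs (hμ : EM μ) (J u : V → ℝ) (s : ℝ) :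
    HasDerivAt (fun s : ℝ => Rs μ (J + s • u))
      (Ex μ (J + s • u) (li u) - bf (Gm μ) u (J + s • u)) s := by
  have h1 := TM.H104.hasDerivAt_Lg hμ J u s
  have h2 : HasDerivAt (fun s : ℝ => qf (Gm μ) (J + s • u)) (2 * bf (Gm μ) u (J + s • u)) s := by
    have e : (fun s : ℝ => qf (Gm μ) (J + s • u)) =
        fun s => qf (Gm μ) J + s * (bf (Gm μ) J u + bf (Gm μ) u J) + s ^ 2 * qf (Gm μ) u :=
      funext fun s => qf_line _ J u s
    rw [e]
    have h3 : HasDerivAt (fun s : ℝ => qf (Gm μ) J + s * (bf (Gm μ) J u + bf (Gm μ) u J) +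
        s ^ 2 * qf (Gm μ) u)
        (1 * (bf (Gm μ) J u + bf (Gm μ) u J) + (2 : ℕ) * s ^ (2 - 1) * 1 * qf (Gm μ) u) s :=
      (((hasDerivAt_id s).mul_const _).const_add _).add
        (((hasDerivAt_id s).pow 2).mul_const _)
    refine h3.congr_deriv ?_
    rw [bf_add_right, bf_smul_right, bf_Gm_comm μ J u, bf_self]
    push_cast
    ring
  have h4 := (h1.sub_const (Lg μ 0)).sub (h2.div_const 2)
  refine h4.congr_deriv ?_
  ring

/-- second derivative of `R` along a line -/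
theorem hasDerivAt_Rs' (hμ : EM μ) (J u : V → ℝ) (s : ℝ) :
    HasDerivAt (fun s : ℝ => Ex μ (J + s • u) (li u) - bf (Gm μ) u (J + s • u))
      (Cv μ (J + s • u) (li u) (li u) - Cv μ 0 (li u) (li u)) s := by
  have h1 := TM.H104.hasDerivAt_Ex hμ (Gr.li u) J u s
  have h2 : HasDerivAt (fun s : ℝ => bf (Gm μ) u (J + s • u)) (qf (Gm μ) u) s := by
    have e : (fun s : ℝ => bf (Gm μ) u (J + s • u)) =
        fun s => bf (Gm μ) u J + s * qf (Gm μ) u := by
      funext s
      rw [bf_add_right, bf_smul_right, bf_self]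
    rw [e]
    have h3 := ((hasDerivAt_id s).mul_const (qf (Gm μ) u)).const_add (bf (Gm μ) u J)
    refine h3.congr_deriv ?_
    ring
  rw [← qf_Gm hμ u]
  exact h1.sub h2

theorem Ex_zero_li (he : Ev μ) (u : V → ℝ) : Ex μ 0 (li u) = 0 := by
  unfold TM.H104.Ex
  rw [T_odd he fun h => li_negh u h, zero_div]

theorem Cv_neg_neg (μ : (V → ℤ) → ℝ) (J u : V → ℝ) :
    Cv μ J (li (-u)) (li (-u)) = Cv μ J (li u) (li u) := by
  have e1 : li (-u) = fun h : V → ℤ => (-1) * li u h := by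
    funext h
    rw [TM.H104.li_neg]
    ring
  unfold TM.H104.Cv
  rw [e1]
  have e2 : (fun h : V → ℤ => -1 * li u h * (-1 * li u h)) = fun h => li u h * li u h := by
    funext h; ring
  rw [e2, TM.H104.Ex_cmul]
  ring

/-- **the covariance at a real tilt dominates the covariance at tilt `0`** -/
theorem Cv_mono (hμ : EM μ) (he : Ev μ) (hK : PK μ) (J u : V → ℝ) :
    Cv μ 0 (li u) (li u) ≤ Cv μ J (li u) (li u) := by
  set g : ℝ → ℝ := fun s => Rs μ (J + s • u) + Rs μ (J + s • (-u)) - 2 * Rs μ (0 + s • u) with hg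
  set g' : ℝ → ℝ := fun s => (Ex μ (J + s • u) (li u) - bf (Gm μ) u (J + s • u)) +
    (Ex μ (J + s • (-u)) (li (-u)) - bf (Gm μ) (-u) (J + s • (-u))) -
    2 * (Ex μ (0 + s • u) (li u) - bf (Gm μ) u (0 + s • u)) with hg'
  have h1 : ∀ s, HasDerivAt g (g' s) s := fun s =>
    ((hasDerivAt_Rs hμ J u s).add (hasDerivAt_Rs hμ J (-u) s)).sub
      ((hasDerivAt_Rs hμ 0 u s).const_mul 2)
  have h2 : HasDerivAt g' ((Cv μ (J + (0 : ℝ) • u) (li u) (li u) - Cv μ 0 (li u) (li u)) +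
      (Cv μ (J + (0 : ℝ) • (-u)) (li (-u)) (li (-u)) - Cv μ 0 (li (-u)) (li (-u))) -
      2 * (Cv μ (0 + (0 : ℝ) • u) (li u) (li u) - Cv μ 0 (li u) (li u))) 0 :=
    ((hasDerivAt_Rs' hμ J u 0).add (hasDerivAt_Rs' hμ J (-u) 0)).sub
      ((hasDerivAt_Rs' hμ 0 u 0).const_mul 2)
  have h0 : g' 0 = 0 := by
    have e1 : Ex μ J (li (-u)) = -Ex μ J (li u) := by
      have e1 : li (-u) = fun h : V → ℤ => (-1) * li u h := by
        funext h
        rw [TM.H104.li_neg]
        ring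
      rw [e1, TM.H104.Ex_cmul]
      ring
    have e2 : bf (Gm μ) (-u) J = -bf (Gm μ) u J := by
      have := bf_smul_left (Gm μ) (-1) u J
      rw [neg_one_smul] at this
      rw [this]
      ring
    have e3 : bf (Gm μ) u 0 = 0 := by simp [bf]
    simp only [hg', zero_smul, add_zero, e1, e2, Ex_zero_li he, e3]
    ring
  have h3 := H612.quad_lim h1 h2 h0
  have h4 : (Cv μ (J + (0 : ℝ) • u) (li u) (li u) - Cv μ 0 (li u) (li u) +
      (Cv μ (J + (0 : ℝ) • (-u)) (li (-u)) (li (-u)) - Cv μ 0 (li (-u)) (li (-u))) -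
      2 * (Cv μ (0 + (0 : ℝ) • u) (li u) (li u) - Cv μ 0 (li u) (li u))) / 2 =
      Cv μ J (li u) (li u) - Cv μ 0 (li u) (li u) := by
    simp only [zero_smul, add_zero, Cv_neg_neg]
    ring
  rw [h4] at h3
  have h5 : 0 ≤ Cv μ J (li u) (li u) - Cv μ 0 (li u) (li u) := by
    refine ge_of_tendsto h3 (Eventually.of_forall fun s => div_nonneg ?_ (sq_nonneg s))
    have h6 := Rs_par hμ he hK J (s • u)
    have h7 : g 0 = 2 * Rs μ J := by
      simp only [hg, zero_smul, add_zero, Rs_zero]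
      ring
    have h8 : g s = Rs μ (J + s • u) + Rs μ (J - s • u) - 2 * Rs μ (s • u) := by
      simp only [hg, smul_neg, zero_add, ← sub_eq_add_neg]
    rw [h7, h8]
    linarith
  linarith

theorem qf_mono (hμ : EM μ) (he : Ev μ) (hK : PK μ) (J u : V → ℝ) :
    qf (Gm μ) u ≤ qf (Cm μ J) u := by
  rw [qf_Gm hμ, qf_Cm hμ]
  exact Cv_mono hμ he hK J u

/-- `R` is convex -/
theorem Rs_convex (hμ : EM μ) (he : Ev μ) (hK : PK μ) : ConvexOn ℝ Set.univ (Rs μ) := by
  refine ⟨convex_univ, fun x _ y _ a b ha hb hab => ?_⟩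
  have h1 : ConvexOn ℝ Set.univ fun s : ℝ => Rs μ (x + s • (y - x)) := by
    refine convexOn_univ_of_deriv2_nonneg (fun s => (hasDerivAt_Rs hμ x (y - x) s).differentiableAt)
      ?_ ?_
    · have e : deriv (fun s : ℝ => Rs μ (x + s • (y - x))) = fun s => Ex μ (x + s • (y - x))
          (li (y - x)) - bf (Gm μ) (y - x) (x + s • (y - x)) :=
        funext fun s => (hasDerivAt_Rs hμ x (y - x) s).deriv
      rw [e]
      exact fun s => (hasDerivAt_Rs' hμ x (y - x) s).differentiableAt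
    · intro s
      have e : deriv (fun s : ℝ => Rs μ (x + s • (y - x))) = fun s => Ex μ (x + s • (y - x))
          (li (y - x)) - bf (Gm μ) (y - x) (x + s • (y - x)) :=
        funext fun s => (hasDerivAt_Rs hμ x (y - x) s).deriv
      rw [Function.iterate_succ, Function.iterate_one, Function.comp_apply, e,
        (hasDerivAt_Rs' hμ x (y - x) s).deriv]
      exact sub_nonneg.2 (Cv_mono hμ he hK _ _)
  have h2 := h1.2 (Set.mem_univ 0) (Set.mem_univ 1) ha hb hab
  simp only [smul_eq_mul, mul_zero, mul_one, zero_add, zero_smul, add_zero, one_smul,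
    add_sub_cancel] at h2
  have e : x + b • (y - x) = a • x + b • y := by
    have : a = 1 - b := by linarith
    rw [this]
    module
  rw [e] at h2
  exact h2

/-- `R ≥ 0` -/
theorem Rs_nonneg (hμ : EM μ) (he : Ev μ) (hK : PK μ) (J : V → ℝ) : 0 ≤ Rs μ J := by
  have h1 := (Rs_convex hμ he hK).2 (Set.mem_univ J) (Set.mem_univ (-J))
    (show (0 : ℝ) ≤ 1 / 2 by norm_num) (show (0 : ℝ) ≤ 1 / 2 by norm_num) (by norm_num)
  have e : (1 / 2 : ℝ) • J + (1 / 2 : ℝ) • -J = 0 := by module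
  rw [e, Rs_zero, Rs_neg he] at h1
  simp only [smul_eq_mul] at h1
  linarith

/-- `R` is nondecreasing along rays -/
theorem Rs_ray_mono (hμ : EM μ) (he : Ev μ) (hK : PK μ) (J : V → ℝ) {s s' : ℝ} (hs : 0 ≤ s)
    (hss : s ≤ s') : Rs μ (s • J) ≤ Rs μ (s' • J) := by
  rcases hs.eq_or_lt with h | h
  · rw [← h, zero_smul, Rs_zero]
    exact Rs_nonneg hμ he hK _
  · have hs' : 0 < s' := h.trans_le hss
    have h1 := (Rs_convex hμ he hK).2 (Set.mem_univ (s' • J)) (Set.mem_univ (0 : V → ℝ))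
      (show 0 ≤ s / s' by positivity) (show 0 ≤ 1 - s / s' by
        rw [sub_nonneg, div_le_one hs']; exact hss) (by ring)
    rw [smul_zero, add_zero, smul_smul, div_mul_cancel₀ s hs'.ne', Rs_zero] at h1
    simp only [smul_eq_mul, mul_zero, add_zero] at h1
    refine h1.trans ?_
    have h2 := Rs_nonneg hμ he hK (s' • J)
    have h3 : s / s' ≤ 1 := (div_le_one hs').2 hss
    nlinarith

/-- **CLOSURE LEMMA.** `R(2ⁿ J) ≤ 1 → R(J) ≤ 8 m^(2 - 2^(1-n))`, `m² = κ₄(J,J,J,J)/2` -/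
theorem Rs_closure (hμ : EM μ) (he : Ev μ) (hK : PK μ) (J : V → ℝ) (n : ℕ)
    (h : Rs μ ((2 : ℝ) ^ n • J) ≤ 1) :
    Rs μ J ≤ 8 * Real.sqrt (H37.K4 μ J J J J / 2) ^ (2 - 2 * (1 / 2 : ℝ) ^ n) := by
  have hK4 : 0 ≤ H37.K4 μ J J J J := K4_nonneg' hμ he hK J J
  have h1 := closure_real (ψ := fun s => Rs μ (0 + s • J))
    (ψ' := fun s => Ex μ (0 + s • J) (li J) - bf (Gm μ) J (0 + s • J))
    (ψ'' := fun s => Cv μ (0 + s • J) (li J) (li J) - Cv μ 0 (li J) (li J))
    (m := Real.sqrt (H37.K4 μ J J J J / 2)) (Real.sqrt_nonneg _)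
    (fun s => hasDerivAt_Rs hμ 0 J s) (fun s => hasDerivAt_Rs' hμ 0 J s)
    (by simp [Rs_zero]) (by
      have e3 : bf (Gm μ) J 0 = 0 := by simp [bf]
      simp [Ex_zero_li he, e3])
    (fun s _ => Rs_nonneg hμ he hK _)
    (fun s s' h0 h1 => by
      simp only [zero_add]
      exact Rs_ray_mono hμ he hK J h0 h1)
    (fun s _ => by
      have h2 := star' hμ he hK (0 + s • J) J J
      have h3 := Tq_eq μ (0 + s • J)
      have h4 := Rs_nonneg hμ he hK (0 + s • J)
      have h5 : Tq μ (0 + s • J) ≤ Rs μ (0 + (2 * s) • J) := by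
        have : (2 : ℝ) • ((0 : V → ℝ) + s • J) = 0 + (2 * s) • J := by
          rw [zero_add, zero_add, smul_smul]
        rw [this] at h3
        linarith
      have h6 : Real.exp (Tq μ (0 + s • J)) - 1 ≤ Real.exp (Rs μ (0 + (2 * s) • J)) - 1 := by
        have := Real.exp_le_exp.2 h5
        linarith
      have h7 : 0 ≤ Real.exp (Rs μ (0 + (2 * s) • J)) - 1 := by
        have := Real.add_one_le_exp (Rs μ (0 + (2 * s) • J))
        have := Rs_nonneg hμ he hK (0 + (2 * s) • J)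
        linarith
      rw [← Real.sqrt_mul (by positivity)]
      refine Real.le_sqrt_of_sq_le (h2.trans ?_)
      have h8 := mul_le_mul_of_nonneg_right h6 hK4
      linarith) n 1 zero_le_one (by
        simp only [zero_add, mul_one]
        exact h)
  simpa using h1

end Vale.Agent.P159.H789
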