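import Vale.Agent.P159.H789.StA

/-!
P159 (helper789), **strong R numbers**, part C: averaging operators and smooth local cuts.

* `Av r S`    : contraction in norm and in energy, `|f - S f|² ≤ r² dirE f`;
* `Av.cvm`    : convolution with a probability kernel of range `q` is `Av` with `r² = 2 q²`;
  `Av.mul`, `Av.transpose` for products and reflected kernels;
* `Av.cut`    : `a (1 - S)` is in the class `LM (8 + 8 (A r)²)` if `|a| ≤ 1`, `|grad a| ≤ A`.
-/

set_option linter.unusedSectionVars false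

namespace Vale.Agent.P159.H789

open Finset Matrix
open Vale.Agent.P159.TM.H764 (EE Q grd)
open Vale.Agent.P159.H37
open Vale.Agent.P159.TM.Spec (V)
open Vale.Agent.P159.H864 (TI sym lapM ti_lapM)

noncomputable section

variable {M : ℕ} [NeZero M]

/-- averaging operators of range `r` -/
structure Av (r : ℝ) (S : Matrix (V M) (V M) ℝ) : Prop where
  cn : ∀ f : V M → ℝ, ∑ x, (S *ᵥ f) x ^ 2 ≤ ∑ x, f x ^ 2
  gr : ∀ f : V M → ℝ, qf lapM (S *ᵥ f) ≤ qf lapM f
  ap : ∀ f : V M → ℝ, ∑ x, (f x - (S *ᵥ f) x) ^ 2 ≤ r ^ 2 * qf lapM f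

lemma lap_nn (f : V M → ℝ) : 0 ≤ qf lapM f := by
  rw [H864.qf_lapM]
  exact H859.grd_nonneg f

lemma sum_sq_add {ι : Type*} [Fintype ι] {f g : ι → ℝ} {x y : ℝ} (hx : 0 ≤ x) (hy : 0 ≤ y)
    (hf : ∑ i, f i ^ 2 ≤ x ^ 2) (hg : ∑ i, g i ^ 2 ≤ y ^ 2) :
    ∑ i, (f i + g i) ^ 2 ≤ (x + y) ^ 2 := by
  have h1 : (∑ i, f i * g i) ^ 2 ≤ (∑ i, f i ^ 2) * ∑ i, g i ^ 2 :=
    Finset.sum_mul_sq_le_sq_mul_sq _ _ _
  have hf0 : 0 ≤ ∑ i, f i ^ 2 := Finset.sum_nonneg fun _ _ => sq_nonneg _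
  have hg0 : 0 ≤ ∑ i, g i ^ 2 := Finset.sum_nonneg fun _ _ => sq_nonneg _
  have h2 : (∑ i, f i * g i) ^ 2 ≤ (x * y) ^ 2 := by
    rw [mul_pow]
    exact h1.trans (mul_le_mul hf hg hg0 (sq_nonneg _))
  have h3 : ∑ i, f i * g i ≤ x * y := abs_le_of_sq_le_sq' h2 (mul_nonneg hx hy) |>.2
  have e : ∑ i, (f i + g i) ^ 2 = ∑ i, f i ^ 2 + 2 * ∑ i, f i * g i + ∑ i, g i ^ 2 := by
    rw [Finset.mul_sum, ← Finset.sum_add_distrib, ← Finset.sum_add_distrib]
    exact Finset.sum_congr rfl fun i _ => by ring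
  rw [e]
  nlinarith

/-- products of averaging operators -/
theorem Av.mul {r r' : ℝ} {S S' : Matrix (V M) (V M) ℝ} (h : Av r S) (h' : Av r' S')
    (hr : 0 ≤ r) (hr' : 0 ≤ r') : Av (r + r') (S * S') := by
  refine ⟨fun f => ?_, fun f => ?_, fun f => ?_⟩
  · rw [← mulVec_mulVec]
    exact (h.cn _).trans (h'.cn f)
  · rw [← mulVec_mulVec]
    exact (h.gr _).trans (h'.gr f)
  · have hE := lap_nn f
    have h1 : ∑ x, (f x - (S *ᵥ f) x) ^ 2 ≤ (r * √(qf lapM f)) ^ 2 := by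
      rw [mul_pow, Real.sq_sqrt hE]
      exact h.ap f
    have h2 : ∑ x, ((S *ᵥ (fun x => f x - (S' *ᵥ f) x)) x) ^ 2 ≤ (r' * √(qf lapM f)) ^ 2 := by
      refine (h.cn _).trans ?_
      rw [mul_pow, Real.sq_sqrt hE]
      exact h'.ap f
    have h3 := sum_sq_add (by positivity) (by positivity) h1 h2
    have e : ∀ x, f x - ((S * S') *ᵥ f) x =
        (f x - (S *ᵥ f) x) + (S *ᵥ (fun x => f x - (S' *ᵥ f) x)) x := by
      intro x
      have e1 : (fun x => f x - (S' *ᵥ f) x) = f - S' *ᵥ f := rfl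
      rw [e1, mulVec_sub, ← mulVec_mulVec, Pi.sub_apply]
      ring
    simp_rw [e]
    refine h3.trans (le_of_eq ?_)
    rw [← add_mul, mul_pow, Real.sq_sqrt hE]

/-- convolution matrix -/
def cvm (w : V M → ℝ) : Matrix (V M) (V M) ℝ := Matrix.of fun x y => w (y - x)

lemma cvm_apply (w f : V M → ℝ) (x : V M) : (cvm w *ᵥ f) x = ∑ z, w z * f (x + z) := by
  unfold Matrix.mulVec dotProduct cvm
  simp only [Matrix.of_apply]
  rw [← Equiv.sum_comp (Equiv.addLeft x) (fun y => w (y - x) * f y)]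
  refine Finset.sum_congr rfl fun z _ => ?_
  simp only [Equiv.coe_addLeft, add_sub_cancel_left]

/-- variance inequality -/
lemma wt_sq {ι : Type*} [Fintype ι] {w a : ι → ℝ} (h0 : ∀ i, 0 ≤ w i) (h1 : ∑ i, w i = 1) :
    (∑ i, w i * a i) ^ 2 ≤ ∑ i, w i * a i ^ 2 := by
  obtain ⟨m, hm⟩ : ∃ m, m = ∑ i, w i * a i := ⟨_, rfl⟩
  have h2 : 0 ≤ ∑ i, w i * (a i - m) ^ 2 :=
    Finset.sum_nonneg fun i _ => mul_nonneg (h0 i) (sq_nonneg _)
  have e : ∑ i, w i * (a i - m) ^ 2 = ∑ i, w i * a i ^ 2 - 2 * m * ∑ i, w i * a i +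
      m ^ 2 * ∑ i, w i := by
    rw [Finset.mul_sum, Finset.mul_sum, ← Finset.sum_sub_distrib, ← Finset.sum_add_distrib]
    exact Finset.sum_congr rfl fun i _ => by ring
  rw [e, h1, ← hm] at h2
  rw [← hm]
  nlinarith

lemma cvm_cn {w : V M → ℝ} (h0 : ∀ z, 0 ≤ w z) (h1 : ∑ z, w z = 1) (f : V M → ℝ) :
    ∑ x, (cvm w *ᵥ f) x ^ 2 ≤ ∑ x, f x ^ 2 := by
  have e : ∑ x, ∑ z, w z * f (x + z) ^ 2 = ∑ x, f x ^ 2 := by
    rw [Finset.sum_comm]
    have e2 : ∀ z, ∑ x, w z * f (x + z) ^ 2 = w z * ∑ x, f x ^ 2 := by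
      intro z
      rw [← Finset.mul_sum]
      congr 1
      exact Equiv.sum_comp (Equiv.addRight z) (fun x => f x ^ 2)
    simp_rw [e2]
    rw [← Finset.sum_mul, h1, one_mul]
  rw [← e]
  refine Finset.sum_le_sum fun x _ => ?_
  rw [cvm_apply]
  exact wt_sq h0 h1

/-- **convolution with a probability kernel** -/
theorem Av.cvm {w : V M → ℝ} (h0 : ∀ z, 0 ≤ w z) (h1 : ∑ z, w z = 1) {q : ℕ}
    (hq : ∀ z, w z ≠ 0 → TM.H764.nrm z ≤ q) : Av (2 * (q : ℝ)) (H789.cvm w) := by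
  refine ⟨cvm_cn h0 h1, fun f => ?_, fun f => ?_⟩
  · rw [H864.qf_lapM, H864.qf_lapM]
    have h2 : ∀ e : V M, Q (H789.cvm w *ᵥ f) e ≤ Q f e := by
      intro e
      unfold Q
      have h3 := cvm_cn h0 h1 (fun x => f (x + e) - f x)
      refine le_trans (le_of_eq ?_) h3
      refine Finset.sum_congr rfl fun x _ => ?_
      rw [cvm_apply, cvm_apply, cvm_apply, ← Finset.sum_sub_distrib]
      congr 1
      refine Finset.sum_congr rfl fun z _ => ?_
      have e1 : x + e + z = x + z + e := by abel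
      rw [e1]
      ring
    unfold grd
    exact add_le_add (h2 _) (h2 _)
  · have h2 : ∀ x, (f x - (H789.cvm w *ᵥ f) x) ^ 2 ≤ ∑ z, w z * (f (x + z) - f x) ^ 2 := by
      intro x
      have e1 : f x - (H789.cvm w *ᵥ f) x = -∑ z, w z * (f (x + z) - f x) := by
        rw [cvm_apply]
        have e2 : ∑ z, w z * (f (x + z) - f x) = ∑ z, w z * f (x + z) - (∑ z, w z) * f x := by
          rw [Finset.sum_mul, ← Finset.sum_sub_distrib]
          exact Finset.sum_congr rfl fun z _ => by ring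
        rw [e2, h1]
        ring
      rw [e1, neg_sq]
      exact wt_sq h0 h1
    refine (Finset.sum_le_sum fun x _ => h2 x).trans ?_
    rw [Finset.sum_comm]
    have h3 : ∀ z, ∑ x, w z * (f (x + z) - f x) ^ 2 ≤ w z * (4 * (q : ℝ) ^ 2 * qf lapM f) := by
      intro z
      rw [← Finset.mul_sum]
      by_cases hz : w z = 0
      · rw [hz]
        simp
      · refine mul_le_mul_of_nonneg_left ?_ (h0 z)
        have h4 := H859.Q_le f z
        have h5 : (TM.H764.nrm z : ℝ) ^ 2 ≤ (q : ℝ) ^ 2 :=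
          pow_le_pow_left₀ (Nat.cast_nonneg _) (by exact_mod_cast hq z hz) 2
        have h6 := H859.grd_nonneg f
        rw [H864.qf_lapM]
        have h7 : Q f z = ∑ x, (f (x + z) - f x) ^ 2 := rfl
        rw [← h7]
        have h8 := mul_le_mul_of_nonneg_right h5 h6
        nlinarith
    refine (Finset.sum_le_sum fun z _ => h3 z).trans (le_of_eq ?_)
    rw [← Finset.sum_mul, h1, one_mul]
    ring

/-- **smooth local cuts** -/
theorem Av.cut {r A : ℝ} {S : Matrix (V M) (V M) ℝ} (h : Av r S) {a : V M → ℝ}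
    (h1 : ∀ x, |a x| ≤ 1) (h2 : ∀ x, |a (x + (1, 0)) - a x| ≤ A)
    (h3 : ∀ x, |a (x + (0, 1)) - a x| ≤ A) :
    LM (8 + 8 * (A * r) ^ 2) (Matrix.diagonal a * (1 - S)) := by
  have e0 : ∀ f x, ((Matrix.diagonal a * (1 - S)) *ᵥ f) x = a x * (f x - (S *ᵥ f) x) := by
    intro f x
    rw [← mulVec_mulVec, Matrix.mulVec_diagonal, sub_mulVec, one_mulVec, Pi.sub_apply]
  refine ⟨fun f => ?_, fun f => ?_⟩
  · have hf : 0 ≤ ∑ x, f x ^ 2 := Finset.sum_nonneg fun _ _ => sq_nonneg _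
    have h4 : ∑ x, ((Matrix.diagonal a * (1 - S)) *ᵥ f) x ^ 2 ≤
        ∑ x, (2 * f x ^ 2 + 2 * (S *ᵥ f) x ^ 2) := by
      refine Finset.sum_le_sum fun x _ => ?_
      rw [e0, mul_pow]
      have h5 : a x ^ 2 ≤ 1 := by
        rw [sq_le_one_iff_abs_le_one]
        exact h1 x
      have h6 : a x ^ 2 * (f x - (S *ᵥ f) x) ^ 2 ≤ 1 * (f x - (S *ᵥ f) x) ^ 2 :=
        mul_le_mul_of_nonneg_right h5 (sq_nonneg _)
      nlinarith [sq_nonneg (f x + (S *ᵥ f) x)]
    rw [Finset.sum_add_distrib, ← Finset.mul_sum, ← Finset.mul_sum] at h4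
    have h5 := h.cn f
    have h6 : 0 ≤ 8 * (A * r) ^ 2 * ∑ x, f x ^ 2 := by positivity
    nlinarith
  · obtain ⟨g, hg⟩ : ∃ g : V M → ℝ, g = fun x => f x - (S *ᵥ f) x := ⟨_, rfl⟩
    have e1 : (Matrix.diagonal a * (1 - S)) *ᵥ f = fun x => a x * g x := by
      funext x
      rw [e0, hg]
    rw [e1]
    have hQ : ∀ e : V M, (∀ x, |a (x + e) - a x| ≤ A) →
        Q (fun x => a x * g x) e ≤ 2 * Q g e + 2 * A ^ 2 * ∑ x, g x ^ 2 := by
      intro e he
      unfold Q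
      rw [Finset.mul_sum, Finset.mul_sum, ← Finset.sum_add_distrib]
      refine Finset.sum_le_sum fun x _ => ?_
      have h4 : a (x + e) ^ 2 ≤ 1 := by
        rw [sq_le_one_iff_abs_le_one]
        exact h1 _
      have h5 : (a (x + e) - a x) ^ 2 ≤ A ^ 2 := by
        rw [← sq_abs]
        exact pow_le_pow_left₀ (abs_nonneg _) (he x) 2
      have h6 := mul_le_mul_of_nonneg_right h4 (sq_nonneg (g (x + e) - g x))
      have h7 := mul_le_mul_of_nonneg_right h5 (sq_nonneg (g x))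
      have e2 : a (x + e) * g (x + e) - a x * g x =
          a (x + e) * (g (x + e) - g x) + (a (x + e) - a x) * g x := by ring
      rw [e2]
      nlinarith [sq_nonneg (a (x + e) * (g (x + e) - g x) - (a (x + e) - a x) * g x)]
    have hg1 : ∑ x, g x ^ 2 ≤ r ^ 2 * qf lapM f := by
      rw [hg]
      exact h.ap f
    have hg2 : grd g ≤ 4 * qf lapM f := by
      have h4 := h.gr f
      rw [H864.qf_lapM, H864.qf_lapM] at h4
      rw [H864.qf_lapM]
      have h5 : ∀ e : V M, Q g e ≤ 2 * Q f e + 2 * Q (S *ᵥ f) e := by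
        intro e
        unfold Q
        rw [Finset.mul_sum, Finset.mul_sum, ← Finset.sum_add_distrib]
        refine Finset.sum_le_sum fun x _ => ?_
        simp only [hg]
        nlinarith [sq_nonneg ((f (x + e) - f x) + ((S *ᵥ f) (x + e) - (S *ᵥ f) x))]
      have h6 := h5 (1, 0)
      have h7 := h5 (0, 1)
      unfold grd at h4 ⊢
      linarith
    rw [H864.qf_lapM]
    have h4 := hQ (1, 0) h2
    have h5 := hQ (0, 1) h3
    have h6 : grd (fun x => a x * g x) ≤ 2 * grd g + 4 * A ^ 2 * ∑ x, g x ^ 2 := by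
      unfold grd
      linarith
    have h7 : 4 * A ^ 2 * ∑ x, g x ^ 2 ≤ 4 * A ^ 2 * (r ^ 2 * qf lapM f) :=
      mul_le_mul_of_nonneg_left hg1 (by positivity)
    have h8 : 0 ≤ (A * r) ^ 2 * qf lapM f := mul_nonneg (sq_nonneg _) (lap_nn f)
    rw [← H864.qf_lapM]
    rw [← H864.qf_lapM] at h6
    nlinarith

end

end Vale.Agent.P159.H789
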