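import Vale.Agent.P159.H789.StB
import Vale.Agent.P159.H586.Fern1
import Vale.Agent.P159.H859.Gtr
import Vale.Agent.P159.H447.Sit6
import Vale.Agent.P159.H789.StC
import Vale.Agent.P159.H692.FB

/-!
P159 (helper789), **strong R numbers**, part D: deterministic smooth sources (input `hR` of
helper817's `sys_rh`).

* `inv_Sgn`  : `<x, Sgn⁻¹ x> ≤ 4 / T² (s |x|² + kap dirE x / l²)`;
* `lap_CN`   : `dirE (CN F) ≤ l² dirE F`;
* `smooth_R` : from the typical law of the cells (every small prior mass), for every real field `F`: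
  `Rs (y • Pn (T • F)) ≤ lvS rho j k / 2 + 16 y² T l² dirE F` as soon as `32 y² kap dirE F ≤ 4 ^ j`.
-/

set_option linter.unusedSectionVars false

namespace Vale.Agent.P159.H789

open Finset Matrix MeasureTheory Filter Topology
open Vale.Agent.P159.TM.H104 (EM Ex Cv K3 Lg li nh Gr)
open Vale.Agent.P159.TM.H764 (EE Q grd)
open Vale.Agent.P159.H37
open Vale.Agent.P159.TM.Spec (V)
open Vale.Agent.P159.TM.SpecC (wT)
open Vale.Agent.P159.H864 (TI sym cobV l_pos lapM ti_lapM cl up)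
open Vale.Agent.P159.H963 (Neu pin Pn nwt nMC obsN Gnc PinC)
open Vale.Agent.P159.H859 (Sgn Rk)
open Vale.Agent.P159.H730 (wN)
open Vale.Agent.P159.H447
open Vale.Agent.P159.H239 (TypE)

noncomputable section

variable {N l : ℕ} [NeZero N] [NeZero (N / l)] {b T s : ℝ}

/-- **norm of the inverse source** on neutral vectors -/
theorem inv_Sgn (hb : 0 < b) (hl : l ∣ N) (hs : 0 < s) (hsT : s ≤ T / 2) {κ : ℝ}
    (hκ : 1 ≤ κ) (hP : ∀ k : V (N / l), k ≠ 0 → EE k ≤ T * (l : ℝ) ^ 2 →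
      (l : ℝ) ^ 2 * PinC N l b T T k ≤ κ * EE k) {x : V (N / l) → ℝ} (hx : Neu x) :
    qf (Sgn N l b T s)⁻¹ x ≤
      4 / T ^ 2 * (s * ∑ i, x i ^ 2 + κ / (l : ℝ) ^ 2 * qf lapM x) := by
  have hT : 0 < T := by linarith
  have hsT' : s < T := by linarith
  have hTs : 0 < T - s := sub_pos.2 hsT'
  have hl0 : (0 : ℝ) < l := by exact_mod_cast l_pos hl
  have hκ0 : 0 < κ := by linarith
  have hκl : 0 < κ / (l : ℝ) ^ 2 := by positivity
  have hS : TI (Sgn N l b T s) := ((TI.one.smul _).sub (H963.ti_Gnc hb.le hl hT le_rfl)).inv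
  have hu : IsUnit (Sgn N l b T s).det :=
    H859.pd_unit ((H859.dat_neu' (N := N) (l := l) hb hl hT).pd hs hsT')
  have h1 := H896.qf_neu_le (S := (Sgn N l b T s)⁻¹)
    (R := s • (1 : Matrix (V (N / l)) (V (N / l)) ℝ) + (κ / (l : ℝ) ^ 2) • lapM)
    hS.inv (H859.ti_op _ _) (c := 4 / T ^ 2) (fun k hk => by
      rw [H864.sym_inv hS hu, H859.sym_op]
      have h2 := sym_Sgn_low hb hl hs hsT' hκ hP hk
      have hE : 0 ≤ EE k := H462.EE_nonneg k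
      obtain ⟨K, hK⟩ : ∃ K, K = κ / (l : ℝ) ^ 2 * EE k := ⟨_, rfl⟩
      rw [← hK] at h2 ⊢
      have hK0 : 0 ≤ K := by rw [hK]; positivity
      have hsK : 0 < s + K := by linarith
      have h3 : T ^ 2 / (4 * (s + K)) ≤ sym (Sgn N l b T s) k := by
        have h4 : (T - s) + (T - s) ^ 2 * (s + K)⁻¹ = (T - s) * (T + K) / (s + K) := by
          field_simp
          ring
        rw [h4] at h2
        have h5 : T ^ 2 / (2 * (s + K)) ≤ (T - s) * (T + K) / (s + K) := by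
          rw [div_le_div_iff₀ (by positivity) hsK]
          have h6 : T ^ 2 ≤ 2 * ((T - s) * (T + K)) := by nlinarith
          nlinarith
        have h6 : T ^ 2 / (4 * (s + K)) = T ^ 2 / (2 * (s + K)) / 2 := by
          field_simp
          ring
        rw [h6]
        linarith
      have h4 : 0 < T ^ 2 / (4 * (s + K)) := by positivity
      have h5 := inv_anti₀ h4 h3
      rw [inv_div] at h5
      refine h5.trans (le_of_eq ?_)
      ring) hx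
  refine h1.trans (le_of_eq ?_)
  rw [H37.qf_add_mat, H864.qf_smul_mat, H864.qf_smul_mat]
  have e1 : qf (1 : Matrix (V (N / l)) (V (N / l)) ℝ) x = ∑ i, x i ^ 2 := by
    rw [qf_eq, one_mulVec]
    unfold dotProduct
    exact Finset.sum_congr rfl fun x _ => by ring
  rw [e1]

/-- differences of cell averages -/
lemma Q_cob (hl : l ∣ N) (F : V N → ℝ) (a : V (N / l)) :
    Q (cobV N l *ᵥ F) a ≤ Q F (up a) := by
  have hl0 : (0 : ℝ) < l := by exact_mod_cast l_pos hl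
  have e1 : ∀ c, (cobV N l *ᵥ F) (c + a) - (cobV N l *ᵥ F) c =
      (l : ℝ)⁻¹ * ∑ x ∈ univ.filter (fun x : V N => cl x = c), (F (x + up a) - F x) := by
    intro c
    rw [H864.cobV_mulVec, H864.cobV_mulVec, ← mul_sub, Finset.sum_sub_distrib]
    congr 2
    refine (Finset.sum_bij (fun x _ => x + up a) ?_ ?_ ?_ ?_).symm
    · intro x hx
      rw [Finset.mem_filter] at hx ⊢
      exact ⟨Finset.mem_univ _, by rw [H864.cl_add_up hl, hx.2]⟩
    · intro x _ y _ h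
      exact add_right_cancel h
    · intro y hy
      rw [Finset.mem_filter] at hy
      refine ⟨y - up a, ?_, sub_add_cancel _ _⟩
      rw [Finset.mem_filter]
      exact ⟨Finset.mem_univ _, by rw [H864.cl_sub_up hl, hy.2, add_sub_cancel_right]⟩
    · intro x _
      rfl
  have e2 : Q F (up a) =
      ∑ c : V (N / l), ∑ x ∈ univ.filter (fun x : V N => cl x = c), (F (x + up a) - F x) ^ 2 := by
    unfold Q
    exact (Finset.sum_fiberwise _ _ _).symm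
  rw [e2]
  unfold Q
  refine Finset.sum_le_sum fun c _ => ?_
  rw [e1, mul_pow]
  have h1 : (∑ x ∈ univ.filter (fun x : V N => cl x = c), (F (x + up a) - F x)) ^ 2 ≤
      (l : ℝ) ^ 2 * ∑ x ∈ univ.filter (fun x : V N => cl x = c), (F (x + up a) - F x) ^ 2 := by
    have h2 := sq_sum_le_card_mul_sum_sq (s := univ.filter (fun x : V N => cl x = c))
      (f := fun x => F (x + up a) - F x)
    rwa [H864.card_cell hl] at h2
  calc (l : ℝ)⁻¹ ^ 2 * (∑ x ∈ univ.filter (fun x : V N => cl x = c), (F (x + up a) - F x)) ^ 2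
      ≤ (l : ℝ)⁻¹ ^ 2 * ((l : ℝ) ^ 2 *
        ∑ x ∈ univ.filter (fun x : V N => cl x = c), (F (x + up a) - F x) ^ 2) :=
        mul_le_mul_of_nonneg_left h1 (by positivity)
    _ = _ := by
      rw [← mul_assoc, ← mul_pow, inv_mul_cancel₀ hl0.ne', one_pow, one_mul]

lemma val_one_le {n : ℕ} [NeZero n] : (1 : ZMod n).val ≤ 1 := by
  have h : ((1 : ℕ) : ZMod n).val = 1 % n := ZMod.val_natCast n 1
  rw [Nat.cast_one] at h
  rw [h]
  exact Nat.mod_le 1 n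

lemma Q_up1 (F : V N → ℝ) : Q F (up ((1, 0) : V (N / l))) ≤ (l : ℝ) ^ 2 * Q F (1, 0) := by
  have e : (up ((1, 0) : V (N / l)) : V N) = (l * (1 : ZMod (N / l)).val) • ((1, 0) : V N) := by
    unfold H864.up H864.up1
    ext
    · simp
    · simp
  rw [e]
  refine (TM.H764.Q_nsmul F _ _).trans (mul_le_mul_of_nonneg_right ?_ (TM.H764.Q_nonneg _ _))
  refine pow_le_pow_left₀ (Nat.cast_nonneg _) ?_ 2
  have h := val_one_le (n := N / l)
  exact_mod_cast (Nat.mul_le_mul_left l h).trans (by rw [mul_one])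

lemma Q_up2 (F : V N → ℝ) : Q F (up ((0, 1) : V (N / l))) ≤ (l : ℝ) ^ 2 * Q F (0, 1) := by
  have e : (up ((0, 1) : V (N / l)) : V N) = (l * (1 : ZMod (N / l)).val) • ((0, 1) : V N) := by
    unfold H864.up H864.up1
    ext
    · simp
    · simp
  rw [e]
  refine (TM.H764.Q_nsmul F _ _).trans (mul_le_mul_of_nonneg_right ?_ (TM.H764.Q_nonneg _ _))
  refine pow_le_pow_left₀ (Nat.cast_nonneg _) ?_ 2
  have h := val_one_le (n := N / l)
  exact_mod_cast (Nat.mul_le_mul_left l h).trans (by rw [mul_one])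

/-- **energy of cell averages** -/
theorem lap_cob (hl : l ∣ N) (F : V N → ℝ) :
    qf lapM (cobV N l *ᵥ F) ≤ (l : ℝ) ^ 2 * qf lapM F := by
  rw [H864.qf_lapM, H864.qf_lapM]
  unfold grd
  rw [mul_add]
  exact add_le_add ((Q_cob hl F _).trans (Q_up1 F)) ((Q_cob hl F _).trans (Q_up2 F))

theorem lap_CN (hl : l ∣ N) (F : V N → ℝ) :
    qf lapM (CN N l *ᵥ F) ≤ (l : ℝ) ^ 2 * qf lapM F := by
  unfold CN
  rw [← mulVec_mulVec, lap_Pn]
  exact lap_cob hl F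

lemma sum_CN_le (hl : l ∣ N) (F : V N → ℝ) : ∑ c, (CN N l *ᵥ F) c ^ 2 ≤ ∑ x, F x ^ 2 := by
  unfold CN
  rw [← mulVec_mulVec]
  refine (sum_Pn_le _).trans ?_
  rw [← H864.qf_cellP hl]
  exact H864.qf_cellP_le hl F

/-- **the cell part of a deterministic source** -/
theorem cell_R {Y ρ p p' z κ : ℝ} {j k : ℕ} (hb : 0 < b) (hl : l ∣ N) (hs : 0 < s)
    (hsT : s ≤ T / 2) (hAm : TypE N l b T s Y 1 p) (hSt : TypE N l b T s 1 ρ p')
    (hY : (2 : ℝ) ^ (j + k) ≤ Y) (hρ : ρ ≤ 1) (hpp : p + p' ≤ 1 / 180) (hκ : 1 ≤ κ)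
    (hP : ∀ k : V (N / l), k ≠ 0 → EE k ≤ T * (l : ℝ) ^ 2 →
      (l : ℝ) ^ 2 * PinC N l b T T k ≤ κ * EE k) {x : V (N / l) → ℝ} (hx : Neu x)
    (hz : 64 * z ^ 2 * (s * ∑ i, x i ^ 2 + κ / (l : ℝ) ^ 2 * qf lapM x) ≤ 3 * 4 ^ j) :
    Rs (nwt N b T 0) ((2 * z * T) • ((CN N l)ᵀ *ᵥ x)) ≤ lvS ρ j k := by
  have hT : 0 < T := by linarith
  have hsT' : s < T := by linarith
  have hd := H859.dat_neu' (N := N) (l := l) (t := T) hb hl hT
  have hpd := hd.pd hs hsT'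
  obtain ⟨A, hA⟩ := H239.exists_increment hpd.posSemidef
  have hA' : A * Aᵀ = Sgn N l b T s := hA.symm
  have hp0 := hAm.nonneg hb.le hl hs hsT'.le
  have hp1 := hSt.nonneg hb.le hl hs hsT'.le
  have hG := gau_strong hb.le hl hs hsT' hA' hAm hSt hY hρ (by linarith) (by linarith)
  have hem := H963.em_nwt (N := N) hb.le hT 0
  have hev : Ev (nwt N b T 0) := (H963.gw_wT hb.le).ev_nM _ _ 0
  have hpk : PK (nwt N b T 0) := by
    rw [← H963.nMC_self N l b T 0]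
    exact H963.pk_nMC hb.le hl hT le_rfl 0
  obtain ⟨h, hh⟩ : ∃ h, h = Aᵀ *ᵥ ((Sgn N l b T s)⁻¹ *ᵥ x) := ⟨_, rfl⟩
  have hu : IsUnit (Sgn N l b T s).det := H859.pd_unit hpd
  have e1 : A *ᵥ h = x := by
    rw [hh, mulVec_mulVec, hA', mulVec_mulVec, Matrix.mul_nonsing_inv _ hu, one_mulVec]
  have e2 : ∑ i, h i ^ 2 = qf (Sgn N l b T s)⁻¹ x := by
    have h1 : ∑ i, h i ^ 2 = h ⬝ᵥ h := by
      unfold dotProduct
      exact Finset.sum_congr rfl fun i _ => by ring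
    rw [h1, qf_eq]
    nth_rw 1 [hh]
    rw [Matrix.mulVec_transpose, ← Matrix.dotProduct_mulVec, e1, dotProduct_comm]
  have h2 := inv_Sgn hb hl hs hsT hκ hP hx
  rw [← e2] at h2
  have h2j : (0 : ℝ) < 2 ^ j := by positivity
  have e4 : ((2 : ℝ) ^ j) ^ 2 = 4 ^ j := by
    rw [← pow_mul, mul_comm, pow_mul]
    norm_num
  obtain ⟨v, hv⟩ : ∃ v : V (N / l) → ℝ, v = (4 * z * T / 2 ^ j) • h := ⟨_, rfl⟩
  have hv2 : ∑ i, v i ^ 2 ≤ 3 := by
    have e3 : ∑ i, v i ^ 2 = (4 * z * T / 2 ^ j) ^ 2 * ∑ i, h i ^ 2 := by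
      rw [hv, Finset.mul_sum]
      exact Finset.sum_congr rfl fun i _ => by rw [Pi.smul_apply, smul_eq_mul, mul_pow]
    rw [e3]
    refine (mul_le_mul_of_nonneg_left h2 (sq_nonneg _)).trans ?_
    rw [div_pow, e4, div_mul_eq_mul_div, div_le_iff₀ (by positivity)]
    refine le_trans (le_of_eq ?_) hz
    field_simp
    ring
  have h3 : (gau (V (N / l))).real {g | lvS ρ j k <
      Rs (nwt N b T 0) (((2 : ℝ) ^ j • ((CN N l)ᵀ * A)) *ᵥ g)} ≤ 1 / 30 := by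
    simp only [smul_mulVec]
    refine hG.trans ?_
    linarith
  have h4 := H586.cm_Rs hem hev hpk ((2 : ℝ) ^ j • ((CN N l)ᵀ * A)) h3 hv2
  have e5 : (1 / 2 : ℝ) • (((2 : ℝ) ^ j • ((CN N l)ᵀ * A)) *ᵥ v) =
      (2 * z * T) • ((CN N l)ᵀ *ᵥ x) := by
    rw [hv, mulVec_smul, smul_mulVec, ← mulVec_mulVec, e1, smul_smul, smul_smul]
    congr 1
    field_simp
    ring
  rwa [e5] at h4

/-- **deterministic smooth sources**: `hR` of `sys_rh` -/
theorem smooth_R {Y ρ p p' z κ : ℝ} {j k : ℕ} (hb : 0 < b) (hl : l ∣ N) (hT : 0 < T)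
    (hTyp : ∀ᶠ s in 𝓝[>] (0 : ℝ), TypE N l b T s Y 1 p ∧ TypE N l b T s 1 ρ p')
    (hY : (2 : ℝ) ^ (j + k) ≤ Y) (hρ : ρ ≤ 1) (hpp : p + p' ≤ 1 / 180) (hκ : 1 ≤ κ)
    (hP : ∀ k : V (N / l), k ≠ 0 → EE k ≤ T * (l : ℝ) ^ 2 →
      (l : ℝ) ^ 2 * PinC N l b T T k ≤ κ * EE k) (F : V N → ℝ)
    (hz : 32 * z ^ 2 * κ * qf lapM F ≤ 4 ^ j) :
    Rs (nwt N b T 0) (z • (Pn *ᵥ (T • F))) ≤
      lvS ρ j k / 2 + 16 * z ^ 2 * T * (l : ℝ) ^ 2 * qf lapM F := by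
  have hl0 : (0 : ℝ) < l := by exact_mod_cast l_pos hl
  have hS0 : 0 ≤ ∑ i, (CN N l *ᵥ F) i ^ 2 := Finset.sum_nonneg fun _ _ => sq_nonneg _
  -- choice of the prior mass
  obtain ⟨s, hs, hs1, hs2, hs3⟩ : ∃ s : ℝ, 0 < s ∧ s ≤ T / 2 ∧
      64 * z ^ 2 * (s * ∑ i, (CN N l *ᵥ F) i ^ 2) ≤ 4 ^ j ∧
      (TypE N l b T s Y 1 p ∧ TypE N l b T s 1 ρ p') := by
    have h1 : ∀ᶠ s in 𝓝[>] (0 : ℝ), 0 < s := eventually_mem_nhdsWithin
    have h2 : ∀ᶠ s in 𝓝[>] (0 : ℝ), s ≤ T / 2 := by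
      have : Set.Iic (T / 2) ∈ 𝓝 (0 : ℝ) := Iic_mem_nhds (by linarith)
      exact mem_nhdsWithin_of_mem_nhds this
    have h3 : ∀ᶠ s in 𝓝[>] (0 : ℝ),
        s ≤ 1 / (64 * z ^ 2 * ∑ i, (CN N l *ᵥ F) i ^ 2 + 1) := by
      have : Set.Iic (1 / (64 * z ^ 2 * ∑ i, (CN N l *ᵥ F) i ^ 2 + 1)) ∈ 𝓝 (0 : ℝ) :=
        Iic_mem_nhds (by positivity)
      exact mem_nhdsWithin_of_mem_nhds this
    obtain ⟨s, h⟩ := (h1.and (h2.and (h3.and hTyp))).exists
    obtain ⟨g1, g2, g3, g4⟩ := h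
    refine ⟨s, g1, g2, ?_, g4⟩
    have h5 : 64 * z ^ 2 * (s * ∑ i, (CN N l *ᵥ F) i ^ 2) ≤ 1 := by
      rw [le_div_iff₀ (by positivity)] at g3
      nlinarith
    exact h5.trans (one_le_pow₀ (by norm_num))
  have hE := lap_nn F
  have h1 := cell_R (z := z) (x := CN N l *ᵥ F) hb hl hs hs1 hs3.1 hs3.2 hY hρ hpp hκ hP
    (neu_CN F) (by
      have h2 := lap_CN (l := l) hl F
      have h3 : κ / (l : ℝ) ^ 2 * qf lapM (CN N l *ᵥ F) ≤ κ * qf lapM F := by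
        calc κ / (l : ℝ) ^ 2 * qf lapM (CN N l *ᵥ F)
            ≤ κ / (l : ℝ) ^ 2 * ((l : ℝ) ^ 2 * qf lapM F) :=
              mul_le_mul_of_nonneg_left h2 (by positivity)
          _ = _ := by field_simp
      have h4 : 64 * z ^ 2 * (κ / (l : ℝ) ^ 2 * qf lapM (CN N l *ᵥ F)) ≤
          64 * z ^ 2 * (κ * qf lapM F) := mul_le_mul_of_nonneg_left h3 (by positivity)
      have h5 : 64 * z ^ 2 * (κ * qf lapM F) = 2 * (32 * z ^ 2 * κ * qf lapM F) := by ring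
      rw [mul_add]
      linarith)
  -- the rough part
  have hP1 : (cellP N l : Matrix (V N) (V N) ℝ) * Pn = (CN N l)ᵀ * CN N l := by
    have e := cellP_Pn (N := N) (l := l) hl
    rw [e, CN_gram hl]
    rfl
  have hPn : (Pn : Matrix (V N) (V N) ℝ) * cellP N l = (CN N l)ᵀ * CN N l := by
    have e := congrArg Matrix.transpose hP1
    have hPt : (Pn : Matrix (V N) (V N) ℝ)ᵀ = Pn := H963.ti_Pn.transpose
    rwa [transpose_mul, hPt, H864.cellP_tr, transpose_mul, transpose_transpose] at e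
  have e1 : z • (Pn *ᵥ (T • F)) = (z * T) • ((CN N l)ᵀ *ᵥ (CN N l *ᵥ F)) +
      (z * T) • (Pn *ᵥ (F - cellP N l *ᵥ F)) := by
    rw [mulVec_smul, smul_smul, mulVec_sub, mulVec_mulVec, mulVec_mulVec, hPn, smul_sub]
    abel
  have h2 := H692.Rs_add_le_two (H963.em_nwt (N := N) hb.le hT 0)
    ((H963.gw_wT hb.le).ev_nM _ _ 0) (by
      have : PK (nwt N b T 0) := by
        rw [← H963.nMC_self N l b T 0]
        exact H963.pk_nMC hb.le hl hT le_rfl 0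
      exact this) ((z * T) • ((CN N l)ᵀ *ᵥ (CN N l *ᵥ F)))
      ((z * T) • (Pn *ᵥ (F - cellP N l *ᵥ F)))
  rw [e1]
  have e2 : (2 : ℝ) • ((z * T) • ((CN N l)ᵀ *ᵥ (CN N l *ᵥ F))) =
      (2 * z * T) • ((CN N l)ᵀ *ᵥ (CN N l *ᵥ F)) := by
    rw [smul_smul]
    congr 1
    ring
  rw [e2] at h2
  have h3 : Rs (nwt N b T 0) ((2 : ℝ) • ((z * T) • (Pn *ᵥ (F - cellP N l *ᵥ F)))) ≤
      32 * z ^ 2 * T * (l : ℝ) ^ 2 * qf lapM F := by
    have hn : Neu ((2 : ℝ) • ((z * T) • ((Pn : Matrix (V N) (V N) ℝ) *ᵥ (F - cellP N l *ᵥ F)))) := by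
      rw [smul_smul, ← mulVec_smul]
      exact H963.neu_Pn _
    refine (rsn_le hb.le hT 0 hn).trans ?_
    have e3 : ∑ x, ((2 : ℝ) • ((z * T) • ((Pn : Matrix (V N) (V N) ℝ) *ᵥ
        (F - cellP N l *ᵥ F)))) x ^ 2 = (2 * (z * T)) ^ 2 *
        ∑ x, ((Pn : Matrix (V N) (V N) ℝ) *ᵥ (F - cellP N l *ᵥ F)) x ^ 2 := by
      rw [Finset.mul_sum]
      refine Finset.sum_congr rfl fun x _ => ?_
      rw [smul_smul, Pi.smul_apply, smul_eq_mul, mul_pow]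
    rw [e3]
    have h4 := sum_Pn_le (F - cellP N l *ᵥ F)
    have h5 := H859.poin_cellP hl F
    rw [← H864.qf_lapM] at h5
    have h6 : ∑ x, ((Pn : Matrix (V N) (V N) ℝ) *ᵥ (F - cellP N l *ᵥ F)) x ^ 2 ≤
        16 * (l : ℝ) ^ 2 * qf lapM F := h4.trans h5
    have h7 : (2 * (z * T)) ^ 2 * ∑ x, ((Pn : Matrix (V N) (V N) ℝ) *ᵥ
        (F - cellP N l *ᵥ F)) x ^ 2 ≤ (2 * (z * T)) ^ 2 * (16 * (l : ℝ) ^ 2 * qf lapM F) :=
      mul_le_mul_of_nonneg_left h6 (sq_nonneg _)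
    have h8 : (2 * (z * T)) ^ 2 * (16 * (l : ℝ) ^ 2 * qf lapM F) / T / 2 =
        32 * z ^ 2 * T * (l : ℝ) ^ 2 * qf lapM F := by
      field_simp
      ring
    rw [← h8]
    gcongr
  linarith

end

end Vale.Agent.P159.H789
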