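import Vale.Agent.P159.H789.LgC

/-!
P159, module LG (helper789), part D: LG2, the bound of `R(t F)` on the whole torus by the values of
`R` at window fields.
-/

namespace Vale.Agent.P159.H789

open Finset Matrix
open Vale.Agent.P159.H37
open Vale.Agent.P159.TM.H104 (EM Ex Cv Lg li nh Gr)
open Vale.Agent.P159.T1.H897 (Hol)
open Vale.Agent.P159.TM.SpecC (wT ms)
open Vale.Agent.P159.TM.Spec (V)
open Vale.Agent.P159.TM.H459 (sn sd ball mem_ball sd_symm sd_tri)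
open Vale.Agent.P159.TM.H859 (tn tn_nonneg)

/-! ### the gradient of `R` -/

section rr

variable {V : Type*} [Fintype V] {μ : (V → ℤ) → ℝ}

/-- derivative of `R` at `J` in the direction `v` -/
noncomputable def rr (μ : (V → ℤ) → ℝ) (J v : V → ℝ) : ℝ := Ex μ J (li v) - bf (Gm μ) v J

theorem rr_le (hμ : EM μ) (he : Ev μ) (hK : PK μ) (J v : V → ℝ) :
    rr μ J v ≤ Rs μ (J + v) - Rs μ J := by
  have h1 : ConvexOn ℝ Set.univ fun s : ℝ => Rs μ (J + s • v) := by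
    refine ⟨convex_univ, fun x _ y _ a b ha hb hab => ?_⟩
    have h := (Rs_convex hμ he hK).2 (Set.mem_univ (J + x • v)) (Set.mem_univ (J + y • v))
      ha hb hab
    have e : a • (J + x • v) + b • (J + y • v) = J + (a • x + b • y) • v := by
      have hJ : J = (a + b) • J := by rw [hab, one_smul]
      conv_rhs => rw [hJ]
      simp only [smul_eq_mul]
      module
    rw [e] at h
    exact h
  have h2 := hasDerivAt_Rs hμ J v 0
  have h3 := h1.le_slope_of_hasDerivAt (Set.mem_univ (0 : ℝ)) (Set.mem_univ (1 : ℝ)) zero_lt_one h2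
  rw [slope_def_field] at h3
  simp only [zero_smul, add_zero, one_smul, sub_zero, div_one] at h3
  exact h3

theorem rr_neg (μ : (V → ℤ) → ℝ) (J v : V → ℝ) : rr μ J (-v) = -rr μ J v := by
  unfold rr
  have e1 : li (-v) = fun h : V → ℤ => (-1) * li v h := by
    funext h
    rw [TM.H104.li_neg]
    ring
  have e2 : bf (Gm μ) (-v) J = -bf (Gm μ) v J := by
    unfold bf
    rw [← Finset.sum_neg_distrib]
    refine Finset.sum_congr rfl fun x _ => ?_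
    rw [← Finset.sum_neg_distrib]
    refine Finset.sum_congr rfl fun y _ => ?_
    rw [Pi.neg_apply]
    ring
  rw [e1, TM.H104.Ex_cmul, e2]
  ring

theorem abs_rr_le (hμ : EM μ) (he : Ev μ) (hK : PK μ) {J v : V → ℝ} {δ : ℝ}
    (h1 : Rs μ (J + v) ≤ δ) (h2 : Rs μ (J - v) ≤ δ) : |rr μ J v| ≤ δ := by
  have h0 := Rs_nonneg hμ he hK J
  have h3 := rr_le hμ he hK J v
  have h4 := rr_le hμ he hK J (-v)
  rw [rr_neg, ← sub_eq_add_neg] at h4
  rw [abs_le]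
  constructor <;> linarith

theorem Rs_mvt (hμ : EM μ) (J : V → ℝ) : ∃ s : ℝ, 0 ≤ s ∧ s ≤ 1 ∧ Rs μ J = rr μ (s • J) J := by
  have h2 : ∀ s : ℝ, HasDerivAt (fun s : ℝ => Rs μ (0 + s • J))
      (Ex μ (0 + s • J) (li J) - bf (Gm μ) J (0 + s • J)) s := fun s => hasDerivAt_Rs hμ 0 J s
  obtain ⟨s, hs, hse⟩ := exists_hasDerivAt_eq_slope (fun s : ℝ => Rs μ (0 + s • J))
    (fun s => Ex μ (0 + s • J) (li J) - bf (Gm μ) J (0 + s • J)) one_pos
    (fun s _ => (h2 s).continuousAt.continuousWithinAt) fun s _ => h2 s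
  refine ⟨s, hs.1.le, hs.2.le, ?_⟩
  simp only [zero_add, one_smul, zero_smul, sub_zero, div_one, Rs_zero] at hse
  exact hse.symm

theorem rr_sum (hμ : EM μ) (J : V → ℝ) {ι : Type*} (s : Finset ι) (a : ι → ℝ)
    (e : ι → V → ℝ) : rr μ J (fun x => ∑ i ∈ s, a i * e i x) = ∑ i ∈ s, a i * rr μ J (e i) := by
  unfold rr
  have e1 : li (fun x => ∑ i ∈ s, a i * e i x) = fun h : V → ℤ => ∑ i ∈ s, a i * li (e i) h := by
    funext h
    unfold TM.H104.li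
    simp only [Finset.sum_mul, Finset.mul_sum]
    rw [Finset.sum_comm]
    exact Finset.sum_congr rfl fun i _ => Finset.sum_congr rfl fun x _ => by ring
  have e2 : bf (Gm μ) (fun x => ∑ i ∈ s, a i * e i x) J = ∑ i ∈ s, a i * bf (Gm μ) (e i) J := by
    unfold bf
    simp only [Finset.sum_mul, Finset.mul_sum]
    have h1 : ∀ x, ∑ y, ∑ i ∈ s, a i * e i x * Gm μ x y * J y =
        ∑ i ∈ s, ∑ y, a i * e i x * Gm μ x y * J y := fun x => Finset.sum_comm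
    simp only [h1]
    rw [Finset.sum_comm]
    exact Finset.sum_congr rfl fun i _ => Finset.sum_congr rfl fun x _ =>
      Finset.sum_congr rfl fun y _ => by ring
  rw [e1, TM.H104.Ex_sum hμ J s a fun i => Gr.li (e i), e2, ← Finset.sum_sub_distrib]
  exact Finset.sum_congr rfl fun i _ => by ring

theorem rr_diff (hμ : EM μ) (J0 J1 v : V → ℝ) : ∃ s ∈ Set.Icc (0 : ℝ) 1,
    rr μ (J0 + J1) v - rr μ J0 v =
      Cv μ (J0 + s • J1) (li v) (li J1) - Cv μ 0 (li v) (li J1) := by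
  obtain ⟨s, hs, h⟩ := H612.Ex_li_diff hμ J0 J1 v
  refine ⟨s, hs, ?_⟩
  rw [← h, ← bf_Gm hμ]
  unfold rr
  have e : bf (Gm μ) v (J0 + J1) = bf (Gm μ) v J0 + bf (Gm μ) v J1 := by
    unfold bf
    simp only [Pi.add_apply, mul_add, Finset.sum_add_distrib]
  rw [e]
  ring

theorem Rs_abs_le (hμ : EM μ) (he : Ev μ) (hK : PK μ) (J : V → ℝ) {s : ℝ} (hs : |s| ≤ 1) :
    Rs μ (s • J) ≤ Rs μ J := by
  rcases le_total 0 s with h | h
  · rw [abs_of_nonneg h] at hs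
    have h1 := Rs_ray_mono hμ he hK J h hs
    rwa [one_smul] at h1
  · rw [abs_of_nonpos h] at hs
    have h1 := Rs_ray_mono hμ he hK J (neg_nonneg.2 h) hs
    rw [one_smul, neg_smul, Rs_neg he] at h1
    exact h1

theorem Rs_half (hμ : EM μ) (he : Ev μ) (hK : PK μ) (J K : V → ℝ) :
    Rs μ (J + K) ≤ 1 / 2 * Rs μ ((2 : ℝ) • J) + 1 / 2 * Rs μ ((2 : ℝ) • K) := by
  have h1 := (Rs_convex hμ he hK).2 (Set.mem_univ ((2 : ℝ) • J)) (Set.mem_univ ((2 : ℝ) • K))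
    (show (0 : ℝ) ≤ 1 / 2 by norm_num) (show (0 : ℝ) ≤ 1 / 2 by norm_num) (by norm_num)
  have e : (1 / 2 : ℝ) • (2 : ℝ) • J + (1 / 2 : ℝ) • (2 : ℝ) • K = J + K := by module
  rw [e] at h1
  exact h1

end rr

/-! ### the torus -/

section

variable {N : ℕ} [NeZero N] {b : ℝ} {μ : (V N → ℤ) → ℝ}

/-- the locality constant -/
noncomputable def Kl (C c : ℝ) : ℝ := 9 * C * Ks (c / 2) * Real.exp (c / 4)

theorem rr_loc (hμ : EM μ) (hol : Hol μ μ) {ξ : ℕ} (hξ : 2 ≤ ξ) (hN : ξ ≤ N) {C c : ℝ}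
    (hc : 0 < c) (hC : 0 ≤ C) {J0 g v : V N → ℝ} {x0 : V N} {A B : ℝ} {n : ℕ} (hA : 0 ≤ A)
    (hB : 0 ≤ B)
    (h : ∀ s : ℝ, 0 ≤ s → s ≤ 1 → CD μ ξ C c (J0 + s • ((1 / (ξ : ℝ) ^ 2) • g)))
    (h0 : CD μ ξ C c 0) (hv : ∀ x, |v x| ≤ B)
    (hvs : ∀ x, v x ≠ 0 → tn (x - x0) ≤ ξ) (hg : ∀ x, |g x| ≤ A)
    (hgs : ∀ x ∈ ball x0 n, g x = 0) :
    |rr μ (J0 + (1 / (ξ : ℝ) ^ 2) • g) ((1 / (ξ : ℝ) ^ 2) • v) -
      rr μ J0 ((1 / (ξ : ℝ) ^ 2) • v)| ≤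
      2 * (A * B * (Kl C c * Real.exp (-(c / 2 * n / ξ)))) := by
  obtain ⟨s, hs, e⟩ := rr_diff hμ J0 ((1 / (ξ : ℝ) ^ 2) • g) ((1 / (ξ : ℝ) ^ 2) • v)
  rw [e]
  have h1 := (h s hs.1 hs.2).far hμ hol hξ hN hc hC hA hB hv hvs hg hgs
  have h2 := h0.far hμ hol hξ hN hc hC hA hB hv hvs hg hgs
  refine (abs_sub _ _).trans ?_
  unfold Kl
  linarith

theorem shift_wT_int (b : ℝ) (k : ℤ) (h : V N → ℤ) : wT b N (fun x => h x + k) = wT b N h := by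
  unfold TM.SpecC.wT
  refine Finset.prod_congr rfl fun x _ => ?_
  simp only [add_sub_add_right_eq_sub]

theorem Ex_shift_int (b : ℝ) (m f : V N → ℝ) (k : ℤ) (Y : (V N → ℤ) → ℝ) :
    TM.H870.Ex (wT b N) m (fun x => f x + k) Y =
      TM.H870.Ex (wT b N) m f fun h => Y fun x => h x + k := by
  have key : ∀ Y : (V N → ℤ) → ℝ,
      ∑' h : V N → ℤ, wT b N h * TM.H870.gr m h (fun x => f x + k) * Y h =
        ∑' h : V N → ℤ, wT b N h * TM.H870.gr m h f * Y fun x => h x + k := by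
    intro Y
    rw [← (Equiv.addRight (fun _ : V N => k)).tsum_eq]
    refine tsum_congr fun h => ?_
    have e1 : (Equiv.addRight fun _ : V N => k) h = fun x => h x + k := rfl
    rw [e1, shift_wT_int]
    have e2 : TM.H870.gr m (fun x => h x + k) (fun x => f x + k) = TM.H870.gr m h f := by
      unfold TM.H870.gr
      congr 2
      refine Finset.sum_congr rfl fun x _ => ?_
      push_cast
      ring
    rw [e2]
  have key1 : TM.H870.Zr (wT b N) m (fun x => f x + k) = TM.H870.Zr (wT b N) m f := by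
    have := key fun _ => 1
    simp only [mul_one] at this
    exact this
  unfold TM.H870.Ex
  rw [key, key1]

theorem Ex_wt' {t : ℝ} (f : V N → ℝ) (F : (V N → ℤ) → ℝ) :
    Ex (wt N b t) (t • f) F = TM.H870.Ex (wT b N) (fun _ => t) f F := by
  rw [TM.H104.Ex_eq, H612.wt_eq_bw]
  rfl

theorem rr_shift (hb : 0 ≤ b) {t : ℝ} (ht : 0 < t) (f v : V N → ℝ) (k : ℤ) :
    rr (wt N b t) (t • fun x => f x + k) v =
      rr (wt N b t) (t • f) v + k * (∑ x, v x - bf (Gm (wt N b t)) v fun _ => t) := by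
  have hμ : EM (wt N b t) := em_wt hb ht
  unfold rr
  rw [Ex_wt', Ex_shift_int, ← Ex_wt']
  have e1 : (fun h : V N → ℤ => li v fun x => h x + k) =
      fun h : V N → ℤ => li v h + (k : ℝ) * ∑ x, v x := by
    funext h
    unfold TM.H104.li
    push_cast
    rw [Finset.mul_sum, ← Finset.sum_add_distrib]
    exact Finset.sum_congr rfl fun x _ => by ring
  have e2 : bf (Gm (wt N b t)) v (t • fun x => f x + k) =
      bf (Gm (wt N b t)) v (t • f) + k * bf (Gm (wt N b t)) v fun _ => t := by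
    unfold bf
    simp only [Pi.smul_apply, smul_eq_mul, Finset.mul_sum, ← Finset.sum_add_distrib]
    exact Finset.sum_congr rfl fun x _ => Finset.sum_congr rfl fun y _ => by ring
  rw [e1, e2, TM.H104.Ex_add hμ (Gr.li v) (Gr.const _), TM.H104.Ex_const hμ]
  ring

/-- `1 - t Σ G` -/
noncomputable def omg (N : ℕ) [NeZero N] (b : ℝ) (ξ : ℕ) : ℝ :=
  1 - 1 / (ξ : ℝ) ^ 2 * ∑ w : V N, TM.Spec.GT N b ξ w

theorem bf_const (v : V N → ℝ) (ξ : ℕ) :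
    bf (Gm (wt N b (1 / (ξ : ℝ) ^ 2))) v (fun _ => 1 / (ξ : ℝ) ^ 2) =
      (∑ x, v x) * (1 / (ξ : ℝ) ^ 2 * ∑ w : V N, TM.Spec.GT N b ξ w) := by
  unfold bf
  rw [Finset.sum_mul]
  refine Finset.sum_congr rfl fun x _ => ?_
  simp only [H612.Gm_wt]
  rw [← Finset.sum_mul, ← Finset.mul_sum]
  have e : ∑ z : V N, TM.Spec.GT N b ξ (z - x) = ∑ w : V N, TM.Spec.GT N b ξ w :=
    Equiv.sum_comp (Equiv.subRight x) fun w => TM.Spec.GT N b ξ w
  rw [e]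
  ring

theorem omg_le {ξ : ℕ} (hξ : 0 < ξ) {y a : ℝ}
    (hQ : TM.H764.QU (ξ : ℝ) (TM.Spec.GT N b ξ) y a) : omg N b ξ ≤ y := by
  have hξR : (0 : ℝ) < ξ := by exact_mod_cast hξ
  have h1 := hQ fun _ => 1
  have hcard : (Fintype.card (ZMod N × ZMod N) : ℝ) = (N : ℝ) ^ 2 := by
    rw [Fintype.card_prod, ZMod.card]
    push_cast
    ring
  have e1 : TM.H764.grd (fun _ : ZMod N × ZMod N => (1 : ℝ)) = 0 := by
    unfold TM.H764.grd
    simp [TM.H764.Q]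
  have e2 : TM.H764.frm (TM.Spec.GT N b ξ) (fun _ => 1) =
      (N : ℝ) ^ 2 * ∑ w : V N, TM.Spec.GT N b ξ w := by
    unfold TM.H764.frm
    simp only [mul_one]
    have h2 : ∀ x : V N, ∑ z : V N, TM.Spec.GT N b ξ (z - x) = ∑ w : V N, TM.Spec.GT N b ξ w :=
      fun x => Equiv.sum_comp (Equiv.subRight x) fun w => TM.Spec.GT N b ξ w
    rw [Finset.sum_congr rfl fun x _ => h2 x, Finset.sum_const, Finset.card_univ, nsmul_eq_mul,
      hcard]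
  rw [e1, e2] at h1
  simp only [one_pow, Finset.sum_const, Finset.card_univ, nsmul_eq_mul, mul_one, mul_zero,
    sub_zero, hcard] at h1
  have hN : (0 : ℝ) < N := by exact_mod_cast Nat.pos_of_ne_zero (NeZero.ne N)
  have h3 : (1 - y) * (ξ : ℝ) ^ 2 ≤ ∑ w : V N, TM.Spec.GT N b ξ w := by
    have h4 : (N : ℝ) ^ 2 * ((1 - y) * (ξ : ℝ) ^ 2) ≤
        (N : ℝ) ^ 2 * ∑ w : V N, TM.Spec.GT N b ξ w := by linarith
    exact le_of_mul_le_mul_left h4 (by positivity)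
  unfold omg
  have h5 : 1 / (ξ : ℝ) ^ 2 * ((1 - y) * (ξ : ℝ) ^ 2) ≤
      1 / (ξ : ℝ) ^ 2 * ∑ w : V N, TM.Spec.GT N b ξ w :=
    mul_le_mul_of_nonneg_left h3 (by positivity)
  have h6 : 1 / (ξ : ℝ) ^ 2 * ((1 - y) * (ξ : ℝ) ^ 2) = 1 - y := by field_simp
  linarith

theorem Lg_one (hb : 0 ≤ b) {ξ : ℕ} (hξ : 0 < ξ) :
    Lg (wt N b (1 / (ξ : ℝ) ^ 2)) ((1 / (ξ : ℝ) ^ 2) • fun _ => 1) =
      Lg (wt N b (1 / (ξ : ℝ) ^ 2)) 0 + (N : ℝ) ^ 2 / (2 * (ξ : ℝ) ^ 2) := by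
  have hm := TM.H857.ms_pos (N := N) hξ
  have hW := TM.H41.wt_wT (N := N) hb
  obtain ⟨Wb, hWb⟩ := hW.bdd
  have h1 := TM.H104.U_eq hm hW.nonneg hWb hW.pos (fun _ => 1)
  have h2 : TM.H871.U (wT b N) (ms (ξ : ℝ)) (fun _ : V N => 1) = 0 := by
    unfold TM.H871.U
    have h3 := TM.H871.Z_shift (W := wT b N) (m := ms (ξ : ℝ)) TM.H41.shift_wT (0 : V N → ℝ)
    have e : (fun x : V N => (0 : V N → ℝ) x + 1) = fun _ => 1 := by
      funext x
      simp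
    rw [e] at h3
    rw [h3, div_self (hW.Z_pos hm 0).ne', Real.log_one, neg_zero]
  rw [← TM.H104.U_871, h2] at h1
  have e1 : TM.H104.mf (ms (ξ : ℝ)) (fun _ : V N => 1) = (1 / (ξ : ℝ) ^ 2) • fun _ => 1 := rfl
  have e3 : TM.H104.bw (wT b N) (ms (ξ : ℝ)) = wt N b (1 / (ξ : ℝ) ^ 2) :=
    (H612.wt_eq_bw N b _).symm
  have e4 : TM.H104.me (ms (ξ : ℝ)) (fun _ : V N => (1 : ℝ)) = (N : ℝ) ^ 2 / (2 * (ξ : ℝ) ^ 2) := by
    unfold TM.H104.me TM.SpecC.ms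
    have hcard : (Fintype.card (V N) : ℝ) = (N : ℝ) ^ 2 := by
      rw [Fintype.card_prod, ZMod.card]
      push_cast
      ring
    rw [Finset.sum_const, Finset.card_univ, nsmul_eq_mul, hcard]
    field_simp
  rw [e1, e3, e4] at h1
  linarith

theorem Rs_one (hb : 0 ≤ b) {ξ : ℕ} (hξ : 0 < ξ) :
    Rs (wt N b (1 / (ξ : ℝ) ^ 2)) ((1 / (ξ : ℝ) ^ 2) • fun _ => 1) =
      (N : ℝ) ^ 2 / (2 * (ξ : ℝ) ^ 2) * omg N b ξ := by
  have h1 := Lg_one (N := N) hb hξ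
  have h2 : qf (Gm (wt N b (1 / (ξ : ℝ) ^ 2))) ((1 / (ξ : ℝ) ^ 2) • fun _ => 1) =
      (N : ℝ) ^ 2 * (1 / (ξ : ℝ) ^ 2) * (1 / (ξ : ℝ) ^ 2 * ∑ w : V N, TM.Spec.GT N b ξ w) := by
    have e : qf (Gm (wt N b (1 / (ξ : ℝ) ^ 2))) ((1 / (ξ : ℝ) ^ 2) • fun _ => 1) =
        bf (Gm (wt N b (1 / (ξ : ℝ) ^ 2))) (fun _ => 1 / (ξ : ℝ) ^ 2)
          (fun _ => 1 / (ξ : ℝ) ^ 2) := by
      unfold qf bf
      simp only [Pi.smul_apply, smul_eq_mul, mul_one]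
    rw [e, bf_const]
    congr 1
    have hcard : (Fintype.card (V N) : ℝ) = (N : ℝ) ^ 2 := by
      rw [Fintype.card_prod, ZMod.card]
      push_cast
      ring
    rw [Finset.sum_const, Finset.card_univ, nsmul_eq_mul, hcard]
  unfold Rs omg
  rw [h1, h2]
  ring

theorem omg_nonneg (hb : 0 ≤ b) {ξ : ℕ} (hξ : 0 < ξ) : 0 ≤ omg N b ξ := by
  have hξR : (0 : ℝ) < ξ := by exact_mod_cast hξ
  have ht : (0 : ℝ) < 1 / (ξ : ℝ) ^ 2 := by positivity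
  have h1 := Rs_nonneg (em_wt (N := N) hb ht) ev_wt (pk_wt hb ht)
    ((1 / (ξ : ℝ) ^ 2) • fun _ => 1)
  rw [Rs_one hb hξ] at h1
  have hN : (0 : ℝ) < N := by exact_mod_cast Nat.pos_of_ne_zero (NeZero.ne N)
  have h2 : 0 < (N : ℝ) ^ 2 / (2 * (ξ : ℝ) ^ 2) := by positivity
  by_contra hcon
  rw [not_le] at hcon
  have := mul_neg_of_pos_of_neg h2 hcon
  linarith

/-- one local direction in the background constant + window -/
theorem rr_local (hb : 0 ≤ b) {ξ : ℕ} (hξ : 0 < ξ) {u v : V N → ℝ} {c' δ : ℝ}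
    (hc' : |c'| ≤ 1 / 2)
    (h1 : Rs (wt N b (1 / (ξ : ℝ) ^ 2)) ((4 : ℝ) • ((1 / (ξ : ℝ) ^ 2) • u)) ≤ δ)
    (h2 : Rs (wt N b (1 / (ξ : ℝ) ^ 2)) ((4 : ℝ) • ((1 / (ξ : ℝ) ^ 2) • v)) ≤ δ) :
    |rr (wt N b (1 / (ξ : ℝ) ^ 2)) ((1 / (ξ : ℝ) ^ 2) • fun x => c' + u x)
      ((1 / (ξ : ℝ) ^ 2) • v)| ≤ δ / 2 + (N : ℝ) ^ 2 / (4 * (ξ : ℝ) ^ 2) * omg N b ξ := by
  have hξR : (0 : ℝ) < ξ := by exact_mod_cast hξ
  have ht : (0 : ℝ) < 1 / (ξ : ℝ) ^ 2 := by positivity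
  set t : ℝ := 1 / (ξ : ℝ) ^ 2 with htd
  have hμ : EM (wt N b t) := em_wt (N := N) hb ht
  have he : Ev (wt N b t) := ev_wt
  have hK : PK (wt N b t) := pk_wt hb ht
  have hone : Rs (wt N b t) ((2 : ℝ) • (c' • (t • fun _ : V N => (1 : ℝ)))) ≤
      (N : ℝ) ^ 2 / (2 * (ξ : ℝ) ^ 2) * omg N b ξ := by
    rw [← Rs_one hb hξ, smul_smul]
    refine Rs_abs_le hμ he hK _ ?_
    rw [abs_mul, abs_two]
    linarith
  have key : ∀ w : V N → ℝ, Rs (wt N b t) ((4 : ℝ) • (t • w)) ≤ δ →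
      Rs (wt N b t) ((t • fun x => c' + u x) + t • w) ≤
        δ / 2 + (N : ℝ) ^ 2 / (4 * (ξ : ℝ) ^ 2) * omg N b ξ := by
    intro w hw
    have e : (t • fun x => c' + u x) + t • w = c' • (t • fun _ : V N => (1 : ℝ)) +
        (t • u + t • w) := by
      funext x
      simp only [Pi.add_apply, Pi.smul_apply, smul_eq_mul]
      ring
    rw [e]
    have h3 := Rs_half hμ he hK (c' • (t • fun _ : V N => (1 : ℝ))) (t • u + t • w)
    have h4 := Rs_half hμ he hK ((2 : ℝ) • (t • u)) ((2 : ℝ) • (t • w))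
    have e1 : (2 : ℝ) • (2 : ℝ) • (t • u) = (4 : ℝ) • (t • u) := by module
    have e2 : (2 : ℝ) • (2 : ℝ) • (t • w) = (4 : ℝ) • (t • w) := by module
    have e3 : (2 : ℝ) • (t • u) + (2 : ℝ) • (t • w) = (2 : ℝ) • (t • u + t • w) := by module
    rw [e1, e2, e3] at h4
    have e4 : (N : ℝ) ^ 2 / (4 * (ξ : ℝ) ^ 2) * omg N b ξ =
        1 / 2 * ((N : ℝ) ^ 2 / (2 * (ξ : ℝ) ^ 2) * omg N b ξ) := by ring
    rw [e4]
    linarith
  refine abs_rr_le hμ he hK (key v h2) ?_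
  have h5 := key (-v) (by
    have e : (4 : ℝ) • (t • -v) = -((4 : ℝ) • (t • v)) := by module
    rw [e, Rs_neg he]
    exact h2)
  have e : (t • fun x => c' + u x) + t • -v = (t • fun x => c' + u x) - t • v := by
    rw [smul_neg, sub_eq_add_neg]
  rwa [e] at h5

/-- the total mass of a test function -/
theorem sum_supp_le {ξ : ℕ} (hξ : 0 < ξ) {v : V N → ℝ} {x0 : V N} {E : ℝ} (hE : 0 ≤ E)
    (hv : ∀ x, |v x| ≤ E) (hvs : ∀ x, v x ≠ 0 → tn (x - x0) ≤ ξ) :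
    |∑ x, ((1 / (ξ : ℝ) ^ 2) • v) x| ≤ 9 * E := by
  classical
  have hξR : (0 : ℝ) < ξ := by exact_mod_cast hξ
  have hξ1 : (1 : ℝ) ≤ ξ := by exact_mod_cast hξ
  have h1 : ∀ x, |((1 / (ξ : ℝ) ^ 2) • v) x| ≤ if x ∈ ball x0 ξ then 1 / (ξ : ℝ) ^ 2 * E else 0 := by
    intro x
    rw [Pi.smul_apply, smul_eq_mul, abs_mul, abs_of_pos (by positivity : 0 < 1 / (ξ : ℝ) ^ 2)]
    split_ifs with h
    · exact mul_le_mul_of_nonneg_left (hv x) (by positivity)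
    · have hx : v x = 0 := by
        by_contra hne
        refine h (mem_ball.2 ?_)
        have h2 := TM.H459.sn_le_tn (x - x0)
        have h3 := hvs x hne
        have h4 : (sd x0 x : ℝ) ≤ ξ := h2.trans h3
        exact_mod_cast h4
      rw [hx, abs_zero, mul_zero]
  refine (Finset.abs_sum_le_sum_abs _ _).trans ((Finset.sum_le_sum fun x _ => h1 x).trans ?_)
  rw [Finset.sum_ite_mem, Finset.univ_inter, Finset.sum_const, nsmul_eq_mul]
  have h5 : ((ball x0 ξ).card : ℝ) ≤ (2 * (ξ : ℝ) + 1) ^ 2 := by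
    have := TM.H459.card_ball_le x0 ξ
    exact_mod_cast this
  have h6 : (2 * (ξ : ℝ) + 1) ^ 2 ≤ 9 * (ξ : ℝ) ^ 2 := by nlinarith
  calc ((ball x0 ξ).card : ℝ) * (1 / (ξ : ℝ) ^ 2 * E) ≤ (9 * (ξ : ℝ) ^ 2) * (1 / (ξ : ℝ) ^ 2 * E) :=
        mul_le_mul_of_nonneg_right (h5.trans h6) (by positivity)
    _ = 9 * E := by field_simp

/-- **LG2**; `S0` bounds the total masses of the local pieces -/
theorem lg2 (hb : 0 < b) {ξ : ℕ} (hξ : 2 ≤ ξ) (hN : ξ ≤ N) {y a C c : ℝ} (hc : 0 < c) (hC : 0 ≤ C)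
    (hQ : TM.H764.QU (ξ : ℝ) (TM.Spec.GT N b ξ) y a)
    {d : V N → V N → ℝ} (hd : PM d) {L K B R q : ℝ} {n : ℕ} (hL : 0 ≤ L) (hK : 0 ≤ K)
    (hB : 0 ≤ B) (hR : 0 ≤ R)
    (hq : 0 ≤ q) (hKq : 1 ≤ K * q) (hdq : ∀ x0 z, sd x0 z ≤ n → d x0 z ≤ q)
    {ρ : V N → ℝ} (hρ : ∀ z, |ρ z| ≤ R)
    (hCD : ∀ l : ℝ, 0 ≤ l → l ≤ 1 → ∀ f ∈ Cls d L K B ρ,
      CD (wt N b (1 / (ξ : ℝ) ^ 2)) ξ C c ((1 / (ξ : ℝ) ^ 2) • (l • f)))
    {δ : ℝ} (hδ : ∀ x0, ∀ u ∈ Wnd d L K q ρ x0,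
      Rs (wt N b (1 / (ξ : ℝ) ^ 2)) ((4 : ℝ) • ((1 / (ξ : ℝ) ^ 2) • u)) ≤ δ)
    {F : V N → ℝ} (hF : F ∈ Cls d L K B ρ) {ι : Type*} (s : Finset ι) (α : ι → ℝ)
    (e : ι → V N → ℝ) (x : ι → V N) {E : ℝ} (hE : 0 ≤ E) (he : ∀ i ∈ s, ∀ z, |e i z| ≤ E)
    (hes : ∀ i ∈ s, ∀ z, e i z ≠ 0 → tn (z - x i) ≤ ξ)
    (heδ : ∀ i ∈ s, Rs (wt N b (1 / (ξ : ℝ) ^ 2)) ((4 : ℝ) • ((1 / (ξ : ℝ) ^ 2) • e i)) ≤ δ)
    {S0 : ℝ} (hS0 : 0 ≤ S0) (heS : ∀ i ∈ s, |∑ z, ((1 / (ξ : ℝ) ^ 2) • e i) z| ≤ S0)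
    (hFe : F = fun z => ∑ i ∈ s, α i * e i z) :
    Rs (wt N b (1 / (ξ : ℝ) ^ 2)) ((1 / (ξ : ℝ) ^ 2) • F) ≤
      (∑ i ∈ s, |α i|) * (δ / 2 + (N : ℝ) ^ 2 / (4 * (ξ : ℝ) ^ 2) * y + (B + 1) * S0 * y +
        4 * (B + R) * E * (Kl C c * Real.exp (-(c / 2 * n / ξ)))) := by
  have hξ0 : 0 < ξ := by omega
  have hξR : (0 : ℝ) < ξ := by exact_mod_cast hξ0
  have ht : (0 : ℝ) < 1 / (ξ : ℝ) ^ 2 := by positivity
  set t : ℝ := 1 / (ξ : ℝ) ^ 2 with htd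
  have hμ : EM (wt N b t) := em_wt (N := N) hb.le ht
  have hev : Ev (wt N b t) := ev_wt
  have hPK : PK (wt N b t) := pk_wt hb.le ht
  have hol : Hol (wt N b t) (wt N b t) := H612.hol_wt hb.le t
  have hom0 := omg_nonneg (N := N) hb.le hξ0
  have homy := omg_le (N := N) (b := b) hξ0 hQ
  have hy0 : 0 ≤ y := hom0.trans homy
  obtain ⟨r, hr0, hr1, hr⟩ := Rs_mvt hμ (t • F)
  rw [hr]
  have e0 : t • F = fun z => ∑ i ∈ s, α i * (t • e i) z := by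
    funext z
    rw [Pi.smul_apply, smul_eq_mul]
    conv_lhs => rw [hFe]
    rw [Finset.mul_sum]
    refine Finset.sum_congr rfl fun i _ => ?_
    rw [Pi.smul_apply, smul_eq_mul]
    ring
  have e1 : rr (wt N b t) (r • t • F) (t • F) =
      ∑ i ∈ s, α i * rr (wt N b t) (r • t • F) (t • e i) := by
    conv_lhs => rw [show rr (wt N b t) (r • t • F) (t • F) =
      rr (wt N b t) (r • t • F) (fun z => ∑ i ∈ s, α i * (t • e i) z) by rw [← e0]]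
    exact rr_sum hμ _ s α fun i => t • e i
  rw [e1, Finset.sum_mul]
  refine Finset.sum_le_sum fun i hi => ?_
  refine (le_abs_self _).trans ?_
  rw [abs_mul]
  refine mul_le_mul_of_nonneg_left ?_ (abs_nonneg _)
  -- the local estimate
  obtain ⟨F', hF', k, u, hu, hkB, hFu, hff⟩ := Cls.cut hd hL hK hq hKq hF (x i)
  set g : V N → ℝ := fun z => r * (F z - F' z) with hg
  have hgA : ∀ z, |g z| ≤ 2 * (B + R) := by
    intro z
    simp only [hg]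
    rw [abs_mul, abs_of_nonneg hr0]
    have h6 := Cls.bdd hF hρ z
    have h7 := Cls.bdd hF' hρ z
    have h8 : |F z - F' z| ≤ |F z| + |F' z| := abs_sub _ _
    have h9 : 0 ≤ |F z - F' z| := abs_nonneg _
    calc r * |F z - F' z| ≤ 1 * |F z - F' z| := mul_le_mul_of_nonneg_right hr1 h9
      _ ≤ 2 * (B + R) := by linarith
  have hg0 : ∀ z ∈ ball (x i) n, g z = 0 := by
    intro z hz
    simp only [hg]
    rw [hff z (hdq (x i) z (mem_ball.1 hz)), sub_self, mul_zero]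
  have hsplit : r • t • F = t • (r • F') + t • g := by
    funext z
    simp only [hg, Pi.add_apply, Pi.smul_apply, smul_eq_mul]
    ring
  have hseg : ∀ s : ℝ, 0 ≤ s → s ≤ 1 → CD (wt N b t) ξ C c (t • (r • F') + s • (t • g)) := by
    intro s hs0 hs1
    have h1 := hCD r hr0 hr1 _ (Cls.comb hF' hF hs0 hs1)
    have e : t • (r • F') + s • (t • g) = t • (r • fun z => (1 - s) * F' z + s * F z) := by
      funext z
      simp only [hg, Pi.add_apply, Pi.smul_apply, smul_eq_mul]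
      ring
    rw [e]
    exact h1
  have hzero : CD (wt N b t) ξ C c 0 := by
    have h1 := hCD 0 le_rfl zero_le_one F hF
    have e : t • ((0 : ℝ) • F) = 0 := by rw [zero_smul, smul_zero]
    rwa [e] at h1
  have hloc := rr_loc hμ hol hξ hN hc hC (J0 := t • (r • F')) (g := g) (v := e i) (x0 := x i)
    (A := 2 * (B + R)) (B := E) (n := n) (by positivity) hE hseg hzero (he i hi) (hes i hi) hgA hg0
  rw [← hsplit] at hloc
  -- the constant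
  set κ : ℤ := round (r * k) with hκ
  set c' : ℝ := r * k - κ with hc'
  have hc'1 : |c'| ≤ 1 / 2 := abs_sub_round (r * k)
  have hκB : |(κ : ℝ)| ≤ B + 1 := by
    have h1 : |r * k| ≤ B := by
      rw [abs_mul, abs_of_nonneg hr0]
      have : 0 ≤ |k| := abs_nonneg _
      nlinarith
    have e : (κ : ℝ) = r * k - c' := by rw [hc']; ring
    rw [e]
    have h2 : |r * k - c'| ≤ |r * k| + |c'| := abs_sub _ _
    linarith
  have hJ0 : t • (r • F') = t • fun z => (fun z => c' + r * u z) z + κ := by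
    funext z
    simp only [Pi.smul_apply, smul_eq_mul]
    rw [hFu, hc']
    ring
  have hsh := rr_shift (N := N) hb.le ht (fun z => c' + r * u z) (t • e i) κ
  rw [bf_const] at hsh
  have hmain := rr_local (N := N) hb.le hξ0 (u := fun z => r * u z) (v := e i) hc'1
    (hδ (x i) _ (Wnd.smul hd hL hK hu hr0 hr1)) (heδ i hi)
  have hS := heS i hi
  rw [hJ0, hsh] at hloc
  set S : ℝ := ∑ z, (t • e i) z with hSdef
  have e5 : S - S * (t * ∑ w : V N, TM.Spec.GT N b ξ w) = S * omg N b ξ := by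
    unfold omg
    ring
  rw [e5] at hloc
  have h10 : |(κ : ℝ) * (S * omg N b ξ)| ≤ (B + 1) * S0 * y := by
    rw [abs_mul, abs_mul, abs_of_nonneg hom0]
    have h11 : |S| * omg N b ξ ≤ S0 * y := mul_le_mul hS homy hom0 hS0
    calc |(κ : ℝ)| * (|S| * omg N b ξ) ≤ (B + 1) * (S0 * y) :=
          mul_le_mul hκB h11 (mul_nonneg (abs_nonneg _) hom0) (by positivity)
      _ = (B + 1) * S0 * y := by ring
  have h12 : (N : ℝ) ^ 2 / (4 * (ξ : ℝ) ^ 2) * omg N b ξ ≤ (N : ℝ) ^ 2 / (4 * (ξ : ℝ) ^ 2) * y :=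
    mul_le_mul_of_nonneg_left homy (by positivity)
  have h13 := abs_le.1 hloc
  have h14 := abs_le.1 hmain
  have h15 := abs_le.1 h10
  have e6 : 2 * (2 * (B + R) * E * (Kl C c * Real.exp (-(c / 2 * n / ξ)))) =
      4 * (B + R) * E * (Kl C c * Real.exp (-(c / 2 * n / ξ))) := by ring
  rw [e6] at h13
  rw [abs_le]
  constructor
  · linarith [h13.1, h14.1, h15.1]
  · linarith [h13.2, h14.2, h15.2]

end

end Vale.Agent.P159.H789
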