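import Vale.Agent.P159.H789.TaG
import Vale.Agent.P159.H239.Fam
import Vale.Agent.P159.TM.H352.ThmA

/-!
P159, module TORAP (helper789), part H: **families** (order of the parameters of helper239):
(j) of the AP chain, AP on all admissible tori.
-/

set_option linter.unusedSectionVars false

namespace Vale.Agent.P159.H789

open Finset Matrix MeasureTheory ProbabilityTheory
open Vale.Agent.P159.TM.Spec (V Rng)
open Vale.Agent.P159.TM.H265 (HA)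
open Vale.Agent.P159.H972
open Vale.Agent.P159.H239 (Fam Sel)

noncomputable section

/-- Theorem A (1), unconditional -/
theorem hA_all {b1 : ℝ} (hb1 : 0 < b1) (b2 : ℝ) :
    ∃ W₀ : ℝ, ∀ W : ℝ, W₀ ≤ W → ∃ c C ys : ℝ, ∃ X : ℕ, 0 < c ∧ 0 < C ∧ 0 < ys ∧
      ∀ (N : ℕ) [NeZero N] (b : ℝ) (hb : 0 ≤ b) (ξ : ℕ) (y : ℝ),
        Rng b1 b2 (5 / 2) W ys X N b ξ y → HA N b ξ hb y c C := by
  obtain ⟨W₀, h⟩ := TM.H352.thmA hb1 b2 (5 / 2)
  refine ⟨W₀, fun W hW => ?_⟩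
  obtain ⟨c, C, ys, X, h1, h2, h3, -, h5⟩ := h W hW
  exact ⟨c, C, ys, X, h1, h2, h3, fun N _ b hb ξ y hR x0 n hn => (h5 N b hb ξ y hR x0 n hn).1⟩

variable {b1 b2 pf : ℝ}

/-- **(j) as a family**: the strong a priori bound at the smallest size gives the fields `ap` -/
theorem fam_apj (hb1 : 0 < b1) : Fam b1 b2 pf fun P _ => ∀ (b : ℝ) (m : ℕ) (E : ℝ), 0 < E →
    12 ≤ m → 2 * lg P.C0 E ≤ m → RNGs P b m E →
    AP b m (m + 3 * P.xE E) (P.sE m E) (36 * 2 ^ P.xE E) (tn m) (E ^ (1 / 7 : ℝ)) →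
    APs P b m E := by
  obtain ⟨W₀, h⟩ := hA_all hb1 b2
  refine ⟨W₀, fun W hW => ?_⟩
  obtain ⟨c, C, ys0, X00, hc, hC, hys0, hHA⟩ := h W hW
  refine ⟨ys0, hys0, fun ys hy1 hy2 => ⟨X00, fun X0 hX0 => ?_⟩⟩
  refine ⟨1 / 20, by norm_num, fun x1 hx1 hx1' => ⟨0, fun Q _ => ?_⟩⟩
  refine ⟨1, one_pos, fun thp _ _ => ⟨1, one_pos, fun th _ _ => ⟨6 / 5, fun C0 _ hC0 => ?_⟩⟩⟩
  obtain ⟨e₀, he₀, hj⟩ := ap_j hb1 hc hC hHA hx1 hx1' hC0
  refine ⟨e₀, he₀, fun P hP hes => ⟨0, fun _ _ => ?_⟩⟩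
  intro b m E hE hm hnE hR hAP e he hes'
  exact hj P hP.hb1 hP.hb2 hP.hW (hP.hys.le.trans hy2) (by rw [hP.hX0]; exact hX0) hP.hx1 hP.hC0
    b m E e hE he (hes'.trans hes) hm hnE
    (hR E le_rfl (he.trans hes') _ (Or.inr rfl)).1 (hR e he hes' _ (Or.inr rfl)).1 hAP

/-- **AP of the state on all admissible tori** -/
theorem fam_apTT (hb1 : 0 < b1) : Fam b1 b2 pf fun P _ => ∀ (b a : ℝ) (n : ℕ) (e τ : ℝ), 0 < e →
    e ≤ P.es → 12 ≤ n → GP P b a n e τ → ∀ r, P.TT n e r →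
    ∀ X : ℝ, 1 ≤ X → X ^ 2 * e ^ (-(P.th / 400)) ≤ 2 ^ (r - n) → X ≤ 2 ^ P.xE e →
    AP b n r (P.sE n e) (X / 6) (tn n) (2 * e ^ (1 / 8 : ℝ)) := by
  obtain ⟨W₀, h⟩ := hA_all hb1 b2
  refine ⟨W₀, fun W hW => ?_⟩
  obtain ⟨c, C, ys0, X00, hc, hC, hys0, hHA⟩ := h W hW
  refine ⟨ys0, hys0, fun ys hy1 hy2 => ⟨X00, fun X0 hX0 => ?_⟩⟩
  refine ⟨1 / 20, by norm_num, fun x1 hx1 hx1' => ⟨0, fun Q _ => ?_⟩⟩
  refine ⟨1, one_pos, fun thp hthp _ => ⟨x1, hx1, fun th hth hth' =>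
    ⟨max (6 / 5) (th + 1 + 4 * (x1 / thp + Q + 3) * (thp + 1)), fun C0 _ hC0 => ?_⟩⟩⟩
  obtain ⟨e₀, he₀, ht⟩ := ap_tor hb1 hc hC hHA (ι := th / 400) (by positivity) (by linarith)
    (by linarith : th / 400 < x1) hx1' ((le_max_left _ _).trans hC0)
  refine ⟨e₀, he₀, fun P hP hes => ⟨0, fun _ _ => ?_⟩⟩
  intro b a n e τ he hes' hn hG r hr X hX hXr hX2
  have hnr : n ≤ r := (Nat.le_add_right _ _).trans hr.1
  have hr2 : r ≤ 2 * n := by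
    refine hr.2.trans ?_
    have hl := one_le_logb he (hes'.trans P.es1)
    obtain ⟨ℓ, hℓ⟩ : ∃ ℓ : ℝ, ℓ = Real.logb 2 (1 / e) := ⟨_, rfl⟩
    have k1 : (P.kE e : ℝ) ≤ P.th * Real.logb 2 (1 / e) + 1 := by
      have := P.th0
      exact (Nat.ceil_lt_add_one (by positivity)).le
    have k2 : (P.w e : ℝ) ≤ P.thp * Real.logb 2 (1 / e) + 1 := by
      have := P.thp0
      exact (Nat.ceil_lt_add_one (by positivity)).le
    have k3 : P.C0 * Real.logb 2 (1 / e) ≤ lg P.C0 e := Nat.le_ceil _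
    have k4 : (P.q0 : ℝ) ≤ x1 / thp + Q + 3 := by
      have h1 := hP.hq
      rw [hP.hthp] at h1
      have h2 : (x1 / thp + Q + 3) * thp = x1 + (Q + 3) * thp := by field_simp; ring
      rw [← h2] at h1
      exact le_of_mul_le_mul_right h1 hthp
    rw [← hℓ] at hl k1 k2 k3
    rw [hP.hth] at k1
    rw [hP.hthp] at k2
    rw [hP.hC0] at k3
    have hC0' : th + 1 + 4 * (x1 / thp + Q + 3) * (thp + 1) ≤ C0 := (le_max_right _ _).trans hC0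
    have k1' : (P.kE e : ℝ) ≤ (th + 1) * ℓ := by linarith
    have k2' : (P.w e : ℝ) ≤ (thp + 1) * ℓ := by linarith
    have k5 : (P.q0 : ℝ) * (4 * (P.w e : ℝ)) ≤ (x1 / thp + Q + 3) * (4 * ((thp + 1) * ℓ)) :=
      mul_le_mul k4 (by linarith) (by positivity) (by positivity)
    have k6 : (P.kE e : ℝ) + P.q0 * (4 * (P.w e : ℝ)) ≤ lg C0 e := by
      have h1 := mul_le_mul_of_nonneg_right hC0' (show 0 ≤ ℓ by linarith)
      have h2 : (th + 1 + 4 * (x1 / thp + Q + 3) * (thp + 1)) * ℓ = (th + 1) * ℓ +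
          (x1 / thp + Q + 3) * (4 * ((thp + 1) * ℓ)) := by ring
      rw [h2] at h1
      linarith
    have k7 : P.kE e + P.q0 * (4 * P.w e) ≤ lg P.C0 e := by
      rw [hP.hC0]
      exact_mod_cast k6
    have := hG.nE
    omega
  exact ht P hP.hb1 hP.hb2 hP.hW (hP.hys.le.trans hy2) (by rw [hP.hX0]; exact hX0) hP.hx1 hP.hC0
    b n r e X he (hes'.trans hes) hn (by have := hG.nE; omega) hnr hr2
    (hG.rng _ (Or.inr rfl)).1 (hG.rng _ (Or.inl hr)).1 hX hX2 (by rw [← hP.hth]; exact hXr) hG.ap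

end

end Vale.Agent.P159.H789
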