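import Vale.Agent.P159.H789.StL
import Vale.Agent.P159.H817.Dm2

/-!
P159 (helper789), **strong R numbers**, part M: site maps of the split class behind the tent average.

* `SM N k k₂ kI M M₁ M₂` : the site inequalities; `cell_LS` : helper817's class on the cells;
* **`map_typ`** : `nuS {2 lvS < RF N b t (z • (M (tT N q F)))}` small, `M` a matrix;
* `map_typF` : the same for a linear map given as a function.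
-/

set_option linter.unusedSectionVars false

namespace Vale.Agent.P159.H789

open Finset Matrix MeasureTheory Filter Topology
open Vale.Agent.P159.TM.H764 (EE Q grd)
open Vale.Agent.P159.H37
open Vale.Agent.P159.TM.Spec (V)
open Vale.Agent.P159.H864 (TI sym lapM ti_lapM cobV l_pos cl up cl1)
open Vale.Agent.P159.H963 (Neu pin Pn nwt nMC obsN Gnc PinC)
open Vale.Agent.P159.H963.Core (RF)
open Vale.Agent.P159.H447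
open Vale.Agent.P159.H239 (TypE)
open Vale.Agent.P159.H276 (bxT)
open Vale.Agent.P159.H663.Dr (tT bxA tT_eq sq_bxA grd_tT tT_dot tT_add tT_smul tT_const)
open Vale.Agent.P159.H817.Dm (LS site_typS)

noncomputable section

/-- the site inequalities of a map of the split class -/
structure SM (N : ℕ) [NeZero N] (k k₂ kI : ℝ) (M M₁ M₂ : Matrix (V N) (V N) ℝ) : Prop where
  sum : M = M₁ + M₂
  one : M *ᵥ (fun _ => (1 : ℝ)) = 0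
  op : ∀ H : V N → ℝ, ∑ x, (M₁ *ᵥ H) x ^ 2 ≤ k * ∑ x, H x ^ 2
  far : ∀ H : V N → ℝ, qf lapM (M₂ *ᵥ H) ≤ k₂ * ∑ x, H x ^ 2
  en : ∀ H : V N → ℝ, qf lapM (M *ᵥ H) ≤ k * qf lapM H
  cr : ∀ H : V N → ℝ, ∑ x, (M *ᵥ H) x ^ 2 ≤ kI * ∑ x, H x ^ 2
  cr2 : ∀ H : V N → ℝ, ∑ x, (M₂ *ᵥ H) x ^ 2 ≤ kI * ∑ x, H x ^ 2

section cells

variable {N l q : ℕ} [NeZero N] {k k₂ kI : ℝ} {M M₁ M₂ T : Matrix (V N) (V N) ℝ}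

lemma cobT_one [NeZero (N / l)] : (cobV N l)ᵀ *ᵥ (fun _ => (1 : ℝ)) = fun _ => ((l : ℝ))⁻¹ := by
  funext x
  rw [H864.cobV_tr_mulVec, mul_one]

lemma kill_T (hq : 0 < q) (hT : ∀ F, T *ᵥ F = tT N q F) (h1 : M *ᵥ (fun _ => (1 : ℝ)) = 0)
    (c : ℝ) : M *ᵥ tT N q (fun _ => c) = 0 := by
  rw [tT_const hq]
  have e : (fun _ : V N => c) = c • fun _ => (1 : ℝ) := by
    funext x
    simp
  rw [e, Matrix.mulVec_smul, h1, smul_zero]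

/-- **the class on the cells** -/
theorem cell_LS (h : SM N k k₂ kI M M₁ M₂) (hl : l ∣ N) [NeZero (N / l)] (hlq : l ∣ q)
    (hq : 0 < q) (hT : ∀ F, T *ᵥ F = tT N q F) (hk : 0 ≤ k) (hk₂ : 0 ≤ k₂) (hkI : 0 ≤ kI) :
    LS k (k₂ * (l : ℝ) ^ 2) kI (cobV N l * (M * T) * (cobV N l)ᵀ)
      (cobV N l * (M₁ * T) * (cobV N l)ᵀ) (cobV N l * (M₂ * T) * (cobV N l)ᵀ) where
  sum := by
    rw [h.sum, Matrix.add_mul, Matrix.mul_add, Matrix.add_mul]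
  one := by
    rw [cell_map _ hT, cobT_one, kill_T hq hT h.one, Matrix.mulVec_zero]
  op := cell_op hl hq hT hk h.op
  far := cell_en2 hl hq hT hk₂ h.far
  en := cell_en hl hlq hq hT hk h.en
  cr := cell_op hl hq hT hkI h.cr
  cr2 := cell_op hl hq hT hkI h.cr2

end cells

/-- **TYPICAL SOURCES THROUGH A MAP OF THE SPLIT CLASS BEHIND THE TENT** -/
theorem map_typ {b : ℝ} (hb : 0 < b) : ∃ C c : ℝ, 0 < C ∧ 0 < c ∧ c ≤ 1 ∧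
    ∀ (N : ℕ) [NeZero N] (n m q : ℕ), 2 ^ n ∣ N → 2 ^ m ∣ N → ∀ [NeZero (N / 2 ^ n)],
      0 < q → 2 ^ n ∣ q →
    ∀ t : ℝ, 0 < t → t * ((2 : ℝ) ^ n) ^ 2 ≤ 1 → t * ((2 : ℝ) ^ m) ^ 2 ≤ 1 →
      1 < t * 4 ^ (m + 1) → 9 ≤ t * (N : ℝ) ^ 2 →
    ∀ (M M₁ M₂ : Matrix (V N) (V N) ℝ) (k₀ k₂ kI δ : ℝ), SM N k₀ k₂ kI M M₁ M₂ →
      0 ≤ k₀ → 0 ≤ k₂ → k₂ ≤ k₀ * t → 1 ≤ kI → 0 < δ →
      128 * kI * ((2 : ℝ) ^ n / q) ^ 2 ≤ δ ^ 2 →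
    ∀ (Y ρ p p' κ₀ z : ℝ) (j k : ℕ), (2 : ℝ) ^ (j + k) ≤ Y → 0 < ρ → ρ ≤ 1 → p ≤ 1 / 2 →
      p' ≤ 1 / 2 → 1 ≤ κ₀ →
      (∀ q : V (N / 2 ^ n), q ≠ 0 → EE q ≤ t * ((2 ^ n : ℕ) : ℝ) ^ 2 →
        ((2 ^ n : ℕ) : ℝ) ^ 2 * PinC N (2 ^ n) b t t q ≤ κ₀ * EE q) →
      1 ≤ z → z * δ ≤ 1 →
      2 * z * √(2 * (5 + k₀ * (2 + 4 * κ₀ + max 1 (b * κ₀)))) ≤ 2 ^ j →
      (∀ᶠ s in 𝓝[>] (0 : ℝ), TypE N (2 ^ n) b t s Y 1 p ∧ TypE N (2 ^ n) b t s 1 ρ p') →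
    (nuS N b t).real {F | 2 * lvS ρ j k < RF N b t (z • (M *ᵥ tT N q F))} ≤
      68 * (p + p') + C * ((t * (N : ℝ) ^ 2) ^ 4 * (z ^ 2 * kI) ^ 3) *
        (((2 : ℝ) ^ n * √t) ^ c + z * δ) * (1 + 1 / lvS ρ j k) := by
  obtain ⟨C, c, hC, hc, hc1, h⟩ := site_typS hb
  refine ⟨C, c, hC, hc, hc1, ?_⟩
  intro N _ n m q hn hm _ hq hnq t ht htn htm htm1 htN M M₁ M₂ k₀ k₂ kI δ hS hk₀ hk₂ hk2t hkI hδ
    hδ2 Y ρ p p' κ₀ z j k hY hρ hρ1 hp hp' hκ₀ hP hz hzδ hκK hTyp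
  obtain ⟨T, hT⟩ : ∃ T : Matrix (V N) (V N) ℝ, ∀ F, T *ᵥ F = tT N q F := by
    refine ⟨LinearMap.toMatrix' (⟨⟨tT N q, fun x y => tT_add x y⟩, fun c x => tT_smul c x⟩ :
      (V N → ℝ) →ₗ[ℝ] (V N → ℝ)), fun F => ?_⟩
    rw [LinearMap.toMatrix'_mulVec]
    rfl
  have hkI0 : 0 ≤ kI := by linarith
  have hadj := norm_adj hkI0 hS.cr
  have key := h N n m hn hm t ht htn htm htm1 htN (M * T) kI δ k₀
    (k₂ * (((2 ^ n : ℕ) : ℝ)) ^ 2) kI _ _ hkI hδ (adj_tent hq hT hadj) (fun v => by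
      refine (dlt_tent hn hq hT hadj (cellP N (2 ^ n) *ᵥ v)).trans ?_
      have h1 := H663.Dr.sq_cellP (Nat.two_pow_pos n) hn v
      have h2 : 128 * kI * (((2 ^ n : ℕ) : ℝ) / q) ^ 2 ≤ δ ^ 2 := by
        push_cast
        exact hδ2
      have h3 : 0 ≤ ∑ x, (cellP N (2 ^ n) *ᵥ v) x ^ 2 := Finset.sum_nonneg fun _ _ => sq_nonneg _
      exact (mul_le_mul_of_nonneg_right h2 h3).trans (mul_le_mul_of_nonneg_left h1 (sq_nonneg δ)))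
    hk₀ (by positivity) (by
      rw [← mul_assoc]
      exact mul_le_mul_of_nonneg_right hk2t (by positivity)) hkI0
    (cell_LS hS hn hnq hq hT hk₀ hk₂ hkI0) Y ρ p p' κ₀ z j k hY hρ hρ1 hp hp' hκ₀ hP hz hzδ hκK hTyp
  have hD0 : (M * T) *ᵥ (fun _ => (1 : ℝ)) = 0 := by
    rw [← mulVec_mulVec, hT, kill_T hq hT hS.one]
  have e : {F : V N → ℝ | 2 * lvS ρ j k <
      Rs (nwt N b t 0) ((z • ((Pn : Matrix (V N) (V N) ℝ) * (M * T))) *ᵥ src N t F)} =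
      {F | 2 * lvS ρ j k < RF N b t (z • (M *ᵥ tT N q F))} := by
    ext F
    rw [Set.mem_ofPred_eq, Set.mem_ofPred_eq, src_map hD0, ← mulVec_mulVec, hT]
    rfl
  rw [← e]
  exact key

/-- the site inequalities of a linear map given as a function -/
structure SMF (N : ℕ) [NeZero N] (k k₂ kI : ℝ) (f f₁ f₂ : (V N → ℝ) → V N → ℝ) : Prop where
  l₁ : IsLinearMap ℝ f₁
  l₂ : IsLinearMap ℝ f₂
  sum : ∀ H x, f H x = f₁ H x + f₂ H x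
  one : ∀ x, f (fun _ => (1 : ℝ)) x = 0
  op : ∀ H : V N → ℝ, ∑ x, f₁ H x ^ 2 ≤ k * ∑ x, H x ^ 2
  far : ∀ H : V N → ℝ, qf lapM (f₂ H) ≤ k₂ * ∑ x, H x ^ 2
  en : ∀ H : V N → ℝ, qf lapM (f H) ≤ k * qf lapM H
  cr : ∀ H : V N → ℝ, ∑ x, f H x ^ 2 ≤ kI * ∑ x, H x ^ 2
  cr2 : ∀ H : V N → ℝ, ∑ x, f₂ H x ^ 2 ≤ kI * ∑ x, H x ^ 2

lemma SMF.mat {N : ℕ} [NeZero N] {k k₂ kI : ℝ} {f f₁ f₂ : (V N → ℝ) → V N → ℝ}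
    (h : SMF N k k₂ kI f f₁ f₂) : ∃ M M₁ M₂ : Matrix (V N) (V N) ℝ, SM N k k₂ kI M M₁ M₂ ∧
      ∀ H, M *ᵥ H = f H := by
  have e₁ : ∀ H, LinearMap.toMatrix' (h.l₁.mk' f₁) *ᵥ H = f₁ H := fun H => by
    rw [LinearMap.toMatrix'_mulVec]
    rfl
  have e₂ : ∀ H, LinearMap.toMatrix' (h.l₂.mk' f₂) *ᵥ H = f₂ H := fun H => by
    rw [LinearMap.toMatrix'_mulVec]
    rfl
  have e : ∀ H, (LinearMap.toMatrix' (h.l₁.mk' f₁) + LinearMap.toMatrix' (h.l₂.mk' f₂)) *ᵥ H =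
      f H := fun H => by
    rw [Matrix.add_mulVec, e₁, e₂]
    funext x
    rw [Pi.add_apply, h.sum]
  refine ⟨_, _, _, ⟨rfl, ?_, ?_, ?_, ?_, ?_, ?_⟩, e⟩
  · rw [e]
    funext x
    exact h.one x
  · intro H
    rw [e₁]
    exact h.op H
  · intro H
    rw [e₂]
    exact h.far H
  · intro H
    rw [e]
    exact h.en H
  · intro H
    rw [e]
    exact h.cr H
  · intro H
    rw [e₂]
    exact h.cr2 H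

/-- **the same for a linear map given as a function** -/
theorem map_typF {b : ℝ} (hb : 0 < b) : ∃ C c : ℝ, 0 < C ∧ 0 < c ∧ c ≤ 1 ∧
    ∀ (N : ℕ) [NeZero N] (n m q : ℕ), 2 ^ n ∣ N → 2 ^ m ∣ N → ∀ [NeZero (N / 2 ^ n)],
      0 < q → 2 ^ n ∣ q →
    ∀ t : ℝ, 0 < t → t * ((2 : ℝ) ^ n) ^ 2 ≤ 1 → t * ((2 : ℝ) ^ m) ^ 2 ≤ 1 →
      1 < t * 4 ^ (m + 1) → 9 ≤ t * (N : ℝ) ^ 2 →
    ∀ (f f₁ f₂ : (V N → ℝ) → V N → ℝ) (k₀ k₂ kI δ : ℝ), SMF N k₀ k₂ kI f f₁ f₂ →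
      0 ≤ k₀ → 0 ≤ k₂ → k₂ ≤ k₀ * t → 1 ≤ kI → 0 < δ →
      128 * kI * ((2 : ℝ) ^ n / q) ^ 2 ≤ δ ^ 2 →
    ∀ (Y ρ p p' κ₀ z : ℝ) (j k : ℕ), (2 : ℝ) ^ (j + k) ≤ Y → 0 < ρ → ρ ≤ 1 → p ≤ 1 / 2 →
      p' ≤ 1 / 2 → 1 ≤ κ₀ →
      (∀ q : V (N / 2 ^ n), q ≠ 0 → EE q ≤ t * ((2 ^ n : ℕ) : ℝ) ^ 2 →
        ((2 ^ n : ℕ) : ℝ) ^ 2 * PinC N (2 ^ n) b t t q ≤ κ₀ * EE q) →
      1 ≤ z → z * δ ≤ 1 →
      2 * z * √(2 * (5 + k₀ * (2 + 4 * κ₀ + max 1 (b * κ₀)))) ≤ 2 ^ j →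
      (∀ᶠ s in 𝓝[>] (0 : ℝ), TypE N (2 ^ n) b t s Y 1 p ∧ TypE N (2 ^ n) b t s 1 ρ p') →
    (nuS N b t).real {F | 2 * lvS ρ j k < RF N b t (z • f (tT N q F))} ≤
      68 * (p + p') + C * ((t * (N : ℝ) ^ 2) ^ 4 * (z ^ 2 * kI) ^ 3) *
        (((2 : ℝ) ^ n * √t) ^ c + z * δ) * (1 + 1 / lvS ρ j k) := by
  obtain ⟨C, c, hC, hc, hc1, h⟩ := map_typ hb
  refine ⟨C, c, hC, hc, hc1, ?_⟩
  intro N _ n m q hn hm _ hq hnq t ht htn htm htm1 htN f f₁ f₂ k₀ k₂ kI δ hS hk₀ hk₂ hk2t hkI hδ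
    hδ2 Y ρ p p' κ₀ z j k hY hρ hρ1 hp hp' hκ₀ hP hz hzδ hκK hTyp
  obtain ⟨M, M₁, M₂, hM, e⟩ := hS.mat
  have key := h N n m q hn hm hq hnq t ht htn htm htm1 htN M M₁ M₂ k₀ k₂ kI δ hM hk₀ hk₂ hk2t hkI
    hδ hδ2 Y ρ p p' κ₀ z j k hY hρ hρ1 hp hp' hκ₀ hP hz hzδ hκK hTyp
  simpa only [e] using key

end

end Vale.Agent.P159.H789
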