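import Vale.Agent.P159.H789.TaD
import Vale.Agent.P159.TM.H857.GlueB

/-!
P159, module TORAP (helper789), part E: TORAP in the letters of `H972/Good.lean`, error in numbers.
-/

set_option linter.unusedSectionVars false

namespace Vale.Agent.P159.H789

open Finset Matrix MeasureTheory ProbabilityTheory
open Vale.Agent.P159.H37
open Vale.Agent.P159.TM.H104 (EM Lg li Cv)
open Vale.Agent.P159.TM.Spec (V Rng)
open Vale.Agent.P159.TM.H265 (HA)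
open Vale.Agent.P159.H972 (cobB AP RNG Par tn)
open Vale.Agent.P159.H358 (err9q err9q_nonneg)
open Vale.Agent.P159.H816 (Gam Gam_nonneg)

noncomputable section

lemma tn_eq' (n : ℕ) : tn n = 1 / ((2 ^ n : ℕ) : ℝ) ^ 2 := by
  unfold tn
  push_cast
  rw [one_div, ← pow_mul, mul_comm n 2, pow_mul]
  norm_num

theorem pre_le {r X Z S q : ℝ} (hr : 0 ≤ r) (hX : 1 ≤ X) (hXS : X ≤ S) (hZS : Z ≤ S)
    (hS1 : 1 ≤ S) (hqR : 1 ≤ q) (hq : Real.log q ≤ Z) :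
    1 + 2 * r * (10 * (X / 6) * q ^ 2) * ((1 : ℕ) : ℝ) ≤ Real.exp ((3 + 20 * r) * S) := by
  have h1 : q ^ 2 ≤ Real.exp (2 * Z) := by
    have h2 : Real.exp (2 * Real.log q) = q ^ 2 := by
      have h3 : (2 : ℝ) * Real.log q = ((2 : ℕ) : ℝ) * Real.log q := by norm_num
      rw [h3, Real.exp_nat_mul, Real.exp_log (by linarith)]
    rw [← h2]
    refine Real.exp_le_exp.2 ?_
    linarith
  have h3 : 1 + 20 * r ≤ Real.exp (20 * r) := by
    have := Real.add_one_le_exp (20 * r)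
    linarith
  have h4 : 1 + X ≤ Real.exp X := by
    have := Real.add_one_le_exp X
    linarith
  have hq2 : 1 ≤ q ^ 2 := by nlinarith
  have h5 : 1 + 2 * r * (10 * (X / 6) * q ^ 2) * ((1 : ℕ) : ℝ) ≤
      (1 + 20 * r) * (1 + X) * q ^ 2 := by
    have h6 : 0 ≤ r * (X * q ^ 2) := by positivity
    have h7 : 0 ≤ r * q ^ 2 := by positivity
    have h8 : 0 ≤ X * q ^ 2 := by positivity
    have e1 : (1 + 20 * r) * (1 + X) * q ^ 2 =
        q ^ 2 + X * q ^ 2 + 20 * (r * q ^ 2) + 20 * (r * (X * q ^ 2)) := by ring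
    have e2 : 1 + 2 * r * (10 * (X / 6) * q ^ 2) * ((1 : ℕ) : ℝ) =
        1 + 20 / 6 * (r * (X * q ^ 2)) := by
      push_cast
      ring
    rw [e1, e2]
    linarith
  refine h5.trans ?_
  have h9 : (1 + 20 * r) * (1 + X) * q ^ 2 ≤
      Real.exp (20 * r) * Real.exp X * Real.exp (2 * Z) :=
    mul_le_mul (mul_le_mul h3 h4 (by linarith) (Real.exp_pos _).le) h1 (sq_nonneg _)
      (by positivity)
  refine h9.trans ?_
  rw [← Real.exp_add, ← Real.exp_add]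
  refine Real.exp_le_exp.2 ?_
  have h10 : 20 * r ≤ 20 * r * S := le_mul_of_one_le_right (by positivity) hS1
  have e3 : (3 + 20 * r) * S = S + 2 * S + 20 * r * S := by ring
  rw [e3]
  linarith

/-- the scalar inequality behind TORAP -/
theorem eTA_le {C c κ : ℝ} (hc : 0 < c) (hκ : 0 < κ) :
    ∃ A₁ : ℝ, 1 ≤ A₁ ∧ ∀ (X Z : ℝ) (l q m : ℕ), 1 ≤ X → 1 ≤ Z → 6 ≤ m → 0 < l * q →
      Real.log q ≤ Z → 0 < q → A₁ * (X ^ 2 * Z) ≤ m →
      eTA C c κ (X / 6) l q m ≤ Real.exp (-((m : ℝ) / A₁)) := by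
  have hsC : 0 ≤ Real.sqrt C := Real.sqrt_nonneg C
  obtain ⟨G, hG⟩ : ∃ G : ℝ, G = 13 + 2 / κ := ⟨_, rfl⟩
  have hG0 : 1 ≤ G := by
    rw [hG]
    have : 0 < 2 / κ := by positivity
    linarith
  obtain ⟨a0, ha0⟩ : ∃ a0 : ℝ, a0 = 8 + 20 * Real.sqrt C + 300 * G := ⟨_, rfl⟩
  have ha0' : 0 < a0 := by rw [ha0]; positivity
  obtain ⟨A₁, hA₁⟩ : ∃ A₁ : ℝ, A₁ = 96 * a0 / c + 96 / c + 1 := ⟨_, rfl⟩
  have hp1 : 0 < 96 * a0 / c := by positivity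
  have hp2 : 0 < 96 / c := by positivity
  refine ⟨A₁, by linarith, ?_⟩
  intro X Z l q m hX hZ hm hξ hq hq0 hA
  have hmR : (6 : ℝ) ≤ m := by exact_mod_cast hm
  have hlq : (0 : ℝ) < ((l * q : ℕ) : ℝ) := by exact_mod_cast hξ
  have hqR : (1 : ℝ) ≤ q := by exact_mod_cast hq0
  have hX2 : 1 ≤ X ^ 2 := by nlinarith
  have hXX : X ≤ X ^ 2 := by nlinarith
  obtain ⟨S, hS⟩ : ∃ S : ℝ, S = X ^ 2 * Z := ⟨_, rfl⟩
  have hXS : X ≤ S := by
    rw [hS]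
    nlinarith
  have hZS : Z ≤ S := by
    rw [hS]
    nlinarith
  have hS1 : 1 ≤ S := hX.trans hXS
  rw [← hS] at hA
  have hmain : a0 * S ≤ c * m / 96 := by
    have h1 : 96 * a0 / c * S ≤ m := by
      refine le_trans (mul_le_mul_of_nonneg_right ?_ (by linarith)) hA
      linarith
    have h2 := mul_le_mul_of_nonneg_right h1 (show 0 ≤ c / 96 by positivity)
    have h3 : 96 * a0 / c * S * (c / 96) = a0 * S := by
      field_simp
    rw [h3] at h2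
    linarith
  have hdist : (m : ℝ) / 4 ≤ ((m / 2 - 1 : ℕ) : ℝ) := by
    have h2 : m ≤ 4 * (m / 2 - 1) := by omega
    have h3 : (m : ℝ) ≤ 4 * ((m / 2 - 1 : ℕ) : ℝ) := by exact_mod_cast h2
    linarith
  have hek : Ek q κ ≤ G * Z := by
    unfold Ek
    rw [hG]
    have h1 : (1 + Real.log q) / κ ≤ 2 * Z / κ := by
      rw [div_le_div_iff_of_pos_right hκ]
      linarith
    have h3 : (13 + 2 / κ) * Z = 13 * Z + 2 * Z / κ := by ring
    rw [h3]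
    linarith
  have hLam : 3 * (1600 * (X / 6) ^ 2 * Ek q κ) ≤ 300 * G * S := by
    have h1 : 0 ≤ 1600 * (X / 6) ^ 2 := by positivity
    have h3 := mul_le_mul_of_nonneg_left hek h1
    have h2 : 0 ≤ G * S := by positivity
    have h4 : 1600 * (X / 6) ^ 2 * (G * Z) = 1600 / 36 * (G * S) := by
      rw [hS]
      ring
    rw [h4] at h3
    linarith
  have hpre := pre_le hsC hX hXS hZS hS1 hqR hq
  have h120 : (120 : ℝ) ≤ Real.exp (5 * S) := by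
    have h4 : (2.7182818283 : ℝ) < Real.exp 1 := Real.exp_one_gt_d9
    have h5 : Real.exp (5 : ℝ) = Real.exp 1 ^ 5 := by rw [← Real.exp_nat_mul]; norm_num
    have h6 : (2.7182818283 : ℝ) ^ 5 ≤ Real.exp 1 ^ 5 := pow_le_pow_left₀ (by norm_num) h4.le 5
    have h7 : (120 : ℝ) ≤ Real.exp 5 := by
      rw [h5]
      exact le_trans (by norm_num) h6
    exact h7.trans (Real.exp_le_exp.2 (by linarith))
  unfold eTA H358.err9q
  have e1 : c * (((m / 2 - 1) * (l * q) : ℕ) : ℝ) / (12 * ((l * q : ℕ) : ℝ)) =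
      c * ((m / 2 - 1 : ℕ) : ℝ) / 12 := by
    rw [Nat.cast_mul (m / 2 - 1) (l * q)]
    field_simp
  rw [e1]
  have e2 : 2 * (60 * (1 + 2 * Real.sqrt C * (10 * (X / 6) * (q : ℝ) ^ 2) * ((1 : ℕ) : ℝ)) *
      Real.exp (3 * (1600 * (X / 6) ^ 2 * Ek q κ)) *
      Real.exp (-(c * ((m / 2 - 1 : ℕ) : ℝ) / 12))) =
      120 * (1 + 2 * Real.sqrt C * (10 * (X / 6) * (q : ℝ) ^ 2) * ((1 : ℕ) : ℝ)) *
      Real.exp (3 * (1600 * (X / 6) ^ 2 * Ek q κ)) *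
      Real.exp (-(c * ((m / 2 - 1 : ℕ) : ℝ) / 12)) := by ring
  rw [e2]
  have h1 : 120 * (1 + 2 * Real.sqrt C * (10 * (X / 6) * (q : ℝ) ^ 2) * ((1 : ℕ) : ℝ)) *
      Real.exp (3 * (1600 * (X / 6) ^ 2 * Ek q κ)) *
      Real.exp (-(c * ((m / 2 - 1 : ℕ) : ℝ) / 12)) ≤
      Real.exp (5 * S) * Real.exp ((3 + 20 * Real.sqrt C) * S) * Real.exp (300 * G * S) *
        Real.exp (-(c * m / 48)) := by
    refine mul_le_mul (mul_le_mul (mul_le_mul h120 hpre (by positivity) (Real.exp_pos _).le)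
      (Real.exp_le_exp.2 hLam) (Real.exp_pos _).le (by positivity)) ?_ (Real.exp_pos _).le
      (by positivity)
    refine Real.exp_le_exp.2 (neg_le_neg ?_)
    have := mul_le_mul_of_nonneg_left hdist hc.le
    linarith
  refine h1.trans ?_
  rw [← Real.exp_add, ← Real.exp_add, ← Real.exp_add]
  refine Real.exp_le_exp.2 ?_
  have h2 : 5 * S + (3 + 20 * Real.sqrt C) * S + 300 * G * S = a0 * S := by
    rw [ha0]
    ring
  have h3 : (m : ℝ) / A₁ ≤ c * m / 96 := by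
    rw [div_le_iff₀ (by linarith)]
    have h4 : 96 / c ≤ A₁ := by linarith
    have h5 : c * (m : ℝ) / 96 * (96 / c) = m := by
      field_simp
    have h6 := mul_le_mul_of_nonneg_left h4 (show 0 ≤ c * (m : ℝ) / 96 by positivity)
    rw [h5] at h6
    exact h6
  rw [h2]
  linarith

/-- stiffness of the bare comparison field, uniform in `b <= b2` -/
def kab (b2 : ℝ) : ℝ := 1 / (max b2 0 + 12 * max b2 1 ^ 2)

lemma kab_pos (b2 : ℝ) : 0 < kab b2 := by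
  unfold kab
  have h1 : (1 : ℝ) ≤ max b2 1 := le_max_right _ _
  have h2 : (0 : ℝ) ≤ max b2 0 := le_max_right _ _
  positivity

lemma kab_le {b b2 : ℝ} (hb : b ≤ b2) : kab b2 * (b + 12 * max b 1 ^ 2 * 1 ^ 2) ≤ 1 := by
  have h1 : (1 : ℝ) ≤ max b2 1 := le_max_right _ _
  have h2 : (0 : ℝ) ≤ max b2 0 := le_max_right _ _
  have h3 : max b 1 ≤ max b2 1 := max_le_max hb le_rfl
  have h4 : (1 : ℝ) ≤ max b 1 := le_max_right _ _
  have h5 : b ≤ max b2 0 := hb.trans (le_max_left _ _)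
  have h6 : max b 1 ^ 2 ≤ max b2 1 ^ 2 := pow_le_pow_left₀ (by linarith) h3 2
  unfold kab
  rw [one_div, inv_mul_le_iff₀ (by positivity), mul_one]
  linarith

lemma Gam_le {n r : ℕ} (hnr : n ≤ r) {κ : ℝ} (hκ : 0 < κ) :
    Gam (2 ^ r) (tn n) (tn n) κ ≤ 4 * (κ + 1 + r) := by
  have ht : 0 < tn n := by
    unfold tn
    positivity
  have h1 : (1 : ℝ) ≤ tn n * ((2 ^ r : ℕ) : ℝ) ^ 2 := by
    rw [tn_eq', div_mul_eq_mul_div, one_mul, one_le_div (by positivity)]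
    have h2 : ((2 ^ n : ℕ) : ℝ) ≤ ((2 ^ r : ℕ) : ℝ) := by
      exact_mod_cast Nat.pow_le_pow_right (by norm_num) hnr
    exact pow_le_pow_left₀ (Nat.cast_nonneg _) h2 2
  have h3 : κ / (tn n * ((2 ^ r : ℕ) : ℝ) ^ 2) ≤ κ := div_le_self hκ.le h1
  have h4 : Real.log ((2 ^ r : ℕ) : ℝ) ≤ r := by
    push_cast
    rw [Real.log_pow]
    have h5 := Real.log_two_lt_d9
    have h6 : (0 : ℝ) ≤ r := Nat.cast_nonneg r
    nlinarith
  unfold Gam
  rw [div_self ht.ne', one_pow, mul_one]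
  linarith

lemma log_pow_le {k : ℕ} {Z : ℝ} (h : (k : ℝ) ≤ Z) : Real.log ((2 ^ k : ℕ) : ℝ) ≤ Z := by
  push_cast
  rw [Real.log_pow]
  have h5 := Real.log_two_lt_d9
  have h6 : (0 : ℝ) ≤ k := Nat.cast_nonneg k
  nlinarith

lemma rng_of_P {b1 b2 W ys : ℝ} {X0 : ℕ} {P : Par} {b e : ℝ} {n r : ℕ} (h : RNG P b n r e)
    (hP1 : P.b1 = b1) (hP2 : P.b2 = b2) (hPW : P.W = W) (hPy : P.ys ≤ ys) (hPX : X0 ≤ P.X0) :
    Rng b1 b2 (5 / 2) W ys X0 (2 ^ r) b (2 ^ n) (e ^ (1 / 4 : ℝ)) := by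
  have h1 : Rng P.b1 P.b2 (5 / 2) P.W P.ys P.X0 (2 ^ r) b (2 ^ n) (e ^ (1 / 4 : ℝ)) := h
  rw [hP1, hP2, hPW] at h1
  exact TM.H857.rng_mono h1 le_rfl hPy hPX

/-- **TORAP in the letters of Good.lean**, constants first -/
theorem torap_AP' {b1 b2 W ys : ℝ} {X0 : ℕ} (hb1 : 0 < b1) {c C : ℝ} (hc : 0 < c) (hC : 0 < C)
    (hHA : ∀ (N : ℕ) [NeZero N] (b : ℝ) (hb : 0 ≤ b) (ξ : ℕ) (y : ℝ),
      Rng b1 b2 (5 / 2) W ys X0 N b ξ y → HA N b ξ hb y c C) :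
    ∃ A₁ : ℝ, 1 ≤ A₁ ∧ ∀ P : Par, P.b1 = b1 → P.b2 = b2 → P.W = W → P.ys ≤ ys → X0 ≤ P.X0 →
      ∀ (b : ℝ) (n r r' s m : ℕ) (e X δ : ℝ), 0 < e → RNG P b n r e →
      RNG P b n r' e → s ≤ n → 1 ≤ X → 0 ≤ δ → 6 ≤ m → m * 2 ^ n ≤ 2 ^ r → m * 2 ^ n ≤ 2 ^ r' →
      (m : ℝ) * e ^ (1 / 4 : ℝ) ≤ c →
      A₁ * (X ^ 2 * (1 + ((n - s : ℕ) : ℝ))) ≤ m →
      A₁ * (X ^ 2 * (1 + r + r')) ≤ 4 ^ s →
      AP b n r s X (tn n) δ → AP b n r' s (X / 6) (tn n) (δ + Real.exp (-((m : ℝ) / A₁))) := by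
  have hκ := kab_pos b2
  obtain ⟨A, hA1, hA⟩ := eTA_le (C := C) hc hκ
  obtain ⟨A₁, hA₁⟩ : ∃ A₁ : ℝ, A₁ = A + 178 * (kab b2 + 1) := ⟨_, rfl⟩
  have hAA : A ≤ A₁ := by rw [hA₁]; linarith
  have hA178 : 178 * (kab b2 + 1) ≤ A₁ := by rw [hA₁]; linarith
  refine ⟨A₁, by linarith, ?_⟩
  intro P hP1 hP2 hPW hPy hPX b n r r' s m e X δ he hR0 hR0' hsn hX hδ hm hN hM hmy hm1 hs1 hAP B
  have hR : Rng b1 b2 (5 / 2) W ys X0 (2 ^ r) b (2 ^ n) (e ^ (1 / 4 : ℝ)) := rng_of_P hR0 hP1 hP2 hPW hPy hPX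
  have hR' : Rng b1 b2 (5 / 2) W ys X0 (2 ^ r') b (2 ^ n) (e ^ (1 / 4 : ℝ)) := rng_of_P hR0' hP1 hP2 hPW hPy hPX
  have hb : 0 ≤ b := hb1.le.trans hR.hb1
  have hmpos : 1 ≤ m := by omega
  have hnr : n ≤ r := by
    have h1 : 2 ^ n ≤ 2 ^ r := le_trans (Nat.le_mul_of_pos_left _ hmpos) hN
    exact (Nat.pow_le_pow_iff_right (by norm_num)).1 h1
  have hnr' : n ≤ r' := by
    have h1 : 2 ^ n ≤ 2 ^ r' := le_trans (Nat.le_mul_of_pos_left _ hmpos) hM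
    exact (Nat.pow_le_pow_iff_right (by norm_num)).1 h1
  have hlq : 2 ^ s * 2 ^ (n - s) = 2 ^ n := by
    rw [← pow_add]
    congr 1
    omega
  have hdiv : ∀ k : ℕ, s ≤ k → 2 ^ k / 2 ^ s = 2 ^ (k - s) := fun k hk =>
    Nat.pow_div hk (by norm_num)
  have i1 : NeZero (2 ^ r / 2 ^ s) := ⟨by
    rw [hdiv r (hsn.trans hnr)]
    positivity⟩
  have i2 : NeZero (2 ^ r' / 2 ^ s) := ⟨by
    rw [hdiv r' (hsn.trans hnr')]
    positivity⟩
  have ht : 1 / ((2 ^ s * 2 ^ (n - s) : ℕ) : ℝ) ^ 2 = tn n := by rw [hlq, tn_eq']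
  have hX2 : 0 ≤ X ^ 2 := sq_nonneg X
  have hGam : ∀ k : ℕ, n ≤ k → (k : ℝ) ≤ r + r' →
      1600 * Gam (2 ^ k) (tn n) (tn n) (kab b2) * (X / 6) ^ 2 ≤ ((2 ^ s : ℕ) : ℝ) ^ 2 := by
    intro k hk hk2
    have h1 := Gam_le hk hκ
    have h2 : ((2 ^ s : ℕ) : ℝ) ^ 2 = 4 ^ s := by
      push_cast
      rw [← pow_mul, mul_comm s 2, pow_mul]
      norm_num
    rw [h2]
    refine le_trans ?_ hs1
    have h3 : 1600 * Gam (2 ^ k) (tn n) (tn n) (kab b2) * (X / 6) ^ 2 ≤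
        1600 * (4 * (kab b2 + 1 + k)) * (X / 6) ^ 2 := by
      refine mul_le_mul_of_nonneg_right ?_ (sq_nonneg _)
      linarith
    refine h3.trans ?_
    have h4 : kab b2 + 1 + k ≤ (kab b2 + 1) * (1 + r + r') := by
      have h5 : (0 : ℝ) ≤ r := Nat.cast_nonneg r
      have h6 : (0 : ℝ) ≤ r' := Nat.cast_nonneg r'
      nlinarith
    have h5 : 1600 * (4 * (kab b2 + 1 + k)) * (X / 6) ^ 2 ≤
        178 * ((kab b2 + 1) * (1 + r + r')) * X ^ 2 := by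
      have h6 : 0 ≤ kab b2 + 1 + k := by positivity
      have h7 : 1600 * (4 * (kab b2 + 1 + k)) * (X / 6) ^ 2 =
          6400 / 36 * (kab b2 + 1 + k) * X ^ 2 := by ring
      rw [h7]
      refine mul_le_mul_of_nonneg_right ?_ hX2
      linarith
    refine h5.trans ?_
    have h8 : 0 ≤ X ^ 2 * (1 + (r : ℝ) + r') := by positivity
    have h9 := mul_le_mul_of_nonneg_right hA178 h8
    linarith
  have hcR : (2 ^ s * 2 ^ (n - s)) ∣ 2 ^ r' := by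
    rw [hlq]
    exact pow_dvd_pow 2 hnr'
  have ey : 0 ≤ e ^ (1 / 4 : ℝ) := (Real.rpow_pos_of_pos he _).le
  have key := torap (N := 2 ^ r) (M := 2 ^ r') (l := 2 ^ s) (q := 2 ^ (n - s)) (b := b)
    (κ := kab b2) hb hκ (kab_le hR.hb2) (pow_dvd_pow 2 (hsn.trans hnr))
    (pow_dvd_pow 2 (hsn.trans hnr')) (by positivity) (by positivity) hcR (y := e ^ (1 / 4 : ℝ))
    (y' := e ^ (1 / 4 : ℝ)) hC (by rw [hlq]; exact hHA _ b hb _ _ hR)
    (by rw [hlq]; exact hHA _ b hb _ _ hR') ey ey hm (by rw [hlq]; exact hN)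
    (by rw [hlq]; exact hM) hmy hmy (X := X) (δ := δ) (by linarith) hδ
    (by rw [ht]; exact hGam r hnr (by have : (0 : ℝ) ≤ r' := Nat.cast_nonneg r'
                                      linarith))
    (by rw [ht]; exact hGam r' hnr' (by have : (0 : ℝ) ≤ r := Nat.cast_nonneg r
                                        linarith))
    (B₀ := (0, 0)) (by
      rw [hlq, zero_mul, zero_add]
      exact Nat.pow_le_pow_right (by norm_num) hnr) (by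
      rw [hlq, zero_mul, zero_add]
      exact Nat.pow_le_pow_right (by norm_num) hnr) (by rw [ht]; exact hAP (0, 0)) B
  rw [ht] at key
  refine le_trans (measureReal_mono fun g hg => ?_) key
  have h1 : eTA C c (kab b2) (X / 6) (2 ^ s) (2 ^ (n - s)) m ≤
      Real.exp (-((m : ℝ) / A₁)) := by
    have h2 := hA X (1 + ((n - s : ℕ) : ℝ)) (2 ^ s) (2 ^ (n - s)) m hX (by
        have : (0 : ℝ) ≤ ((n - s : ℕ) : ℝ) := Nat.cast_nonneg _
        linarith) hm (by positivity)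
      (log_pow_le (by linarith)) (by positivity) (by
        refine le_trans (mul_le_mul_of_nonneg_right hAA ?_) hm1
        positivity)
    refine h2.trans (Real.exp_le_exp.2 (neg_le_neg ?_))
    have h4 : (0 : ℝ) ≤ m := Nat.cast_nonneg m
    exact div_le_div_of_nonneg_left h4 (by linarith) hAA
  exact lt_of_le_of_lt (add_le_add_right h1 δ) hg

/-- **TORAP in the letters of Good.lean** -/
theorem torap_AP {P : Par} (hb1 : 0 < P.b1) {c C : ℝ} (hc : 0 < c) (hC : 0 < C)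
    (hHA : ∀ (N : ℕ) [NeZero N] (b : ℝ) (hb : 0 ≤ b) (ξ : ℕ) (y : ℝ),
      Rng P.b1 P.b2 (5 / 2) P.W P.ys P.X0 N b ξ y → HA N b ξ hb y c C) :
    ∃ A₁ : ℝ, 1 ≤ A₁ ∧ ∀ (b : ℝ) (n r r' s m : ℕ) (e X δ : ℝ), 0 < e → RNG P b n r e →
      RNG P b n r' e → s ≤ n → 1 ≤ X → 0 ≤ δ → 6 ≤ m → m * 2 ^ n ≤ 2 ^ r → m * 2 ^ n ≤ 2 ^ r' →
      (m : ℝ) * e ^ (1 / 4 : ℝ) ≤ c →
      A₁ * (X ^ 2 * (1 + ((n - s : ℕ) : ℝ))) ≤ m →
      A₁ * (X ^ 2 * (1 + r + r')) ≤ 4 ^ s →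
      AP b n r s X (tn n) δ → AP b n r' s (X / 6) (tn n) (δ + Real.exp (-((m : ℝ) / A₁))) := by
  obtain ⟨A₁, hA₁, h⟩ := torap_AP' hb1 hc hC hHA
  exact ⟨A₁, hA₁, h P rfl rfl rfl le_rfl le_rfl⟩

end

end Vale.Agent.P159.H789
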