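import Vale.Agent.P159.H789.LgG
import Vale.Agent.P159.H789.TaE
import Vale.Agent.P159.H586.Fern1

/-!
P159, module LG (helper789), part H: **LGT in the letters of Good.lean**: the constant source of a
block from AP on the same torus, and the numbers.
-/

set_option linter.unusedSectionVars false

namespace Vale.Agent.P159.H789

open Finset Matrix MeasureTheory ProbabilityTheory
open Vale.Agent.P159.H37
open Vale.Agent.P159.TM.H104 (EM Ex Cv Lg li Gr)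
open Vale.Agent.P159.TM.Spec (V Rng)
open Vale.Agent.P159.TM.SpecC (wT)
open Vale.Agent.P159.TM.H459 (sd sn bk bk1)
open Vale.Agent.P159.H972 (cobB AP RNG Par tn)

noncomputable section

lemma tn_pos (n : ℕ) : 0 < tn n := by
  unfold tn
  positivity

/-- the indicator of a block is the block of constant profile one -/
theorem ib_eq_blkf {N : ℕ} [NeZero N] {ν ξ : ℕ} [NeZero ν] (hξ : 0 < ξ) (hN : N = ν * ξ)
    (β : ZMod ν × ZMod ν) (z : V N) :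
    ib ν ξ β z = if z.1.val / ξ = β.1.val ∧ z.2.val / ξ = β.2.val then 1 else 0 := by
  unfold ib
  refine if_congr ?_ rfl rfl
  have key : ∀ (a : ZMod N) (c : ZMod ν), bk1 ν ξ a = c ↔ a.val / ξ = c.val := by
    intro a c
    have h1 : a.val / ξ < ν := by
      rw [Nat.div_lt_iff_lt_mul hξ, ← hN]
      exact ZMod.val_lt a
    unfold TM.H459.bk1
    constructor
    · intro h
      rw [← h, ZMod.val_natCast, Nat.mod_eq_of_lt h1]
    · intro h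
      rw [h, ZMod.natCast_zmod_val]
  unfold TM.H459.bk
  rw [Prod.ext_iff]
  exact and_congr (key _ _) (key _ _)

/-- constant profile -/
theorem Cb_const {N l q : ℕ} [NeZero N] (hl0 : 0 < l) (hq : 0 < q) (B : ℕ × ℕ) (h0 : ℝ)
    (x : V N) : (Cb N l q B *ᵥ fun _ => h0) x =
      if x.1.val / (l * q) = B.1 ∧ x.2.val / (l * q) = B.2 then (l : ℝ)⁻¹ * h0 else 0 := by
  classical
  rw [Cb_mulVec]
  unfold blkf
  by_cases hx : x.1.val / (l * q) = B.1 ∧ x.2.val / (l * q) = B.2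
  · rw [if_pos hx, if_pos hx]
    have hm : ∀ a : ℕ, a % (l * q) / l < q := by
      intro a
      rw [Nat.div_lt_iff_lt_mul hl0, Nat.mul_comm q l]
      exact Nat.mod_lt _ (Nat.mul_pos hl0 hq)
    unfold prf
    rw [Finset.sum_eq_single (⟨x.1.val % (l * q) / l, hm _⟩, ⟨x.2.val % (l * q) / l, hm _⟩)]
    · rw [if_pos ⟨rfl, rfl⟩]
    · intro c _ hne
      rw [if_neg, zero_mul]
      rintro ⟨h1, h2⟩
      exact hne (Prod.ext (Fin.ext h1.symm) (Fin.ext h2.symm))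
    · intro h
      exact absurd (Finset.mem_univ _) h
  · rw [if_neg hx, if_neg hx]

/-- **(A2) from AP**: constant sources of a block -/
theorem cst_of_AP {b : ℝ} {n r s : ℕ} {X δ Q : ℝ} (hb : 0 ≤ b) (hsn : s ≤ n) (hnr : n ≤ r)
    (hX : 0 < X) (hQ : 0 ≤ Q) (hQX : 2 * Q ≤ X) (hAP : AP b n r s X (tn n) δ)
    (β : ZMod (2 ^ (r - n)) × ZMod (2 ^ (r - n))) :
    Rs (wt (2 ^ r) b (tn n)) (Q • (tn n • (ib (2 ^ (r - n)) (2 ^ n) β : V (2 ^ r) → ℝ))) ≤ δ := by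
  classical
  have ht := tn_pos n
  have hlq : 2 ^ s * 2 ^ (n - s) = 2 ^ n := by
    rw [← pow_add]
    congr 1
    omega
  have hNb : 2 ^ r = 2 ^ (r - n) * 2 ^ n := by
    rw [← pow_add]
    congr 1
    omega
  have hμ : EM (wt (2 ^ r) b (tn n)) := em_wt hb ht
  have hE : Ev (wt (2 ^ r) b (tn n)) := ev_wt
  have hK : PK (wt (2 ^ r) b (tn n)) := pk_wt hb ht
  have hS : MeasurableSet {J : V (2 ^ r) → ℝ | δ < Rs (wt (2 ^ r) b (tn n))
      ((X * Real.sqrt (tn n)) • J)} :=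
    measurableSet_lt measurable_const ((H586.rs_meas hμ).comp (measurable_const_smul _))
  have h1 := hAP (β.1.val, β.2.val)
  have h2 := law_blk (N := 2 ^ r) (l := 2 ^ s) (q := 2 ^ (n - s))
    (pow_dvd_pow 2 (hsn.trans hnr)) (by positivity) (by positivity) (β.1.val, β.2.val) hS
  simp only [Set.mem_ofPred_eq] at h2
  have h3 : (gau (Fin (2 ^ (n - s)) × Fin (2 ^ (n - s)))).real {g | δ < Rs (wt (2 ^ r) b (tn n))
      (((X * Real.sqrt (tn n)) • Cb (2 ^ r) (2 ^ s) (2 ^ (n - s)) (β.1.val, β.2.val)) *ᵥ g)} ≤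
      1 / 30 := by
    simp only [smul_mulVec] at h1 ⊢
    rw [← h2]
    exact h1
  have hq0 : (0 : ℝ) < ((2 ^ (n - s) : ℕ) : ℝ) := by positivity
  have hl0 : (0 : ℝ) < ((2 ^ s : ℕ) : ℝ) := by positivity
  have hlqR : ((2 ^ s : ℕ) : ℝ) * ((2 ^ (n - s) : ℕ) : ℝ) = ((2 ^ n : ℕ) : ℝ) := by
    exact_mod_cast hlq
  obtain ⟨h0, hh0⟩ : ∃ h0 : ℝ, h0 = 2 * Q / (X * ((2 ^ (n - s) : ℕ) : ℝ)) := ⟨_, rfl⟩
  have h4 := H586.cm_Rs hμ hE hK _ h3 (h := fun _ => h0) (by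
    rw [Finset.sum_const, Finset.card_univ, Fintype.card_prod, Fintype.card_fin, nsmul_eq_mul,
      hh0, div_pow]
    push_cast
    have e1 : (2 : ℝ) ^ (n - s) * 2 ^ (n - s) * ((2 * Q) ^ 2 / (X * 2 ^ (n - s)) ^ 2) =
        (2 * Q / X) ^ 2 := by
      field_simp
    rw [e1]
    have e2 : 2 * Q / X ≤ 1 := by
      rw [div_le_one hX]
      exact hQX
    have e3 : 0 ≤ 2 * Q / X := by positivity
    nlinarith)
  have e : (1 / 2 : ℝ) • (((X * Real.sqrt (tn n)) • Cb (2 ^ r) (2 ^ s) (2 ^ (n - s))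
      (β.1.val, β.2.val)) *ᵥ fun _ => h0) =
      Q • (tn n • (ib (2 ^ (r - n)) (2 ^ n) β : V (2 ^ r) → ℝ)) := by
    funext x
    rw [smul_mulVec, Pi.smul_apply, Pi.smul_apply, Cb_const (by positivity) (by positivity), hlq,
      Pi.smul_apply, Pi.smul_apply, ib_eq_blkf (by positivity) hNb]
    simp only [smul_eq_mul]
    by_cases hx : x.1.val / 2 ^ n = β.1.val ∧ x.2.val / 2 ^ n = β.2.val
    · rw [if_pos hx, if_pos hx, hh0]
      have hs : Real.sqrt (tn n) = (((2 ^ n : ℕ) : ℝ))⁻¹ := by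
        rw [tn_eq', Real.sqrt_div zero_le_one, Real.sqrt_one, Real.sqrt_sq (by positivity),
          one_div]
      have ht2 : tn n = (((2 ^ n : ℕ) : ℝ))⁻¹ * (((2 ^ n : ℕ) : ℝ))⁻¹ := by
        rw [tn_eq']
        field_simp
      rw [hs, ht2, ← hlqR]
      field_simp
    · rw [if_neg hx, if_neg hx]
      ring
  rw [e] at h4
  exact h4

/-- powers are small -/
lemma small_pow (A : ℝ) {p : ℝ} (hp : 0 < p) :
    ∃ e₀ : ℝ, 0 < e₀ ∧ ∀ e, 0 < e → e ≤ e₀ → A * e ^ p ≤ 1 := by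
  obtain ⟨B, hB⟩ : ∃ B : ℝ, B = max A 1 := ⟨_, rfl⟩
  have hB1 : 1 ≤ B := hB ▸ le_max_right _ _
  have hAB : A ≤ B := hB ▸ le_max_left _ _
  refine ⟨(B⁻¹) ^ (1 / p), by positivity, fun e he h => ?_⟩
  have h1 : e ^ p ≤ B⁻¹ := by
    have h2 := Real.rpow_le_rpow he.le h hp.le
    rw [← Real.rpow_mul (by positivity), one_div_mul_cancel hp.ne', Real.rpow_one] at h2
    exact h2
  have h3 : 0 ≤ e ^ p := (Real.rpow_pos_of_pos he p).le
  calc A * e ^ p ≤ B * e ^ p := mul_le_mul_of_nonneg_right hAB h3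
    _ ≤ B * B⁻¹ := mul_le_mul_of_nonneg_left h1 (by linarith)
    _ = 1 := mul_inv_cancel₀ (by positivity)

/-- the numbers of LGT -/
theorem lgt_num {c C η τ₀ : ℝ} (hc : 0 < c) (hC : 0 < C) (hη : 0 < η) (hτ₀ : 0 < τ₀) {K3 : ℝ}
    (hK3 : 0 < K3) : ∃ K2 e₀ : ℝ, 0 < K2 ∧ 0 < e₀ ∧ e₀ ≤ 1 / 4 ∧
      ∀ (e ν L R D δ : ℝ), 0 < e → e ≤ e₀ → K2 * Real.log (1 / e) ≤ D → 0 ≤ L → 0 ≤ R → 1 ≤ ν →
        R ≤ e ^ (-K3) → ν ^ 2 * (L * ν + 3) ≤ e ^ (-(1 / 40) : ℝ) → 0 ≤ δ →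
        δ ≤ 2 * e ^ (1 / 8 : ℝ) →
        ν ^ 2 * e ^ (1 / 4 : ℝ) ≤ η ∧ δ ≤ τ₀ ∧
          (L * ν + 2 * R + 3) * (C * Real.exp (-(c * D))) ≤ 1 ∧
          ν ^ 2 * (L * ν + 3) * (δ + ν ^ 2 * e ^ (1 / 4 : ℝ) + (L * ν + 3) * e ^ (1 / 4 : ℝ) +
            4 * (L * ν + 2 * R + 2) * (2 * R + 1) * (C * Real.exp (-(c * D)))) ≤
            e ^ (1 / 16 : ℝ) := by
  obtain ⟨K, hK⟩ : ∃ K : ℝ, K = K3 + 1 := ⟨_, rfl⟩
  have hK1 : 1 ≤ K := by linarith
  obtain ⟨e1, he1, h1⟩ := small_pow (1 / η) (p := 9 / 40) (by norm_num)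
  obtain ⟨e2, he2, h2⟩ := small_pow (2 / τ₀) (p := 1 / 8) (by norm_num)
  obtain ⟨e3, he3, h3⟩ := small_pow (6 * C) (p := K + 1) (by linarith)
  obtain ⟨e4, he4, h4⟩ := small_pow (60 * C) (p := 7 / 8) (by norm_num)
  obtain ⟨e5, he5, h5⟩ := small_pow 5 (p := 3 / 80) (by norm_num)
  refine ⟨(2 * K + 1) / c, min (1 / 4) (min e1 (min e2 (min e3 (min e4 e5)))), by positivity,
    by positivity, min_le_left _ _, ?_⟩
  intro e ν L R D δ he hee hD hL hR hν hRK hνL hδ hδe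
  have l0 : e ≤ 1 / 4 := hee.trans (min_le_left _ _)
  have l1 : e ≤ e1 := hee.trans ((min_le_right _ _).trans (min_le_left _ _))
  have l2 : e ≤ e2 := hee.trans ((min_le_right _ _).trans ((min_le_right _ _).trans
    (min_le_left _ _)))
  have l3 : e ≤ e3 := hee.trans ((min_le_right _ _).trans ((min_le_right _ _).trans
    ((min_le_right _ _).trans (min_le_left _ _))))
  have l4 : e ≤ e4 := hee.trans ((min_le_right _ _).trans ((min_le_right _ _).trans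
    ((min_le_right _ _).trans ((min_le_right _ _).trans (min_le_left _ _)))))
  have l5 : e ≤ e5 := hee.trans ((min_le_right _ _).trans ((min_le_right _ _).trans
    ((min_le_right _ _).trans ((min_le_right _ _).trans (min_le_right _ _)))))
  have he1' : e ≤ 1 := by linarith
  have m1 := h1 e he l1
  have m2 := h2 e he l2
  have m3 := h3 e he l3
  have m4 := h4 e he l4
  have m5 := h5 e he l5
  have hLν : 0 ≤ L * ν := mul_nonneg hL (by linarith)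
  have hν2 : 1 ≤ ν ^ 2 := by nlinarith
  have pe : ∀ p : ℝ, 0 < e ^ p := fun p => Real.rpow_pos_of_pos he p
  have w1 : ν ^ 2 ≤ e ^ (-(1 / 40) : ℝ) := by
    refine le_trans ?_ hνL
    nlinarith
  have w2 : L * ν + 3 ≤ e ^ (-(1 / 40) : ℝ) := by
    refine le_trans ?_ hνL
    nlinarith
  have a1 : e ^ (-(1 / 40) : ℝ) * e ^ (1 / 4 : ℝ) = e ^ (9 / 40 : ℝ) := by
    rw [← Real.rpow_add he]
    norm_num
  have hexp : Real.exp (-(c * D)) ≤ e ^ (2 * K + 1) := by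
    rw [Real.rpow_def_of_pos he]
    refine Real.exp_le_exp.2 ?_
    have h6 := mul_le_mul_of_nonneg_left hD hc.le
    have h7 : c * ((2 * K + 1) / c * Real.log (1 / e)) = -(Real.log e * (2 * K + 1)) := by
      rw [one_div, Real.log_inv]
      field_simp
    rw [h7] at h6
    linarith
  have w3 : e ^ (-(1 / 40) : ℝ) ≤ e ^ (-K) :=
    Real.rpow_le_rpow_of_exponent_ge he he1' (by linarith)
  have w4 : R ≤ e ^ (-K) :=
    hRK.trans (Real.rpow_le_rpow_of_exponent_ge he he1' (by linarith))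
  have w5 : 1 ≤ e ^ (-K) := Real.one_le_rpow_of_pos_of_le_one_of_nonpos he he1' (by linarith)
  refine ⟨?_, ?_, ?_, ?_⟩
  · have h6 : ν ^ 2 * e ^ (1 / 4 : ℝ) ≤ e ^ (9 / 40 : ℝ) := by
      rw [← a1]
      exact mul_le_mul_of_nonneg_right w1 (pe _).le
    have h7 : e ^ (9 / 40 : ℝ) ≤ η := by
      rw [one_div, inv_mul_le_iff₀ hη, mul_one] at m1
      exact m1
    exact h6.trans h7
  · refine hδe.trans ?_
    have h7 : 2 / τ₀ * e ^ (1 / 8 : ℝ) * τ₀ ≤ 1 * τ₀ := mul_le_mul_of_nonneg_right m2 hτ₀.le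
    have h8 : 2 / τ₀ * e ^ (1 / 8 : ℝ) * τ₀ = 2 * e ^ (1 / 8 : ℝ) := by field_simp
    rw [h8] at h7
    linarith
  · have h6 : L * ν + 2 * R + 3 ≤ 6 * e ^ (-K) := by linarith
    have h7 : (L * ν + 2 * R + 3) * (C * Real.exp (-(c * D))) ≤
        6 * e ^ (-K) * (C * e ^ (2 * K + 1)) :=
      mul_le_mul h6 (mul_le_mul_of_nonneg_left hexp hC.le) (by positivity)
        (mul_nonneg (by norm_num) (pe _).le)
    refine h7.trans (le_trans (le_of_eq ?_) m3)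
    have h8 : e ^ (-K) * e ^ (2 * K + 1) = e ^ (K + 1) := by
      rw [← Real.rpow_add he]
      ring_nf
    calc 6 * e ^ (-K) * (C * e ^ (2 * K + 1)) = 6 * C * (e ^ (-K) * e ^ (2 * K + 1)) := by ring
      _ = 6 * C * e ^ (K + 1) := by rw [h8]
  · have h6 : L * ν + 2 * R + 2 ≤ 5 * e ^ (-K) := by linarith
    have h7 : 2 * R + 1 ≤ 3 * e ^ (-K) := by linarith
    have h8 : 4 * (L * ν + 2 * R + 2) * (2 * R + 1) * (C * Real.exp (-(c * D))) ≤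
        4 * (5 * e ^ (-K)) * (3 * e ^ (-K)) * (C * e ^ (2 * K + 1)) := by
      refine mul_le_mul (mul_le_mul ?_ h7 (by linarith) ?_)
        (mul_le_mul_of_nonneg_left hexp hC.le) (by positivity) ?_
      · linarith
      · have := pe (-K)
        positivity
      · have := pe (-K)
        positivity
    have h9 : e ^ (-K) * e ^ (-K) * e ^ (2 * K + 1) = e := by
      rw [← Real.rpow_add he, ← Real.rpow_add he]
      have : -K + -K + (2 * K + 1) = 1 := by ring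
      rw [this, Real.rpow_one]
    have h10 : e = e ^ (7 / 8 : ℝ) * e ^ (1 / 8 : ℝ) := by
      rw [← Real.rpow_add he]
      norm_num
    have h11 : 4 * (5 * e ^ (-K)) * (3 * e ^ (-K)) * (C * e ^ (2 * K + 1)) ≤ e ^ (1 / 8 : ℝ) := by
      have h12 : 4 * (5 * e ^ (-K)) * (3 * e ^ (-K)) * (C * e ^ (2 * K + 1)) =
          60 * C * (e ^ (-K) * e ^ (-K) * e ^ (2 * K + 1)) := by ring
      rw [h12, h9]
      have h13 : 60 * C * e = 60 * C * e ^ (7 / 8 : ℝ) * e ^ (1 / 8 : ℝ) := by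
        rw [mul_assoc (60 * C), ← h10]
      rw [h13]
      have h14 := mul_le_mul_of_nonneg_right m4 (pe (1 / 8)).le
      rw [one_mul] at h14
      exact h14
    have h15 : e ^ (9 / 40 : ℝ) ≤ e ^ (1 / 8 : ℝ) :=
      Real.rpow_le_rpow_of_exponent_ge he he1' (by norm_num)
    have h16 : ν ^ 2 * e ^ (1 / 4 : ℝ) ≤ e ^ (1 / 8 : ℝ) := by
      refine le_trans ?_ h15
      rw [← a1]
      exact mul_le_mul_of_nonneg_right w1 (pe _).le
    have h17 : (L * ν + 3) * e ^ (1 / 4 : ℝ) ≤ e ^ (1 / 8 : ℝ) := by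
      refine le_trans ?_ h15
      rw [← a1]
      exact mul_le_mul_of_nonneg_right w2 (pe _).le
    have h18 : δ + ν ^ 2 * e ^ (1 / 4 : ℝ) + (L * ν + 3) * e ^ (1 / 4 : ℝ) +
        4 * (L * ν + 2 * R + 2) * (2 * R + 1) * (C * Real.exp (-(c * D))) ≤
        5 * e ^ (1 / 8 : ℝ) := by
      linarith [h8.trans h11]
    have h19 : 0 ≤ 5 * e ^ (1 / 8 : ℝ) := by
      have := pe (1 / 8)
      positivity
    refine (mul_le_mul hνL h18 (by positivity) (pe _).le).trans ?_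
    have h20 : e ^ (-(1 / 40) : ℝ) * (5 * e ^ (1 / 8 : ℝ)) =
        5 * e ^ (3 / 80 : ℝ) * e ^ (1 / 16 : ℝ) := by
      have h21 : e ^ (-(1 / 40) : ℝ) * e ^ (1 / 8 : ℝ) = e ^ (3 / 80 : ℝ) * e ^ (1 / 16 : ℝ) := by
        rw [← Real.rpow_add he, ← Real.rpow_add he]
        norm_num
      calc e ^ (-(1 / 40) : ℝ) * (5 * e ^ (1 / 8 : ℝ)) =
          5 * (e ^ (-(1 / 40) : ℝ) * e ^ (1 / 8 : ℝ)) := by ring
        _ = 5 * (e ^ (3 / 80 : ℝ) * e ^ (1 / 16 : ℝ)) := by rw [h21]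
        _ = 5 * e ^ (3 / 80 : ℝ) * e ^ (1 / 16 : ℝ) := by ring
    rw [h20]
    have h22 := mul_le_mul_of_nonneg_right m5 (pe (1 / 16)).le
    rw [one_mul] at h22
    exact h22

/-- **LGT in the letters of Good.lean** -/
theorem lgt_good {b1 : ℝ} (hb1 : 0 < b1) (b2 : ℝ) (hA6 : TM.Spec.ThmA6 b1 b2 (5 / 2)) :
    ∃ W₀ : ℝ, ∀ W : ℝ, W₀ ≤ W → ∃ ys : ℝ, ∃ X0 : ℕ, 0 < ys ∧ ∀ K3 : ℝ, 0 < K3 →
      ∃ K2 e₀ : ℝ, 0 < K2 ∧ 0 < e₀ ∧
      ∀ P : Par, P.b1 = b1 → P.b2 = b2 → P.W = W → P.ys ≤ ys → X0 ≤ P.X0 →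
      ∀ (b : ℝ) (n r s : ℕ) (e : ℝ), 0 < e → e ≤ e₀ → RNG P b n r e → n ≤ r → s ≤ n →
      ∀ (D : ℕ) (L R X δ : ℝ) (J : V (2 ^ r) → ℝ),
        K2 * Real.log (1 / e) ≤ D → 0 ≤ L → 0 ≤ R → R ≤ e ^ (-K3) →
        (2 ^ (r - n) : ℝ) ^ 2 * (L * 2 ^ (r - n) + 3) ≤ e ^ (-(1 / 40) : ℝ) →
        0 ≤ δ → δ ≤ 2 * e ^ (1 / 8 : ℝ) → AP b n r s X (tn n) δ →
        16 * (4 * (D : ℝ) + 1) ^ 2 * max 1 (L * D) ≤ X →
        (∀ β : ZMod (2 ^ (r - n)) × ZMod (2 ^ (r - n)), Rs (wt (2 ^ r) b (tn n))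
          ((8 * (4 * (D : ℝ) + 1) ^ 2) • bfl (2 ^ (r - n)) (2 ^ n) J β) ≤ δ) →
        (∀ β β' : ZMod (2 ^ (r - n)) × ZMod (2 ^ (r - n)), sd β β' ≤ 1 →
          |bm (2 ^ (r - n)) (2 ^ n) J β - bm (2 ^ (r - n)) (2 ^ n) J β'| ≤ tn n * L) →
        |∑ z, J z| ≤ (2 ^ (r - n) : ℝ) ^ 2 → (∀ z, |J z| ≤ tn n * R) →
        ∀ a' : ℝ, |a'| ≤ 1 →
          Rs (wt (2 ^ r) b (tn n)) (J + fun _ => tn n * a') ≤ e ^ (1 / 16 : ℝ) := by
  obtain ⟨W₀, hW₀⟩ := lgt_of hb1 b2 (5 / 2) hA6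
  refine ⟨W₀, fun W hW => ?_⟩
  obtain ⟨c, C, η, τ₀, ys, X0, hc, hC, hη, hτ₀, hys, hX0, h⟩ := hW₀ W hW
  refine ⟨ys, X0, hys, fun K3 hK3 => ?_⟩
  obtain ⟨K2, e₀, hK2, he₀, he₀', hnum⟩ := lgt_num hc hC hη hτ₀ hK3
  obtain ⟨e₁, he₁, hsm⟩ := small_pow (Real.exp (1 / K2)) (p := 1) one_pos
  refine ⟨K2, min e₀ e₁, hK2, by positivity, ?_⟩
  intro P hP1 hP2 hPW hPy hPX b n r s e he hee hR hnr hsn D L R X δ J hD hL hR0 hRK hνL hδ hδe
    hAP hQX hB1 hB2 hB3 hB4 a' ha'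
  have hbb : 0 ≤ b := by
    have := hR.hb1
    rw [hP1] at this
    linarith
  have hRg : TM.Spec.Rng b1 b2 (5 / 2) W ys X0 (2 ^ r) b (2 ^ n) (e ^ (1 / 4 : ℝ)) := by
    have h1 : TM.Spec.Rng P.b1 P.b2 (5 / 2) P.W P.ys P.X0 (2 ^ r) b (2 ^ n)
      (e ^ (1 / 4 : ℝ)) := hR
    rw [hP1, hP2, hPW] at h1
    exact TM.H857.rng_mono h1 le_rfl hPy hPX
  have hNb : 2 ^ r = 2 ^ (r - n) * 2 ^ n := by
    rw [← pow_add]
    congr 1
    omega
  have hν1 : (1 : ℝ) ≤ 2 ^ (r - n) := one_le_pow₀ (by norm_num)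
  obtain ⟨n1, n2, n3, n4⟩ := hnum e (2 ^ (r - n)) L R D δ he (hee.trans (min_le_left _ _)) hD hL
    hR0 hν1 hRK hνL hδ hδe
  -- `D ≥ 1`
  have hD1 : 1 ≤ D := by
    have h1 := hsm e he (hee.trans (min_le_right _ _))
    rw [Real.rpow_one] at h1
    have h2 : Real.exp (1 / K2) ≤ 1 / e := by
      rw [le_div_iff₀ he]
      exact h1
    have h3 : 1 / K2 ≤ Real.log (1 / e) := by
      rw [Real.le_log_iff_exp_le (by positivity)]
      exact h2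
    have h4 : 1 ≤ K2 * Real.log (1 / e) := by
      have := mul_le_mul_of_nonneg_left h3 hK2.le
      rwa [mul_one_div_cancel hK2.ne'] at this
    have h5 : (1 : ℝ) ≤ D := h4.trans hD
    exact_mod_cast h5
  have ht : (1 : ℝ) / ((2 ^ n : ℕ) : ℝ) ^ 2 = tn n := (tn_eq' n).symm
  have hνc : (((2 ^ (r - n) : ℕ) : ℝ)) = 2 ^ (r - n) := by push_cast; rfl
  have hA1 : 1 ≤ max 1 (L * (D : ℝ)) := le_max_left _ _
  have hX0' : 0 < X := by
    refine lt_of_lt_of_le ?_ hQX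
    positivity
  have key := h (2 ^ r) b (2 ^ n) (e ^ (1 / 4 : ℝ)) hRg (by
      have h1 : (((2 ^ r : ℕ)) : ℝ) = 2 ^ (r - n) * 2 ^ n := by
        rw [hNb]
        push_cast
        rfl
      rw [h1, mul_pow, mul_right_comm]
      push_cast
      exact mul_le_mul_of_nonneg_right n1 (by positivity))
    (2 ^ (r - n)) hNb D L R (max 1 (L * D)) δ J hD1 hL hR0 hA1 (le_max_right _ _) hδ n2
    (by rw [ht]; exact hB1) (by rw [ht]; exact hB2) (by rw [hνc]; exact hB3)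
    (by rw [ht]; exact hB4) (by rw [hνc]; exact n3)
    (by
      intro β
      rw [ht]
      refine cst_of_AP hbb hsn hnr hX0' (by positivity) ?_ hAP β
      refine le_trans (le_of_eq ?_) hQX
      ring) a' ha'
  rw [ht, hνc] at key
  exact key.trans n4

end

end Vale.Agent.P159.H789
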