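import Vale.Agent.P159.H789.LgE

/-!
P159, module LG (helper789), part G: **LGT**, the block conditions for a source `J` of any origin:
(B1) fluctuations in each block, (B2) differences of adjacent block means, (B3) total mass,
(B4) crude sup bound ==> `Rs (J + (t a) 1)` for all `|a| <= 1`.
-/

set_option linter.unusedSectionVars false

namespace Vale.Agent.P159.H789

open Finset Matrix
open Vale.Agent.P159.H37
open Vale.Agent.P159.TM.H104 (EM Ex Cv Lg li Gr)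
open Vale.Agent.P159.TM.Spec (V)
open Vale.Agent.P159.TM.SpecC (wT)
open Vale.Agent.P159.TM.H459 (sd sn bk bk1)

section path

variable {n : ℕ} [NeZero n]

/-- a function on the torus of blocks with small jumps is Lipschitz -/
theorem lip_path {γ : ZMod n × ZMod n → ℝ} {L : ℝ}
    (h : ∀ β β', sd β β' ≤ 1 → |γ β - γ β'| ≤ L) (β β' : ZMod n × ZMod n) :
    |γ β - γ β'| ≤ L * sd β β' := by
  have key : ∀ k : ℕ, ∀ β β' : ZMod n × ZMod n, sd β β' ≤ k → |γ β - γ β'| ≤ L * k := by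
    intro k
    induction k with
    | zero =>
      intro β β' hk
      have h1 : sn (β' - β) = 0 := Nat.le_zero.1 hk
      unfold TM.H459.sn at h1
      have h5 : (β' - β).1.valMinAbs.natAbs = 0 := by
        have := le_max_left (β' - β).1.valMinAbs.natAbs (β' - β).2.valMinAbs.natAbs
        omega
      have h6 : (β' - β).2.valMinAbs.natAbs = 0 := by
        have := le_max_right (β' - β).1.valMinAbs.natAbs (β' - β).2.valMinAbs.natAbs
        omega
      rw [Int.natAbs_eq_zero, ZMod.valMinAbs_eq_zero] at h5 h6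
      have h7 : β' - β = 0 := Prod.ext h5 h6
      rw [(sub_eq_zero.1 h7), sub_self, abs_zero]
      simp
    | succ k ih =>
      intro β β' hk
      -- the intermediate point
      obtain ⟨s1, t1⟩ : ∃ s : ℤ, s.natAbs ≤ 1 ∧
          ((β' - β).1.valMinAbs - s).natAbs ≤ k := by
        have h1 : (β' - β).1.valMinAbs.natAbs ≤ k + 1 := (le_max_left _ _).trans hk
        refine ⟨if 0 < (β' - β).1.valMinAbs then 1 else if (β' - β).1.valMinAbs < 0 then -1 else 0,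
          ?_, ?_⟩
        · split_ifs <;> simp
        · split_ifs <;> omega
      obtain ⟨s2, t2⟩ : ∃ s : ℤ, s.natAbs ≤ 1 ∧
          ((β' - β).2.valMinAbs - s).natAbs ≤ k := by
        have h1 : (β' - β).2.valMinAbs.natAbs ≤ k + 1 := (le_max_right _ _).trans hk
        refine ⟨if 0 < (β' - β).2.valMinAbs then 1 else if (β' - β).2.valMinAbs < 0 then -1 else 0,
          ?_, ?_⟩
        · split_ifs <;> simp
        · split_ifs <;> omega
      have e1 : sd β (β.1 + (s1 : ZMod n), β.2 + (s2 : ZMod n)) ≤ 1 := by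
        unfold TM.H459.sd TM.H459.sn
        refine max_le ?_ ?_
        · exact (TM.H459.vma_le_of_eq _ s1 (by simp)).trans t1.1
        · exact (TM.H459.vma_le_of_eq _ s2 (by simp)).trans t2.1
      have e2 : sd (β.1 + (s1 : ZMod n), β.2 + (s2 : ZMod n)) β' ≤ k := by
        unfold TM.H459.sd TM.H459.sn
        refine max_le ?_ ?_
        · refine (TM.H459.vma_le_of_eq _ ((β' - β).1.valMinAbs - s1) ?_).trans t1.2
          rw [Int.cast_sub, ZMod.coe_valMinAbs]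
          simp only [Prod.fst_sub]
          ring
        · refine (TM.H459.vma_le_of_eq _ ((β' - β).2.valMinAbs - s2) ?_).trans t2.2
          rw [Int.cast_sub, ZMod.coe_valMinAbs]
          simp only [Prod.snd_sub]
          ring
      have h3 := h _ _ e1
      have h4 := ih _ _ e2
      have h5 := abs_sub_le (γ β) (γ (β.1 + (s1 : ZMod n), β.2 + (s2 : ZMod n))) (γ β')
      push_cast
      linarith
  exact key _ β β' le_rfl

theorem sd_le_n (β β' : ZMod n × ZMod n) : sd β β' ≤ n := by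
  have key : ∀ a : ZMod n, a.valMinAbs.natAbs ≤ n := fun a =>
    (ZMod.natAbs_valMinAbs_le a).trans (Nat.div_le_self n 2)
  unfold TM.H459.sd TM.H459.sn
  exact max_le (key _) (key _)

end path

section blocks

variable {N : ℕ} [NeZero N] {b : ℝ} {n : ℕ} [NeZero n] {ξ : ℕ}

/-- every block has `ξ ^ 2` sites -/
theorem sum_ib_one (hξ : 0 < ξ) (hN : N = n * ξ) (β : ZMod n × ZMod n) :
    ∑ z : V N, (1 / (ξ : ℝ) ^ 2) * ib n ξ β z = 1 := by
  classical
  have hξR : (0 : ℝ) < ξ := by exact_mod_cast hξ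
  have h1 : ∀ β : ZMod n × ZMod n, ∑ z : V N, (1 / (ξ : ℝ) ^ 2) * ib n ξ β z ≤ 1 := fun β =>
    (le_abs_self _).trans (by
      have := abs_sum_ib_le (N := N) hξ hN β
      simpa only [Pi.smul_apply, smul_eq_mul] using this)
  have h2 : ∑ β : ZMod n × ZMod n, ∑ z : V N, (1 / (ξ : ℝ) ^ 2) * ib n ξ β z =
      ∑ β : ZMod n × ZMod n, (1 : ℝ) := by
    rw [Finset.sum_comm]
    have h3 : ∀ z : V N, ∑ β : ZMod n × ZMod n, (1 / (ξ : ℝ) ^ 2) * ib n ξ β z =
        1 / (ξ : ℝ) ^ 2 := by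
      intro z
      unfold ib
      simp only [mul_ite, mul_one, mul_zero]
      rw [Finset.sum_ite_eq, if_pos (Finset.mem_univ _)]
    rw [Finset.sum_congr rfl fun z _ => h3 z, Finset.sum_const, Finset.sum_const,
      Finset.card_univ, Finset.card_univ, nsmul_eq_mul, nsmul_eq_mul, Fintype.card_prod,
      Fintype.card_prod, ZMod.card, ZMod.card, hN]
    push_cast
    field_simp
  exact (Finset.sum_eq_sum_iff_of_le fun β _ => h1 β).1 h2 β (Finset.mem_univ β)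

/-- block mean of a source -/
noncomputable def bm (n ξ : ℕ) [NeZero n] (J : V N → ℝ) (β : ZMod n × ZMod n) : ℝ :=
  1 / (ξ : ℝ) ^ 2 * ∑ z : V N, ib n ξ β z * J z

/-- the fluctuation of a source in a block -/
noncomputable def bfl (n ξ : ℕ) [NeZero n] (J : V N → ℝ) (β : ZMod n × ZMod n) (z : V N) : ℝ :=
  ib n ξ β z * (J z - bm n ξ J β)

theorem sum_bfl (hξ : 0 < ξ) (hN : N = n * ξ) (J : V N → ℝ) (β : ZMod n × ZMod n) :
    ∑ z, bfl n ξ J β z = 0 := by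
  have hξR : (0 : ℝ) < ξ := by exact_mod_cast hξ
  have h1 := sum_ib_one (N := N) hξ hN β
  rw [← Finset.mul_sum] at h1
  have h2 : ∑ z : V N, ib n ξ β z = (ξ : ℝ) ^ 2 := by
    rw [one_div, inv_mul_eq_iff_eq_mul₀ (by positivity), mul_one] at h1
    exact h1
  unfold bfl
  simp only [mul_sub, Finset.sum_sub_distrib, ← Finset.sum_mul]
  rw [h2]
  unfold bm
  field_simp
  ring

theorem abs_bm_le (hξ : 0 < ξ) (hN : N = n * ξ) {J : V N → ℝ} {R : ℝ} (hJ : ∀ z, |J z| ≤ R)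
    (β : ZMod n × ZMod n) : |bm n ξ J β| ≤ R := by
  have h1 := abs_avg_le (N := N) hξ hN hJ β
  have e : bm n ξ J β = ∑ z, ((1 / (ξ : ℝ) ^ 2) • fun z => ib n ξ β z * J z) z := by
    unfold bm
    rw [Finset.mul_sum]
    exact Finset.sum_congr rfl fun z _ => by rw [Pi.smul_apply, smul_eq_mul]
  rw [e]
  exact h1

theorem sum_bm (J : V N → ℝ) :
    ∑ β : ZMod n × ZMod n, bm n ξ J β = 1 / (ξ : ℝ) ^ 2 * ∑ z, J z := by
  classical
  unfold bm
  rw [← Finset.mul_sum, Finset.sum_comm]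
  congr 1
  refine Finset.sum_congr rfl fun z _ => ?_
  rw [← Finset.sum_mul]
  have h3 : ∑ β : ZMod n × ZMod n, ib n ξ β z = (1 : ℝ) := by
    unfold ib
    rw [Finset.sum_ite_eq, if_pos (Finset.mem_univ _)]
  rw [h3, one_mul]

end blocks

/-- **LGT**: block conditions for a source -/
theorem lgt_of {b1 : ℝ} (hb1 : 0 < b1) (b2 a : ℝ) (hA6 : TM.Spec.ThmA6 b1 b2 a) :
    ∃ W₀ : ℝ, ∀ W : ℝ, W₀ ≤ W → ∃ c C η τ₀ ys : ℝ, ∃ X : ℕ, 0 < c ∧ 0 < C ∧ 0 < η ∧ 0 < τ₀ ∧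
      0 < ys ∧ 1 ≤ X ∧
      ∀ (N : ℕ) [NeZero N] (b : ℝ) (ξ : ℕ) (y : ℝ),
        TM.Spec.Rng b1 b2 a W ys X N b ξ y → (N : ℝ) ^ 2 * y ≤ η * (ξ : ℝ) ^ 2 →
        ∀ (n : ℕ) [NeZero n], N = n * ξ → ∀ (D : ℕ) (L R A δ : ℝ) (J : V N → ℝ),
          1 ≤ D → 0 ≤ L → 0 ≤ R → 1 ≤ A → L * D ≤ A → 0 ≤ δ → δ ≤ τ₀ →
          (∀ β : ZMod n × ZMod n, Rs (wt N b (1 / (ξ : ℝ) ^ 2))
            ((8 * (4 * (D : ℝ) + 1) ^ 2) • bfl n ξ J β) ≤ δ) →
          (∀ β β' : ZMod n × ZMod n, sd β β' ≤ 1 →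
            |bm n ξ J β - bm n ξ J β'| ≤ 1 / (ξ : ℝ) ^ 2 * L) →
          |∑ z, J z| ≤ (n : ℝ) ^ 2 → (∀ z, |J z| ≤ 1 / (ξ : ℝ) ^ 2 * R) →
          (L * n + 2 * R + 3) * (C * Real.exp (-(c * D))) ≤ 1 →
          (∀ β : ZMod n × ZMod n, Rs (wt N b (1 / (ξ : ℝ) ^ 2))
            ((8 * (4 * (D : ℝ) + 1) ^ 2 * A) • ((1 / (ξ : ℝ) ^ 2) • (ib n ξ β : V N → ℝ))) ≤ δ) →
          ∀ a' : ℝ, |a'| ≤ 1 →
            Rs (wt N b (1 / (ξ : ℝ) ^ 2)) (J + fun _ => 1 / (ξ : ℝ) ^ 2 * a') ≤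
              (n : ℝ) ^ 2 * (L * n + 3) * (δ + (n : ℝ) ^ 2 * y + (L * n + 3) * y +
                4 * (L * n + 2 * R + 2) * (2 * R + 1) * (C * Real.exp (-(c * D)))) := by
  obtain ⟨W₀, hW₀⟩ := lg_avg hb1 b2 a hA6
  refine ⟨W₀, fun W hW => ?_⟩
  obtain ⟨c, C, η, τ₀, ys, X, hc, hC, hη, hτ₀, hys, hX, h⟩ := hW₀ W hW
  refine ⟨c, C, η, τ₀, ys, max X 1, hc, hC, hη, hτ₀, hys, le_max_right _ _, ?_⟩
  intro N _ b ξ y hRg hNy n _ hN D L R A δ J hD hL hR hA hAL hδ hδτ hB1 hB2 hB3 hB4 hsm hA2 a' ha'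
  have hξ : 0 < ξ := by
    have := (le_max_right X 1).trans hRg.hX
    omega
  have hξR : (0 : ℝ) < ξ := by exact_mod_cast hξ
  have hR' : TM.Spec.Rng b1 b2 a W ys X N b ξ y := TM.H857.rng_mono hRg le_rfl le_rfl
    (le_max_left _ _)
  obtain ⟨t, ht⟩ : ∃ t : ℝ, t = 1 / (ξ : ℝ) ^ 2 := ⟨_, rfl⟩
  have ht0 : 0 < t := by
    rw [ht]
    positivity
  have hn0 : (0 : ℝ) < n := by exact_mod_cast Nat.pos_of_ne_zero (NeZero.ne n)
  rw [← ht] at hB1 hB2 hB4 hA2 ⊢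
  -- the slow part and the rough part
  obtain ⟨γ, hγ⟩ : ∃ γ : ZMod n × ZMod n → ℝ, γ = fun β => bm n ξ J β / t + a' := ⟨_, rfl⟩
  obtain ⟨ρ, hρ⟩ : ∃ ρ : V N → ℝ, ρ = fun z => (J z - bm n ξ J (bk n ξ z)) / t := ⟨_, rfl⟩
  have hdiff : ∀ β β', |γ β - γ β'| ≤ L * sd β β' := by
    refine lip_path fun β β' hs => ?_
    have h1 := hB2 β β' hs
    have e : γ β - γ β' = (bm n ξ J β - bm n ξ J β') / t := by
      rw [hγ]
      simp only
      ring
    rw [e, abs_div, abs_of_pos ht0, div_le_iff₀ ht0]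
    linarith
  have hsumm : |∑ β : ZMod n × ZMod n, bm n ξ J β / t| ≤ (n : ℝ) ^ 2 := by
    rw [← Finset.sum_div, sum_bm, ← ht, mul_div_assoc, mul_comm, div_mul_cancel₀ _ ht0.ne']
    exact hB3
  have hγB : ∀ β, |γ β| ≤ L * n + 2 := by
    intro β
    have hcard : (Fintype.card (ZMod n × ZMod n) : ℝ) = (n : ℝ) ^ 2 := by
      rw [Fintype.card_prod, ZMod.card]
      push_cast
      ring
    have h1 : (n : ℝ) ^ 2 * (bm n ξ J β / t) = ∑ β' : ZMod n × ZMod n, bm n ξ J β' / t +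
        ∑ β' : ZMod n × ZMod n, (γ β - γ β') := by
      rw [← Finset.sum_add_distrib]
      have e : ∀ β' : ZMod n × ZMod n, bm n ξ J β' / t + (γ β - γ β') = bm n ξ J β / t := by
        intro β'
        rw [hγ]
        simp only
        ring
      rw [Finset.sum_congr rfl fun β' _ => e β', Finset.sum_const, Finset.card_univ,
        nsmul_eq_mul, hcard]
    have h2 : |∑ β' : ZMod n × ZMod n, (γ β - γ β')| ≤ (n : ℝ) ^ 2 * (L * n) := by
      refine (Finset.abs_sum_le_sum_abs _ _).trans ?_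
      have h3 : ∀ β' : ZMod n × ZMod n, |γ β - γ β'| ≤ L * n := by
        intro β'
        refine (hdiff β β').trans (mul_le_mul_of_nonneg_left ?_ hL)
        exact_mod_cast sd_le_n β β'
      refine (Finset.sum_le_sum fun β' _ => h3 β').trans (le_of_eq ?_)
      rw [Finset.sum_const, Finset.card_univ, nsmul_eq_mul, hcard]
    have h4 : (n : ℝ) ^ 2 * |bm n ξ J β / t| ≤ (n : ℝ) ^ 2 * (L * n + 1) := by
      have h5 : (n : ℝ) ^ 2 * |bm n ξ J β / t| = |(n : ℝ) ^ 2 * (bm n ξ J β / t)| := by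
        rw [abs_mul, abs_of_pos (by positivity : (0 : ℝ) < (n : ℝ) ^ 2)]
      rw [h5, h1]
      refine (abs_add_le _ _).trans ?_
      linarith
    have h6 : |bm n ξ J β / t| ≤ L * n + 1 := le_of_mul_le_mul_left h4 (by positivity)
    have h7 : |γ β| ≤ |bm n ξ J β / t| + |a'| := by
      rw [hγ]
      exact abs_add_le _ _
    linarith
  have hρR : ∀ z, |ρ z| ≤ 2 * R := by
    intro z
    have h1 := hB4 z
    have h2 := abs_bm_le (N := N) hξ hN hB4 (bk n ξ z)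
    have h3 : |J z - bm n ξ J (bk n ξ z)| ≤ |J z| + |bm n ξ J (bk n ξ z)| := abs_sub _ _
    rw [hρ]
    simp only
    rw [abs_div, abs_of_pos ht0, div_le_iff₀ ht0]
    linarith
  have hibρ : ∀ (β : ZMod n × ZMod n) (z : V N), t * (ib n ξ β z * ρ z) = bfl n ξ J β z := by
    intro β z
    rw [hρ]
    unfold bfl ib
    simp only
    by_cases hz : bk n ξ z = β
    · rw [if_pos hz, hz]
      field_simp
    · rw [if_neg hz]
      ring
  have hρ1 : ∀ β : ZMod n × ZMod n,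
      |∑ z, ((1 / (ξ : ℝ) ^ 2) • fun z => ib n ξ β z * ρ z) z| ≤ (0 : ℝ) := by
    intro β
    have e : ∑ z, ((1 / (ξ : ℝ) ^ 2) • fun z => ib n ξ β z * ρ z) z = ∑ z, bfl n ξ J β z := by
      refine Finset.sum_congr rfl fun z _ => ?_
      rw [Pi.smul_apply, smul_eq_mul, ← ht, hibρ]
    rw [e, sum_bfl hξ hN, abs_zero]
  have h1 : ∀ β : ZMod n × ZMod n, Rs (wt N b (1 / (ξ : ℝ) ^ 2))
      ((8 * (4 * (D : ℝ) + 1) ^ 2) • ((1 / (ξ : ℝ) ^ 2) • fun z => ib n ξ β z * ρ z)) ≤ δ := by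
    intro β
    have e : ((1 / (ξ : ℝ) ^ 2) • fun z => ib n ξ β z * ρ z) = bfl n ξ J β := by
      funext z
      rw [Pi.smul_apply, smul_eq_mul, ← ht, hibρ]
    rw [e, ← ht]
    exact hB1 β
  have h2 : ∀ β : ZMod n × ZMod n, Rs (wt N b (1 / (ξ : ℝ) ^ 2))
      ((8 * (4 * (D : ℝ) + 1) ^ 2 * A) • ((1 / (ξ : ℝ) ^ 2) • (ib n ξ β : V N → ℝ))) ≤ δ := by
    intro β
    rw [← ht]
    exact hA2 β
  have hLn : 0 ≤ L * n := mul_nonneg hL hn0.le
  have hf : (fun z => γ (bk n ξ z) + ρ z) ∈ BC (N := N) n ξ L (L * n + 2) ρ :=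
    ⟨γ, fun _ => 1, hdiff, hγB, fun _ => ⟨zero_le_one, le_rfl⟩, by
      funext z
      rw [one_mul]⟩
  have key := (h N b ξ y hR' hNy n hN D L (L * n + 2) (2 * R) 0 A δ ρ hD hL (by positivity)
    (by positivity) le_rfl hA hAL hρR hρ1 (by
      have e : L * n + 2 + 2 * R + 1 = L * n + 2 * R + 3 := by ring
      rw [e]
      exact hsm) hδ hδτ h1 h2 _ hf).2
  have e1 : (1 / (ξ : ℝ) ^ 2) • (fun z => γ (bk n ξ z) + ρ z) = J + fun _ => t * a' := by
    funext z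
    rw [Pi.smul_apply, smul_eq_mul, ← ht, hγ, hρ, Pi.add_apply]
    simp only
    field_simp
    ring
  rw [e1, ← ht] at key
  refine key.trans (le_of_eq ?_)
  ring

end Vale.Agent.P159.H789
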