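import Vale.Agent.P159.H789.Star
import Vale.Agent.P159.H37.Spec0
import Vale.Agent.P159.TM.H821.Model

/-!
P159, helper789: weights of the duplication class `Dup` have the property (PK); in particular the
weights `wM (wT b N) M` of the torus, every symmetric or nonsymmetric form `M`.
-/

open scoped ENNReal Topology
open Finset Filter

namespace Vale.Agent.P159.H789

open Vale.Agent.P159.H37

/-- the partition function of a weight of the duplication class is in the duplication class -/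
theorem dup_Zs {V : Type} [Fintype V] {μ : (V → ℤ) → ℝ} (hμ : TM.H104.EM μ)
    (hd : TM.H821.Dup fun h => ENNReal.ofReal (μ h)) :
    TM.H821.Dup fun J : V → ℝ => ENNReal.ofReal (Zs μ J) := by
  have h1 := hd.comp (AddMonoidHom.fst (V → ℤ) (V → ℝ))
  have h2 := (h1.mul (TM.H821.dup_tilt (V := V))).marg (TM.H821.tf_pi V)
  have key : ∀ J : V → ℝ, ∑' h : V → ℤ, ENNReal.ofReal (μ h) *
      ENNReal.ofReal (Real.exp (∑ x, J x * h x)) = ENNReal.ofReal (Zs μ J) := by
    intro J
    unfold Zs TM.H104.T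
    rw [ENNReal.ofReal_tsum_of_nonneg]
    · refine tsum_congr fun h => ?_
      rw [← ENNReal.ofReal_mul (hμ.nn h), one_mul]
      rfl
    · exact fun h => mul_nonneg (mul_nonneg zero_le_one (hμ.nn h)) (Real.exp_pos _).le
    · exact hμ.summ (TM.H104.Gr.const 1) J
  have e : (fun J : V → ℝ => ENNReal.ofReal (Zs μ J)) = fun J : V → ℝ =>
      ∑' h : V → ℤ, ENNReal.ofReal (μ h) * ENNReal.ofReal (Real.exp (∑ x, J x * h x)) := by
    funext J
    exact (key J).symm
  rw [e]
  exact h2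

/-- duplication class implies (PK) -/
theorem pk_of_dup {V : Type} [Fintype V] {μ : (V → ℤ) → ℝ} (hμ : TM.H104.EM μ)
    (hd : TM.H821.Dup fun h => ENNReal.ofReal (μ h)) : PK μ := by
  have h4 := psdk (dup_Zs hμ hd) fun _ => ENNReal.ofReal_ne_top
  have e : (fun J : V → ℝ => (ENNReal.ofReal (Zs μ J)).toReal) = Zs μ := by
    funext J
    exact ENNReal.toReal_ofReal (TM.H104.T_one_pos hμ J).le
  rw [e] at h4
  exact h4

/-- the real vector of an integer field, as a homomorphism -/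
def reHom (V : Type) : (V → ℤ) →+ (V → ℝ) where
  toFun h := fun x => (h x : ℝ)
  map_zero' := by funext x; simp
  map_add' h k := by funext x; simp

/-- adding a quadratic form keeps the duplication class -/
theorem dup_wM {V : Type} [Fintype V] {w : (V → ℤ) → ℝ} (hw : ∀ h, 0 ≤ w h)
    (hd : TM.H821.Dup fun h => ENNReal.ofReal (w h)) (M : Matrix V V ℝ) :
    TM.H821.Dup fun h => ENNReal.ofReal (wM w M h) := by
  have h1 := (TM.H821.dup_form (V := V) fun x y => M x y).comp (reHom V)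
  have h2 := hd.mul h1
  have e : (fun h => ENNReal.ofReal (wM w M h)) = fun h : V → ℤ => ENNReal.ofReal (w h) *
      ENNReal.ofReal (Real.exp ((-∑ x, ∑ y, (reHom V h) x * M x y * (reHom V h) y) / 2)) := by
    funext h
    rw [← ENNReal.ofReal_mul (hw h)]
    unfold wM qf
    rw [neg_div]
    rfl
  rw [e]
  exact h2

/-- a product of edge weights of the duplication class -/
theorem dup_edges {V E : Type} [Fintype E] (s t : E → V) (I : E → ℤ → ℝ)
    (h0 : ∀ e n, 0 ≤ I e n) (hI : ∀ e, TM.H821.Dup fun n => ENNReal.ofReal (I e n)) :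
    TM.H821.Dup fun h : V → ℤ => ENNReal.ofReal (∏ e, I e (h (t e) - h (s e))) := by
  have h1 : TM.H821.Dup (fun h : V → ℤ => ∏ e, ENNReal.ofReal (I e (h (t e) - h (s e)))) :=
    TM.H821.Dup.prod Finset.univ (fun e _ => (hI e).comp (TM.H821.grdHom (s e) (t e)))
  have e : (fun h : V → ℤ => ENNReal.ofReal (∏ e, I e (h (t e) - h (s e)))) =
      fun h : V → ℤ => ∏ e, ENNReal.ofReal (I e (h (t e) - h (s e))) := by
    funext h
    exact ENNReal.ofReal_prod_of_nonneg fun e _ => h0 e _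
  rw [e]
  exact h1

/-- the torus weight is in the duplication class -/
theorem dup_wT {b : ℝ} (hb : 0 ≤ b) (N : ℕ) [NeZero N] :
    TM.H821.Dup fun h => ENNReal.ofReal (TM.SpecC.wT b N h) := by
  have h1 := dup_edges (V := TM.SpecC.Tor N) (E := TM.SpecC.Tor N)
    (fun x => x) (fun x => x + (1, 0)) (fun _ => Vale.Agent.P159.H353.wI b)
    (fun _ n => Vale.Agent.P159.H353.wI_nonneg hb n) (fun _ => TM.H821.dup_wI hb)
  have h2 := dup_edges (V := TM.SpecC.Tor N) (E := TM.SpecC.Tor N)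
    (fun x => x) (fun x => x + (0, 1)) (fun _ => Vale.Agent.P159.H353.wI b)
    (fun _ n => Vale.Agent.P159.H353.wI_nonneg hb n) (fun _ => TM.H821.dup_wI hb)
  have h3 := h1.mul h2
  have e : (fun h => ENNReal.ofReal (TM.SpecC.wT b N h)) = fun h : TM.SpecC.Tor N → ℤ =>
      ENNReal.ofReal (∏ x : TM.SpecC.Tor N, Vale.Agent.P159.H353.wI b (h (x + (1, 0)) - h x)) *
      ENNReal.ofReal (∏ x : TM.SpecC.Tor N, Vale.Agent.P159.H353.wI b (h (x + (0, 1)) - h x)) := by
    funext h
    rw [← ENNReal.ofReal_mul (Finset.prod_nonneg fun x _ =>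
      Vale.Agent.P159.H353.wI_nonneg hb _), ← Finset.prod_mul_distrib]
    rfl
  rw [e]
  exact h3

theorem wT_nonneg {b : ℝ} (hb : 0 ≤ b) (N : ℕ) [NeZero N] (h : TM.SpecC.Tor N → ℤ) :
    0 ≤ TM.SpecC.wT b N h :=
  Finset.prod_nonneg fun _ _ => mul_nonneg (Vale.Agent.P159.H353.wI_nonneg hb _)
    (Vale.Agent.P159.H353.wI_nonneg hb _)

/-- **(PK) for the torus weight with any mass form** (as soon as it has exponential moments) -/
theorem pk_wM_wT {b : ℝ} (hb : 0 ≤ b) (N : ℕ) [NeZero N]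
    (M : Matrix (TM.SpecC.Tor N) (TM.SpecC.Tor N) ℝ)
    (hE : TM.H104.EM (wM (TM.SpecC.wT b N) M)) : PK (wM (TM.SpecC.wT b N) M) :=
  pk_of_dup hE (dup_wM (wT_nonneg hb N) (dup_wT hb N) M)

/-- general edge model: (PK) -/
theorem pk_wM_edges {V E : Type} [Fintype V] [Fintype E] (s t : E → V) (I : E → ℤ → ℝ)
    (h0 : ∀ e n, 0 ≤ I e n) (hI : ∀ e, TM.H821.Dup fun n => ENNReal.ofReal (I e n))
    (M : Matrix V V ℝ)
    (hE : TM.H104.EM (wM (fun h : V → ℤ => ∏ e, I e (h (t e) - h (s e))) M)) :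
    PK (wM (fun h : V → ℤ => ∏ e, I e (h (t e) - h (s e))) M) :=
  pk_of_dup hE (dup_wM (fun h => Finset.prod_nonneg fun e _ => h0 e _)
    (dup_edges s t I h0 hI) M)

end Vale.Agent.P159.H789
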