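import Vale.Agent.P159.H789.Bridge

/-!
P159, helper789: the ray calculus of `R` and the CLOSURE LEMMA: if `R(2ⁿ τ J) ≤ 1` then
`R(τ J) ≤ 8 (m τ²)^(2 - 2^(1-n))`, `m² = κ₄(J,J,J,J)/2`.
-/

open scoped Topology
open Finset Filter Matrix Set

namespace Vale.Agent.P159.H789

/-! ### real analysis -/

/-- second order Taylor bound -/
theorem taylor_two {f f' f'' : ℝ → ℝ} {τ c : ℝ} (hτ : 0 ≤ τ)
    (h1 : ∀ s, HasDerivAt f (f' s) s) (h2 : ∀ s, HasDerivAt f' (f'' s) s)
    (h0 : f 0 = 0) (h0' : f' 0 = 0) (hc : ∀ s ∈ Icc 0 τ, f'' s ≤ c) : f τ ≤ c * τ ^ 2 / 2 := by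
  have hf' : ∀ s ∈ Icc 0 τ, f' s ≤ c * s := by
    intro s hs
    have h3 : AntitoneOn (fun s => f' s - c * s) (Icc 0 τ) := by
      refine antitoneOn_of_deriv_nonpos (convex_Icc 0 τ) ?_ ?_ ?_
      · exact ((continuous_iff_continuousAt.2 fun s => (h2 s).continuousAt).sub
          (continuous_const.mul continuous_id)).continuousOn
      · exact fun s _ => ((h2 s).sub ((hasDerivAt_id s).const_mul c)).differentiableAt
          |>.differentiableWithinAt
      · intro s hs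
        rw [interior_Icc] at hs
        have h4 : HasDerivAt (fun s => f' s - c * s) (f'' s - c * 1) s :=
          (h2 s).sub ((hasDerivAt_id s).const_mul c)
        rw [h4.deriv]
        have := hc s ⟨hs.1.le, hs.2.le⟩
        linarith
    have h5 := h3 (left_mem_Icc.2 hτ) hs hs.1
    simp only [h0', mul_zero, sub_zero] at h5
    linarith
  have h3 : AntitoneOn (fun s => f s - c * s ^ 2 / 2) (Icc 0 τ) := by
    have hd : ∀ s, HasDerivAt (fun s => f s - c * s ^ 2 / 2) (f' s - c * s) s := by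
      intro s
      have h5 : HasDerivAt (fun s : ℝ => c * s ^ 2 / 2) (c * s) s := by
        have := ((hasDerivAt_pow 2 s).const_mul c).div_const 2
        refine this.congr_deriv ?_
        push_cast
        ring
      exact (h1 s).sub h5
    refine antitoneOn_of_deriv_nonpos (convex_Icc 0 τ) ?_ ?_ ?_
    · exact (continuous_iff_continuousAt.2 fun s => (hd s).continuousAt).continuousOn
    · exact fun s _ => (hd s).differentiableAt.differentiableWithinAt
    · intro s hs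
      rw [interior_Icc] at hs
      rw [(hd s).deriv]
      have := hf' s ⟨hs.1.le, hs.2.le⟩
      linarith
  have h5 := h3 (left_mem_Icc.2 hτ) (right_mem_Icc.2 hτ) hτ
  simp only [h0] at h5
  norm_num at h5
  linarith

/-- `e^x - 1 ≤ 2 x` on `[0,1]` -/
theorem exp_sub_one_le_two {x : ℝ} (h0 : 0 ≤ x) (h1 : x ≤ 1) : Real.exp x - 1 ≤ 2 * x := by
  have h2 := Real.exp_bound' h0 h1 (n := 2) (by norm_num)
  norm_num [Finset.sum_range_succ] at h2
  nlinarith

/-- **closure lemma** (real analysis) -/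
theorem closure_real {ψ ψ' ψ'' : ℝ → ℝ} {m : ℝ} (hm : 0 ≤ m)
    (h1 : ∀ s, HasDerivAt ψ (ψ' s) s) (h2 : ∀ s, HasDerivAt ψ' (ψ'' s) s)
    (h0 : ψ 0 = 0) (h0' : ψ' 0 = 0) (hpos : ∀ s, 0 ≤ s → 0 ≤ ψ s)
    (hmono : ∀ s s', 0 ≤ s → s ≤ s' → ψ s ≤ ψ s')
    (hb : ∀ s, 0 ≤ s → ψ'' s ≤ m * Real.sqrt (Real.exp (ψ (2 * s)) - 1)) (n : ℕ) :
    ∀ τ : ℝ, 0 ≤ τ → ψ (2 ^ n * τ) ≤ 1 → ψ τ ≤ 8 * (m * τ ^ 2) ^ (2 - 2 * (1 / 2 : ℝ) ^ n) := by
  induction n with
  | zero =>
    intro τ hτ h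
    simp only [pow_zero, one_mul] at h
    norm_num
    linarith
  | succ n ih =>
    intro τ hτ h
    have hx1 : ψ (2 ^ n * (2 * τ)) ≤ 1 := by
      rw [pow_succ] at h
      rwa [← mul_assoc]
    have h3 := ih (2 * τ) (by positivity) hx1
    have h4 : ψ (2 * τ) ≤ 1 := by
      refine (hmono _ _ (by positivity) ?_).trans hx1
      have : (1 : ℝ) ≤ 2 ^ n := one_le_pow₀ (by norm_num)
      nlinarith
    have h5 : ∀ s ∈ Icc 0 τ, ψ'' s ≤ m * Real.sqrt (2 * ψ (2 * τ)) := by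
      intro s hs
      refine (hb s hs.1).trans (mul_le_mul_of_nonneg_left (Real.sqrt_le_sqrt ?_) hm)
      have h6 : ψ (2 * s) ≤ ψ (2 * τ) := hmono _ _ (by linarith [hs.1]) (by linarith [hs.2])
      have h7 : 0 ≤ ψ (2 * s) := hpos _ (by linarith [hs.1])
      exact (exp_sub_one_le_two h7 (h6.trans h4)).trans (by linarith)
    have h6 := taylor_two hτ h1 h2 h0 h0' h5
    set q : ℝ := m * τ ^ 2 with hq
    have hq0 : 0 ≤ q := by positivity
    set e : ℝ := 1 - (1 / 2 : ℝ) ^ n with he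
    have he0 : 0 ≤ e := by
      have : (1 / 2 : ℝ) ^ n ≤ 1 := pow_le_one₀ (by norm_num) (by norm_num)
      linarith
    have e1 : 2 - 2 * (1 / 2 : ℝ) ^ n = e + e := by rw [he]; ring
    have e2 : 2 - 2 * (1 / 2 : ℝ) ^ (n + 1) = 1 + e := by rw [he, pow_succ]; ring
    have e3 : m * (2 * τ) ^ 2 = 4 * q := by rw [hq]; ring
    rw [e1, e3, Real.rpow_add_of_nonneg (by positivity) he0 he0] at h3
    have h7 : Real.sqrt (2 * ψ (2 * τ)) ≤ 4 * (4 * q) ^ e := by
      rw [Real.sqrt_le_left (by positivity)]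
      have : (4 * (4 * q) ^ e) ^ 2 = 2 * (8 * ((4 * q) ^ e * (4 * q) ^ e)) := by ring
      rw [this]
      linarith
    have h8 : (4 * q) ^ e ≤ 4 * q ^ e := by
      rw [Real.mul_rpow (by norm_num) hq0]
      refine mul_le_mul_of_nonneg_right ?_ (Real.rpow_nonneg hq0 _)
      have : e ≤ 1 := by
        have : (0 : ℝ) ≤ (1 / 2 : ℝ) ^ n := by positivity
        linarith
      calc (4 : ℝ) ^ e ≤ 4 ^ (1 : ℝ) := Real.rpow_le_rpow_of_exponent_le (by norm_num) this
        _ = 4 := Real.rpow_one 4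
    rw [e2, Real.rpow_add_of_nonneg hq0 zero_le_one he0, Real.rpow_one]
    have h9 : m * Real.sqrt (2 * ψ (2 * τ)) * τ ^ 2 / 2 = q * Real.sqrt (2 * ψ (2 * τ)) / 2 := by
      rw [hq]; ring
    rw [h9] at h6
    refine h6.trans ?_
    have h10 : Real.sqrt (2 * ψ (2 * τ)) ≤ 16 * q ^ e := by linarith
    have h11 := mul_le_mul_of_nonneg_left h10 hq0
    linarith

end Vale.Agent.P159.H789
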