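import Mathlib

/-!
P159, module LG (helper789), part A: the continuity argument in the amplitude and the class
`g + chi rho` (Lipschitz `g`, Lipschitz cut-off `chi`, fixed rough field `rho`), which is closed
under scaling, segments and the cut around a point.
-/

namespace Vale.Agent.P159.H789

open Finset

section cont

variable {V X : Type*} [Fintype V] [Fintype X]

/-- continuity argument: a lower bound which improves itself at every amplitude holds at every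
amplitude -/
theorem cont_arg (Φ : (V → ℝ) → X → ℝ) (hΦ : ∀ x, Continuous fun f => Φ f x)
    (S : Set (V → ℝ)) {B : ℝ} (hB : ∀ f ∈ S, ∀ v, |f v| ≤ B) {c₀ c₁ : ℝ} (hc : c₀ < c₁)
    (h0 : ∀ x, c₀ ≤ Φ 0 x)
    (hs : ∀ l : ℝ, 0 ≤ l → l ≤ 1 → (∀ f ∈ S, ∀ x, c₀ ≤ Φ (l • f) x) →
      ∀ f ∈ S, ∀ x, c₁ ≤ Φ (l • f) x)
    (l : ℝ) (hl0 : 0 ≤ l) (hl1 : l ≤ 1) (f : V → ℝ) (hf : f ∈ S) (x : X) :
    c₁ ≤ Φ (l • f) x := by
  classical
  set B' : ℝ := max B 0 + 1 with hB'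
  have hB'0 : 0 < B' := by positivity
  have hBB : ∀ f ∈ S, ∀ v, |f v| ≤ B' := fun f hf v => by
    have := hB f hf v
    have := le_max_left B 0
    linarith
  have hcont : Continuous Φ := continuous_pi hΦ
  have hK : IsCompact (Metric.closedBall (0 : V → ℝ) B') := isCompact_closedBall _ _
  have hu := hK.uniformContinuousOn_of_continuous hcont.continuousOn
  rw [Metric.uniformContinuousOn_iff] at hu
  obtain ⟨δ, hδ, hu⟩ := hu (c₁ - c₀) (by linarith)
  have hmem : ∀ l : ℝ, 0 ≤ l → l ≤ 1 → ∀ f ∈ S, l • f ∈ Metric.closedBall (0 : V → ℝ) B' := by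
    intro l h0 h1 f hf
    rw [mem_closedBall_zero_iff, pi_norm_le_iff_of_nonneg hB'0.le]
    intro v
    rw [Pi.smul_apply, smul_eq_mul, Real.norm_eq_abs, abs_mul, abs_of_nonneg h0]
    have h2 := hBB f hf v
    have h3 : 0 ≤ |f v| := abs_nonneg _
    nlinarith
  set ε : ℝ := δ / (2 * B') with hε
  have hε0 : 0 < ε := by positivity
  have key : ∀ k : ℕ, ∀ l : ℝ, 0 ≤ l → l ≤ 1 → l ≤ k * ε → ∀ f ∈ S, ∀ x, c₁ ≤ Φ (l • f) x := by
    intro k
    induction k with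
    | zero =>
      intro l h0' _ h2 f hf x
      have hl : l = 0 := by
        push_cast at h2
        linarith
      subst hl
      refine hs 0 le_rfl zero_le_one (fun f _ x => ?_) f hf x
      rw [zero_smul]
      exact h0 x
    | succ k ih =>
      intro l h0' h1 h2 f hf x
      rcases le_or_gt l (k * ε) with h3 | h3
      · exact ih l h0' h1 h3 f hf x
      · refine hs l h0' h1 (fun f hf x => ?_) f hf x
        set l' : ℝ := k * ε with hl'
        have hl'0 : 0 ≤ l' := by positivity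
        have hl'1 : l' ≤ 1 := h3.le.trans h1
        have h4 := ih l' hl'0 hl'1 le_rfl f hf x
        have h5 : dist (l • f) (l' • f) < δ := by
          rw [dist_eq_norm, ← sub_smul, norm_smul, Real.norm_eq_abs]
          have h6 : |l - l'| ≤ ε := by
            rw [abs_of_nonneg (by linarith)]
            push_cast at h2
            rw [hl']
            linarith
          have h7 : ‖f‖ ≤ B' := by
            rw [pi_norm_le_iff_of_nonneg hB'0.le]
            intro v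
            rw [Real.norm_eq_abs]
            exact hBB f hf v
          calc |l - l'| * ‖f‖ ≤ ε * B' := mul_le_mul h6 h7 (norm_nonneg _) hε0.le
            _ = δ / 2 := by rw [hε]; field_simp
            _ < δ := by linarith
        have h6 := hu _ (hmem l h0' h1 f hf) _ (hmem l' hl'0 hl'1 f hf) h5
        have h7 : dist (Φ (l • f) x) (Φ (l' • f) x) ≤ dist (Φ (l • f)) (Φ (l' • f)) :=
          dist_le_pi_dist _ _ x
        rw [Real.dist_eq] at h7
        have h8 := (abs_le.1 (h7.trans h6.le)).1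
        linarith
  obtain ⟨k, hk⟩ := exists_nat_ge (1 / ε)
  refine key k l hl0 hl1 ?_ f hf x
  rw [div_le_iff₀ hε0] at hk
  linarith

end cont

section cls

variable {V : Type*}

/-- Lipschitz with constant `L` for the (pseudo) distance `d` -/
def Ld (d : V → V → ℝ) (L : ℝ) (f : V → ℝ) : Prop := ∀ z w, |f z - f w| ≤ L * d z w

/-- a pseudo distance -/
structure PM (d : V → V → ℝ) : Prop where
  nn : ∀ z w, 0 ≤ d z w
  self : ∀ z, d z z = 0
  symm : ∀ z w, d z w = d w z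
  tri : ∀ z w u, d z u ≤ d z w + d w u

theorem Ld.const {d : V → V → ℝ} (hd : PM d) {L : ℝ} (hL : 0 ≤ L) (c : ℝ) :
    Ld d L fun _ => c := by
  intro z w
  rw [sub_self, abs_zero]
  exact mul_nonneg hL (hd.nn z w)

theorem Ld.comb {d : V → V → ℝ} {L : ℝ} {f g : V → ℝ} (hf : Ld d L f) (hg : Ld d L g)
    {s : ℝ} (h0 : 0 ≤ s) (h1 : s ≤ 1) : Ld d L fun z => (1 - s) * f z + s * g z := by
  intro z w
  have e : (1 - s) * f z + s * g z - ((1 - s) * f w + s * g w) =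
      (1 - s) * (f z - f w) + s * (g z - g w) := by ring
  rw [e]
  refine (abs_add_le _ _).trans ?_
  rw [abs_mul, abs_mul, abs_of_nonneg (by linarith : (0 : ℝ) ≤ 1 - s), abs_of_nonneg h0]
  have h3 := hf z w
  have h4 := hg z w
  have h5 : 0 ≤ 1 - s := by linarith
  nlinarith [mul_le_mul_of_nonneg_left h3 h5, mul_le_mul_of_nonneg_left h4 h0]

theorem Ld.smul {d : V → V → ℝ} (hd : PM d) {L : ℝ} {f : V → ℝ} (hf : Ld d L f) (hL : 0 ≤ L)
    {s : ℝ} (h0 : 0 ≤ s) (h1 : s ≤ 1) : Ld d L fun z => s * f z := by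
  intro z w
  rw [← mul_sub, abs_mul, abs_of_nonneg h0]
  have h3 := hf z w
  have h4 : 0 ≤ L * d z w := mul_nonneg hL (hd.nn z w)
  nlinarith

theorem Ld.max' {d : V → V → ℝ} {L : ℝ} {f g : V → ℝ} (hf : Ld d L f) (hg : Ld d L g) :
    Ld d L fun z => max (f z) (g z) := by
  intro z w
  refine (abs_max_sub_max_le_max (f z) (g z) (f w) (g w)).trans ?_
  exact max_le (hf z w) (hg z w)

theorem Ld.min' {d : V → V → ℝ} {L : ℝ} {f g : V → ℝ} (hf : Ld d L f) (hg : Ld d L g) :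
    Ld d L fun z => min (f z) (g z) := by
  intro z w
  refine (abs_min_sub_min_le_max (f z) (g z) (f w) (g w)).trans ?_
  exact max_le (hf z w) (hg z w)

/-- the profile `L (2 r - d(x0, .))_+` -/
def rp (d : V → V → ℝ) (L r : ℝ) (x0 : V) (z : V) : ℝ := L * max 0 (2 * r - d x0 z)

theorem rp_nonneg (d : V → V → ℝ) {L : ℝ} (hL : 0 ≤ L) (r : ℝ) (x0 z : V) :
    0 ≤ rp d L r x0 z := mul_nonneg hL (le_max_left _ _)

theorem rp_ld {d : V → V → ℝ} (hd : PM d) {L : ℝ} (hL : 0 ≤ L) (r : ℝ) (x0 : V) :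
    Ld d L (rp d L r x0) := by
  intro z w
  unfold rp
  rw [← mul_sub, abs_mul, abs_of_nonneg hL]
  refine mul_le_mul_of_nonneg_left ?_ hL
  refine (abs_max_sub_max_le_max 0 (2 * r - d x0 z) 0 (2 * r - d x0 w)).trans ?_
  refine max_le ?_ ?_
  · rw [sub_self, abs_zero]
    exact hd.nn z w
  · have e : 2 * r - d x0 z - (2 * r - d x0 w) = d x0 w - d x0 z := by ring
    rw [e, abs_le]
    have h1 := hd.tri x0 z w
    have h2 := hd.tri x0 w z
    rw [hd.symm w z] at h2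
    constructor <;> linarith

theorem rp_far {d : V → V → ℝ} {L r : ℝ} {x0 z : V} (h : 2 * r ≤ d x0 z) :
    rp d L r x0 z = 0 := by
  unfold rp
  rw [max_eq_left (by linarith), mul_zero]

theorem rp_near {d : V → V → ℝ} {L r : ℝ} (hL : 0 ≤ L) {x0 z : V} (h : d x0 z ≤ r) :
    L * r ≤ rp d L r x0 z := by
  unfold rp
  refine mul_le_mul_of_nonneg_left ?_ hL
  exact le_max_of_le_right (by linarith)

theorem Ld.addc {d : V → V → ℝ} {L : ℝ} {f : V → ℝ} (hf : Ld d L f) (c : ℝ) :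
    Ld d L fun z => c + f z := by
  intro z w
  have e : c + f z - (c + f w) = f z - f w := by ring
  rw [e]
  exact hf z w

theorem Ld.neg' {d : V → V → ℝ} {L : ℝ} {f : V → ℝ} (hf : Ld d L f) :
    Ld d L fun z => - f z := by
  intro z w
  have e : - f z - (- f w) = -(f z - f w) := by ring
  rw [e, abs_neg]
  exact hf z w

/-- the cut of `g` around `x0` -/
def cg (d : V → V → ℝ) (L r : ℝ) (x0 : V) (g : V → ℝ) (z : V) : ℝ :=
  max (g x0 + -(rp d L r x0 z)) (min (g z) (g x0 + rp d L r x0 z))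

theorem cg_ld {d : V → V → ℝ} (hd : PM d) {L : ℝ} (hL : 0 ≤ L) (r : ℝ) (x0 : V) {g : V → ℝ}
    (hg : Ld d L g) : Ld d L (cg d L r x0 g) :=
  Ld.max' ((rp_ld hd hL r x0).neg'.addc (g x0)) (Ld.min' hg ((rp_ld hd hL r x0).addc (g x0)))

theorem cg_far {d : V → V → ℝ} {L r : ℝ} {x0 z : V} {g : V → ℝ} (h : 2 * r ≤ d x0 z) :
    cg d L r x0 g z = g x0 := by
  unfold cg
  rw [rp_far h, neg_zero, add_zero]
  exact max_eq_left (min_le_right _ _)

theorem cg_near {d : V → V → ℝ} {L r : ℝ} (hL : 0 ≤ L) {x0 z : V} {g : V → ℝ}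
    (hg : Ld d L g) (hd : PM d) (h : d x0 z ≤ r) : cg d L r x0 g z = g z := by
  unfold cg
  have h1 := rp_near hL h
  have h2 := hg z x0
  rw [hd.symm z x0] at h2
  have h3 : L * d x0 z ≤ L * r := mul_le_mul_of_nonneg_left h hL
  have h4 := abs_le.1 (h2.trans h3)
  rw [min_eq_left (by linarith [h4.2]), max_eq_right (by linarith [h4.1])]

theorem cg_bd {d : V → V → ℝ} {L r : ℝ} (hL : 0 ≤ L) {x0 : V} {g : V → ℝ} {B : ℝ}
    (hB : ∀ z, |g z| ≤ B) (z : V) : |cg d L r x0 g z| ≤ B := by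
  have h0 := rp_nonneg d hL r x0 z
  have h1 := abs_le.1 (hB x0)
  have h2 := abs_le.1 (hB z)
  unfold cg
  rw [abs_le]
  constructor
  · rcases le_total (g z) (g x0 + rp d L r x0 z) with h | h
    · rw [min_eq_left h]
      exact le_max_of_le_right h2.1
    · rw [min_eq_right h]
      exact le_max_of_le_right (by linarith [h1.1])
  · refine max_le (by linarith [h1.2]) ?_
    exact (min_le_left _ _).trans h2.2

theorem cg_dev {d : V → V → ℝ} (hd : PM d) {L r : ℝ} (hL : 0 ≤ L) (hr : 0 ≤ r) {x0 : V}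
    {g : V → ℝ} (hg : Ld d L g) (z : V) : |cg d L r x0 g z - g x0| ≤ L * r := by
  rcases le_total (d x0 z) r with h | h
  · rw [cg_near hL hg hd h]
    have h2 := hg z x0
    rw [hd.symm z x0] at h2
    exact h2.trans (mul_le_mul_of_nonneg_left h hL)
  · have h0 := rp_nonneg d hL r x0 z
    have h1 : rp d L r x0 z ≤ L * r := by
      unfold rp
      refine mul_le_mul_of_nonneg_left ?_ hL
      exact max_le hr (by linarith)
    refine le_trans ?_ h1
    unfold cg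
    rw [abs_le]
    constructor
    · have := le_max_left (g x0 + -(rp d L r x0 z)) (min (g z) (g x0 + rp d L r x0 z))
      linarith
    · have := max_le (by linarith : g x0 + -(rp d L r x0 z) ≤ g x0 + rp d L r x0 z)
        (min_le_right (g z) (g x0 + rp d L r x0 z))
      linarith

/-- the cut of a cut-off function -/
def cc (d : V → V → ℝ) (K r : ℝ) (x0 : V) (χ : V → ℝ) (z : V) : ℝ := min (χ z) (rp d K r x0 z)

theorem cc_ld {d : V → V → ℝ} (hd : PM d) {K : ℝ} (hK : 0 ≤ K) (r : ℝ) (x0 : V) {χ : V → ℝ}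
    (hχ : Ld d K χ) : Ld d K (cc d K r x0 χ) := Ld.min' hχ (rp_ld hd hK r x0)

theorem cc_nonneg {d : V → V → ℝ} {K : ℝ} (hK : 0 ≤ K) {r : ℝ} {x0 : V} {χ : V → ℝ}
    (h0 : ∀ z, 0 ≤ χ z) (z : V) : 0 ≤ cc d K r x0 χ z := le_min (h0 z) (rp_nonneg d hK r x0 z)

theorem cc_le {d : V → V → ℝ} {K r : ℝ} {x0 : V} {χ : V → ℝ} (z : V) :
    cc d K r x0 χ z ≤ χ z := min_le_left _ _

theorem cc_near {d : V → V → ℝ} {K r : ℝ} (hK : 0 ≤ K) (hKr : 1 ≤ K * r) {x0 z : V} {χ : V → ℝ}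
    (h1 : χ z ≤ 1) (h : d x0 z ≤ r) : cc d K r x0 χ z = χ z := by
  unfold cc
  have h2 := rp_near (d := d) hK h
  exact min_eq_left (by linarith)

theorem cc_far {d : V → V → ℝ} {K r : ℝ} {x0 z : V} {χ : V → ℝ} (h0 : 0 ≤ χ z)
    (h : 2 * r ≤ d x0 z) : cc d K r x0 χ z = 0 := by
  unfold cc
  rw [rp_far h]
  exact min_eq_right h0

/-- the class `g + chi rho` -/
def Cls (d : V → V → ℝ) (L K B : ℝ) (ρ : V → ℝ) : Set (V → ℝ) :=
  {f | ∃ g χ : V → ℝ, Ld d L g ∧ (∀ z, |g z| ≤ B) ∧ Ld d K χ ∧ (∀ z, 0 ≤ χ z) ∧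
    (∀ z, χ z ≤ 1) ∧ f = fun z => g z + χ z * ρ z}

/-- window fields of the class: supported where `d x0 z < 2 r` -/
def Wnd (d : V → V → ℝ) (L K r : ℝ) (ρ : V → ℝ) (x0 : V) : Set (V → ℝ) :=
  {f | ∃ v χ : V → ℝ, Ld d L v ∧ (∀ z, |v z| ≤ L * r) ∧ Ld d K χ ∧ (∀ z, 0 ≤ χ z) ∧
    (∀ z, χ z ≤ 1) ∧ (∀ z, 2 * r ≤ d x0 z → v z = 0) ∧ (∀ z, 2 * r ≤ d x0 z → χ z = 0) ∧
    f = fun z => v z + χ z * ρ z}

theorem Cls.comb {d : V → V → ℝ} {L K B : ℝ} {ρ f g : V → ℝ} (hf : f ∈ Cls d L K B ρ)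
    (hg : g ∈ Cls d L K B ρ) {s : ℝ} (h0 : 0 ≤ s) (h1 : s ≤ 1) :
    (fun z => (1 - s) * f z + s * g z) ∈ Cls d L K B ρ := by
  obtain ⟨g1, χ1, a1, a2, a3, a4, a5, rfl⟩ := hf
  obtain ⟨g2, χ2, b1, b2, b3, b4, b5, rfl⟩ := hg
  have hs : 0 ≤ 1 - s := by linarith
  refine ⟨fun z => (1 - s) * g1 z + s * g2 z, fun z => (1 - s) * χ1 z + s * χ2 z, a1.comb b1 h0 h1,
    fun z => ?_, a3.comb b3 h0 h1, fun z => ?_, fun z => ?_, ?_⟩
  · refine (abs_add_le _ _).trans ?_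
    rw [abs_mul, abs_mul, abs_of_nonneg hs, abs_of_nonneg h0]
    have := a2 z
    have := b2 z
    nlinarith
  · have := mul_nonneg hs (a4 z)
    have := mul_nonneg h0 (b4 z)
    show 0 ≤ (1 - s) * χ1 z + s * χ2 z
    linarith
  · have := mul_le_mul_of_nonneg_left (a5 z) hs
    have := mul_le_mul_of_nonneg_left (b5 z) h0
    show (1 - s) * χ1 z + s * χ2 z ≤ 1
    linarith
  · funext z
    ring

theorem Cls.bdd {d : V → V → ℝ} {L K B R : ℝ} {ρ f : V → ℝ} (hf : f ∈ Cls d L K B ρ)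
    (hR : ∀ z, |ρ z| ≤ R) (z : V) : |f z| ≤ B + R := by
  obtain ⟨g1, χ1, a1, a2, a3, a4, a5, rfl⟩ := hf
  show |g1 z + χ1 z * ρ z| ≤ B + R
  refine (abs_add_le _ _).trans ?_
  rw [abs_mul, abs_of_nonneg (a4 z)]
  have h1 := a2 z
  have h2 := hR z
  have h3 := a4 z
  have h4 := a5 z
  have h5 : 0 ≤ |ρ z| := abs_nonneg _
  nlinarith

/-- **the cut**: a field of the class agrees near `x0` with constant + window field, which is in
the class -/
theorem Cls.cut {d : V → V → ℝ} (hd : PM d) {L K B r : ℝ} (hL : 0 ≤ L) (hK : 0 ≤ K) (hr : 0 ≤ r)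
    (hKr : 1 ≤ K * r) {ρ f : V → ℝ} (hf : f ∈ Cls d L K B ρ) (x0 : V) :
    ∃ f' ∈ Cls d L K B ρ, ∃ (c : ℝ) (u : V → ℝ), u ∈ Wnd d L K r ρ x0 ∧ |c| ≤ B ∧
      (f' = fun z => c + u z) ∧ (∀ z, d x0 z ≤ r → f' z = f z) := by
  obtain ⟨g, χ, a1, a2, a3, a4, a5, rfl⟩ := hf
  refine ⟨fun z => cg d L r x0 g z + cc d K r x0 χ z * ρ z,
    ⟨cg d L r x0 g, cc d K r x0 χ, cg_ld hd hL r x0 a1, cg_bd hL a2, cc_ld hd hK r x0 a3,
      cc_nonneg hK a4, fun z => (cc_le z).trans (a5 z), rfl⟩, g x0,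
    fun z => (cg d L r x0 g z - g x0) + cc d K r x0 χ z * ρ z,
    ⟨fun z => cg d L r x0 g z - g x0, cc d K r x0 χ, ?_, cg_dev hd hL hr a1, cc_ld hd hK r x0 a3,
      cc_nonneg hK a4, fun z => (cc_le z).trans (a5 z), fun z hz => ?_, fun z hz =>
        cc_far (a4 z) hz, rfl⟩, a2 x0, ?_, fun z hz => ?_⟩
  · have h := (cg_ld hd hL r x0 a1).addc (-(g x0))
    intro z w
    have e : cg d L r x0 g z - g x0 - (cg d L r x0 g w - g x0) =
      -(g x0) + cg d L r x0 g z - (-(g x0) + cg d L r x0 g w) := by ring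
    show |cg d L r x0 g z - g x0 - (cg d L r x0 g w - g x0)| ≤ _
    rw [e]
    exact h z w
  · show cg d L r x0 g z - g x0 = 0
    rw [cg_far hz, sub_self]
  · funext z
    ring
  · show cg d L r x0 g z + cc d K r x0 χ z * ρ z = g z + χ z * ρ z
    rw [cg_near hL a1 hd hz, cc_near hK hKr (a5 z) hz]

theorem Wnd.smul {d : V → V → ℝ} (hd : PM d) {L K r : ℝ} (hL : 0 ≤ L) (hK : 0 ≤ K) {ρ : V → ℝ}
    {x0 : V} {u : V → ℝ} (hu : u ∈ Wnd d L K r ρ x0) {s : ℝ} (h0 : 0 ≤ s) (h1 : s ≤ 1) :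
    (fun z => s * u z) ∈ Wnd d L K r ρ x0 := by
  obtain ⟨v, χ, a1, a2, a3, a4, a5, a6, a7, rfl⟩ := hu
  refine ⟨fun z => s * v z, fun z => s * χ z, a1.smul hd hL h0 h1, fun z => ?_,
    a3.smul hd hK h0 h1, fun z => mul_nonneg h0 (a4 z), fun z => ?_, fun z hz => ?_,
    fun z hz => ?_, ?_⟩
  · rw [abs_mul, abs_of_nonneg h0]
    have h2 := a2 z
    have h3 : 0 ≤ |v z| := abs_nonneg _
    nlinarith
  · have := a5 z
    have := a4 z
    show s * χ z ≤ 1
    nlinarith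
  · show s * v z = 0
    rw [a6 z hz, mul_zero]
  · show s * χ z = 0
    rw [a7 z hz, mul_zero]
  · funext z
    ring

end cls

end Vale.Agent.P159.H789
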