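import Vale.Agent.P159.TM.H634.B1Fin
import Vale.Agent.P159.H789.LgA

/-!
P159, module LG (helper789), part B: circuits, clustering and decay of covariances in EVERY
background of the class `Cls` (helper789/LgA) on every torus with `N^2 y <= eta xi^2`, from a bound
of `T(u) = 4 U(u) - U(2 u)` for window fields `u` only.
-/

open scoped ENNReal BigOperators
open Finset Filter Topology

set_option linter.unusedSectionVars false

namespace Vale.Agent.P159.H789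

open Vale.Agent.P159.H353 Vale.Agent.P159.T1.H897 Vale.Agent.P159.TM Vale.Agent.P159.TM.H131
  Vale.Agent.P159.TM.H60 Vale.Agent.P159.TM.H459 Vale.Agent.P159.TM.H857

section torus

variable {N : ℕ} [NeZero N]

/-- `T(u) = 4 U(u) - U(2u)`, mass `1 / xi^2` -/
noncomputable def Tf (N : ℕ) [NeZero N] (b ξ : ℝ) (u : Spec.V N → ℝ) : ℝ :=
  4 * H871.U (SpecC.wT b N) (SpecC.ms ξ) u - H871.U (SpecC.wT b N) (SpecC.ms ξ) fun x => 2 * u x

theorem Tf_shift {b : ℝ} (hb : 0 ≤ b) {ξ : ℕ} (hξ : 0 < ξ) (u : Spec.V N → ℝ) (c : ℝ) :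
    Tf N b ξ (fun z => c + u z) ≤
      Tf N b ξ u + 5 / 4 * H871.kap (SpecC.wT b N) (SpecC.ms (N := N) (ξ : ℝ)) := by
  have hm := H857.ms_pos (N := N) hξ
  have hG : H871.Gin (SpecC.wT b N) (SpecC.ms (N := N) (ξ : ℝ)) := H41.gin_wT hb hm
  have hW := wt_Wg (tS (N := N)) tT (fun _ => b) (fun _ => hb)
  have hs := shift_Wg (tS (N := N)) tT (fun _ => b)
  have he := even_Wg (tS (N := N)) tT (fun _ => b) (fun _ => hb)
  rw [Wg_T] at hW hs he
  have h1 := H871.osc_kap hW hm hs he hG u c 0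
  have h2 := H871.osc_kap hW hm hs he hG (fun x => 2 * u x) (2 * c) 0
  have e1 : (fun x => u x + c) = fun z => c + u z := by
    funext x
    ring
  have e2 : (fun x => u x + 0) = u := by
    funext x
    ring
  have e3 : (fun x => 2 * u x + 2 * c) = fun x => 2 * (c + u x) := by
    funext x
    ring
  have e4 : (fun x => 2 * u x + 0) = fun x => 2 * u x := by
    funext x
    ring
  rw [e1, e2] at h1
  rw [e3, e4] at h2
  have h3 := (abs_le.1 h1).2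
  have h4 := (abs_le.1 h2).1
  unfold Tf
  linarith

theorem kap_le {b : ℝ} (hb : 0 ≤ b) {ξ : ℕ} (hξ : 0 < ξ) {y a η : ℝ}
    (hQ : H764.QU (ξ : ℝ) (Spec.GT N b ξ) y a)
    (hη : (N : ℝ) ^ 2 * y ≤ η * (ξ : ℝ) ^ 2) :
    H871.kap (SpecC.wT b N) (SpecC.ms (N := N) (ξ : ℝ)) ≤ η := by
  have hξR : (0 : ℝ) < ξ := by exact_mod_cast hξ
  have hdir : H859.dirE (fun _ : Spec.V N => (1 : ℝ)) = 0 := by
    rw [← sum_edges]
    simp
  have hcard : (Fintype.card (Spec.V N) : ℝ) = (N : ℝ) ^ 2 := by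
    rw [Fintype.card_prod, ZMod.card]
    push_cast
    ring
  have hyN : y / (ξ : ℝ) ^ 2 * (N : ℝ) ^ 2 ≤ η := by
    rw [div_mul_eq_mul_div, div_le_iff₀ (by positivity)]
    linarith
  rw [H41.kap_eq_ddU H41.even_wT]
  refine (ddU_one_le hb hξ hQ _).trans ?_
  rw [hdir]
  simp only [one_pow, Finset.sum_const, Finset.card_univ, nsmul_eq_mul, mul_one, mul_zero,
    add_zero]
  rw [hcard]
  exact hyN

/-- circuits at a constant + window field -/
theorem PO_wnd {b : ℝ} (hb : 0 ≤ b) {ξ : ℕ} (hξ : 0 < ξ) {μ r : ℕ} {c₀ η τ₀ : ℝ} (hc₀ : 0 ≤ c₀)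
    (hkap : H871.kap (SpecC.wT b N) (SpecC.ms (N := N) (ξ : ℝ)) ≤ η)
    (hsm : Real.exp (τ₀ + 5 / 4 * η) - 1 ≤ (c₀ / 8) ^ 2) {x : Spec.V N}
    (h0 : c₀ ≤ Spec.PO N b ξ hb μ r 0 x) {u : Spec.V N → ℝ} (hu : Tf N b ξ u ≤ τ₀) (c : ℝ) :
    7 / 8 * c₀ ≤ Spec.PO N b ξ hb μ r (fun z => c + u z) x := by
  have hm := H857.ms_pos (N := N) hξ
  have h1 := E4_U (tS (N := N)) tT (fun _ => b) (fun _ => hb) (SpecC.ms (ξ : ℝ)) hm
    (fun z => c + u z) (OD μ r x)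
  rw [Wg_T] at h1
  have h2 := Tf_shift (N := N) hb hξ u c
  unfold Tf at h2 hu
  have h3 : √(Real.exp (4 * H871.U (SpecC.wT b N) (SpecC.ms (ξ : ℝ)) (fun z => c + u z) -
      H871.U (SpecC.wT b N) (SpecC.ms (ξ : ℝ)) fun x => 2 * (c + u x)) - 1) ≤ c₀ / 8 := by
    rw [Real.sqrt_le_left (by positivity)]
    refine le_trans ?_ hsm
    have := Real.exp_le_exp.2 (show 4 * H871.U (SpecC.wT b N) (SpecC.ms (ξ : ℝ))
      (fun z => c + u z) - H871.U (SpecC.wT b N) (SpecC.ms (ξ : ℝ)) (fun x => 2 * (c + u x)) ≤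
        τ₀ + 5 / 4 * η by linarith)
    linarith
  rw [PO_eq hb hξ] at h0 ⊢
  have h4 := (abs_le.1 (h1.trans h3)).1
  have e0 : (fun _ : Spec.V N => (0 : ℝ)) = 0 := rfl
  rw [e0] at h4
  linarith

/-- (H2) in several steps -/
theorem H2_steps {b : ℝ} {hb : 0 ≤ b} {ξ : ℕ} {μ r : ℕ} {c₀ ε : ℝ} {n : ℕ}
    (H2 : ∀ f g : Spec.V N → ℝ,
      (∀ s : ℝ, 0 ≤ s → s ≤ 1 → ∀ x0,
        c₀ ≤ Spec.PO N b ξ hb μ r (fun z => (1 - s) * f z + s * g z) x0) →
      ∀ (x0 : Spec.V N), (∀ z, |f z - g z| ≤ 1) → (∀ z ∈ ball x0 n, f z = g z) →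
        |Spec.PO N b ξ hb μ r f x0 - Spec.PO N b ξ hb μ r g x0| ≤ ε)
    {f g : Spec.V N → ℝ}
    (hP : ∀ s : ℝ, 0 ≤ s → s ≤ 1 → ∀ x0,
        c₀ ≤ Spec.PO N b ξ hb μ r (fun z => (1 - s) * f z + s * g z) x0)
    {m : ℕ} (hm : 0 < m) (x0 : Spec.V N) (h1 : ∀ z, |f z - g z| ≤ m)
    (hfg : ∀ z ∈ ball x0 n, f z = g z) :
    |Spec.PO N b ξ hb μ r f x0 - Spec.PO N b ξ hb μ r g x0| ≤ m * ε := by
  have hmR : (0 : ℝ) < m := by exact_mod_cast hm
  set p : ℕ → Spec.V N → ℝ := fun j z => (1 - (j : ℝ) / m) * f z + (j : ℝ) / m * g z with hp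
  have hstep : ∀ j, j < m →
      |Spec.PO N b ξ hb μ r (p j) x0 - Spec.PO N b ξ hb μ r (p (j + 1)) x0| ≤ ε := by
    intro j hj
    refine H2 (p j) (p (j + 1)) (fun s hs0 hs1 x1 => ?_) x0 (fun z => ?_) (fun z hz => ?_)
    · have e : (fun z => (1 - s) * p j z + s * p (j + 1) z) = fun z =>
          (1 - ((j : ℝ) + s) / m) * f z + ((j : ℝ) + s) / m * g z := by
        funext z
        simp only [hp]
        push_cast
        field_simp
        ring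
      rw [e]
      refine hP _ (by positivity) ?_ x1
      rw [div_le_one hmR]
      have : (j : ℝ) + 1 ≤ m := by exact_mod_cast hj
      linarith
    · have e : p j z - p (j + 1) z = (f z - g z) / m := by
        simp only [hp]
        push_cast
        field_simp
        ring
      rw [e, abs_div, abs_of_pos hmR, div_le_one hmR]
      exact h1 z
    · simp only [hp]
      rw [hfg z hz]
      push_cast
      ring
  have hsum : ∀ k, k ≤ m →
      |Spec.PO N b ξ hb μ r (p 0) x0 - Spec.PO N b ξ hb μ r (p k) x0| ≤ k * ε := by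
    intro k
    induction k with
    | zero =>
      intro _
      simp
    | succ k ih =>
      intro hk
      have h2 := ih (by omega)
      have h3 := hstep k (by omega)
      have h4 := abs_sub_le (Spec.PO N b ξ hb μ r (p 0) x0) (Spec.PO N b ξ hb μ r (p k) x0)
        (Spec.PO N b ξ hb μ r (p (k + 1)) x0)
      push_cast
      linarith
  have h5 := hsum m le_rfl
  have e0 : p 0 = f := by
    funext z
    simp only [hp]
    push_cast
    ring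
  have e1 : p m = g := by
    funext z
    simp only [hp]
    rw [div_self hmR.ne']
    ring
  rwa [e0, e1] at h5

/-- **the continuity argument on the torus**: circuits in every background of the class -/
theorem PO_cls {b : ℝ} (hb : 0 ≤ b) {ξ : ℕ} (hξ : 0 < ξ) {μ r : ℕ} {c₀ η τ₀ ε : ℝ} {n : ℕ}
    (hc₀ : 0 < c₀)
    (hkap : H871.kap (SpecC.wT b N) (SpecC.ms (N := N) (ξ : ℝ)) ≤ η)
    (hsm : Real.exp (τ₀ + 5 / 4 * η) - 1 ≤ (c₀ / 8) ^ 2)
    (h0 : ∀ x0, c₀ ≤ Spec.PO N b ξ hb μ r 0 x0)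
    (H2 : ∀ f g : Spec.V N → ℝ,
      (∀ s : ℝ, 0 ≤ s → s ≤ 1 → ∀ x0,
        c₀ / 2 ≤ Spec.PO N b ξ hb μ r (fun z => (1 - s) * f z + s * g z) x0) →
      ∀ (x0 : Spec.V N), (∀ z, |f z - g z| ≤ 1) → (∀ z ∈ ball x0 n, f z = g z) →
        |Spec.PO N b ξ hb μ r f x0 - Spec.PO N b ξ hb μ r g x0| ≤ ε)
    {d : Spec.V N → Spec.V N → ℝ} (hd : PM d) {L K B R q : ℝ} (hL : 0 ≤ L) (hK : 0 ≤ K)
    (hq : 0 ≤ q) (hKq : 1 ≤ K * q) (hdq : ∀ x0 z, sd x0 z ≤ n → d x0 z ≤ q)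
    {ρ : Spec.V N → ℝ} (hρ : ∀ z, |ρ z| ≤ R) {m : ℕ} (hm : 0 < m) (hmR : 2 * (B + R) ≤ m)
    (hε : m * ε ≤ c₀ / 8)
    (hT : ∀ x0, ∀ u ∈ Wnd d L K q ρ x0, Tf N b ξ u ≤ τ₀)
    {l : ℝ} (hl0 : 0 ≤ l) (hl1 : l ≤ 1) {f : Spec.V N → ℝ} (hf : f ∈ Cls d L K B ρ)
    (x : Spec.V N) : 3 / 4 * c₀ ≤ Spec.PO N b ξ hb μ r (l • f) x := by
  have hms := H857.ms_pos (N := N) hξ
  refine cont_arg (fun f x => Spec.PO N b ξ hb μ r f x) (fun x => ?_) (Cls d L K B ρ)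
    (B := B + R) (fun f hf v => Cls.bdd hf hρ v) (c₀ := c₀ / 2) (by linarith) (fun x => ?_) ?_ l hl0 hl1
    f hf x
  · have h1 := continuous_Pf (tS (N := N)) tT (fun _ => b) (fun _ => hb) (SpecC.ms (ξ : ℝ)) hms
      (OD μ r x)
    refine h1.congr fun f => ?_
    exact (PO_eq hb hξ μ r f x).symm
  · have := h0 x
    show c₀ / 2 ≤ Spec.PO N b ξ hb μ r 0 x
    linarith
  · intro l h0' h1' hall f hf x
    obtain ⟨f', hf', c, u, hu, hcB, hfu, hff⟩ := Cls.cut hd hL hK hq hKq hf x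
    have hseg : ∀ s : ℝ, 0 ≤ s → s ≤ 1 → ∀ x0,
        c₀ / 2 ≤ Spec.PO N b ξ hb μ r (fun z => (1 - s) * (l • f) z + s * (l • f') z) x0 := by
      intro s hs0 hs1 x0
      have h2 := hall _ (Cls.comb hf hf' hs0 hs1) x0
      have e : (l • fun z => (1 - s) * f z + s * f' z) =
          fun z => (1 - s) * (l • f) z + s * (l • f') z := by
        funext z
        simp only [Pi.smul_apply, smul_eq_mul]
        ring
      beta_reduce at h2
      rwa [e] at h2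
    have h3 := H2_steps H2 hseg hm x (fun z => ?_) (fun z hz => ?_)
    · have h4 : 7 / 8 * c₀ ≤ Spec.PO N b ξ hb μ r (l • f') x := by
        have e : l • f' = fun z => l * c + (fun z => l * u z) z := by
          funext z
          rw [Pi.smul_apply, smul_eq_mul, hfu]
          ring
        rw [e]
        exact PO_wnd hb hξ hc₀.le hkap hsm (h0 x) (hT x _ (Wnd.smul hd hL hK hu h0' h1')) _
      have h5 := (abs_le.1 h3).1
      show 3 / 4 * c₀ ≤ Spec.PO N b ξ hb μ r (l • f) x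
      linarith
    · simp only [Pi.smul_apply, smul_eq_mul]
      rw [← mul_sub, abs_mul, abs_of_nonneg h0']
      have h6 := Cls.bdd hf hρ z
      have h7 := Cls.bdd hf' hρ z
      have h8 : |f z - f' z| ≤ |f z| + |f' z| := abs_sub _ _
      have h9 : 0 ≤ |f z - f' z| := abs_nonneg _
      calc l * |f z - f' z| ≤ 1 * |f z - f' z| := mul_le_mul_of_nonneg_right h1' h9
        _ ≤ m := by linarith
    · simp only [Pi.smul_apply, smul_eq_mul]
      rw [hff z (hdq x z (mem_ball.1 hz))]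

end torus

/-- **LG1**: clustering and decay of covariances in every background of the class, on every torus
with `N^2 y ≤ eta xi^2`; the only input beyond the standing range is `T(u) ≤ tau_0` for window
fields `u` -/
theorem lg1_of {b1 : ℝ} (hb1 : 0 < b1) (b2 a : ℝ) (hA6 : Spec.ThmA6 b1 b2 a) :
    ∃ W₀ : ℝ, ∀ W : ℝ, W₀ ≤ W → ∃ c C η τ₀ ys : ℝ, ∃ X : ℕ, 0 < c ∧ 0 < C ∧ 0 < η ∧ 0 < τ₀ ∧
      0 < ys ∧ 1 ≤ X ∧
      ∀ (N : ℕ) [NeZero N] (b : ℝ) (hb : 0 ≤ b) (ξ : ℕ) (y : ℝ),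
        Spec.Rng b1 b2 a W ys X N b ξ y → (N : ℝ) ^ 2 * y ≤ η * (ξ : ℝ) ^ 2 →
        ∀ (d : Spec.V N → Spec.V N → ℝ) (L K B R q : ℝ) (n m : ℕ) (ρ : Spec.V N → ℝ),
          PM d → 0 ≤ L → 0 ≤ K → 0 ≤ q → 1 ≤ K * q → (∀ x0 z, sd x0 z ≤ n → d x0 z ≤ q) →
          (∀ z, |ρ z| ≤ R) → 0 < m → 2 * (B + R) ≤ m →
          m * (C * Real.exp (-(c * n / ξ))) ≤ 1 →
          (∀ x0, ∀ u ∈ Wnd d L K q ρ x0, Tf N b ξ u ≤ τ₀) →
          ∀ (l : ℝ), 0 ≤ l → l ≤ 1 → ∀ f ∈ Cls d L K B ρ,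
            (∀ (x0 : Spec.V N) (n : ℕ),
              Spec.Ele (Spec.σ2 N b ξ hb (l • f)) (Spec.WF (Spec.σ2 N b ξ hb (l • f))
                (ball x0 ξ) (ball x0 n)) (C * (ξ : ℝ) ^ 4 * Real.exp (-(c * n / ξ)))) ∧
            ∀ (x₀ y₀ : Spec.V N) (u v : Spec.V N → ℝ),
              (∀ x, 0 ≤ u x ∧ u x ≤ 1) → (∀ x, 0 ≤ v x ∧ v x ≤ 1) →
              (∀ x, u x ≠ 0 → H859.tn (x - x₀) ≤ ξ) → (∀ x, v x ≠ 0 → H859.tn (x - y₀) ≤ ξ) →
              H104.Cf (SpecC.wT b N) (SpecC.ms (ξ : ℝ)) (l • f) (H870.lin (SpecC.ms (ξ : ℝ)) u)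
                (H870.lin (SpecC.ms (ξ : ℝ)) v) ≤
                  C * Real.exp (-(c * H859.tn (x₀ - y₀) / ξ)) := by
  obtain ⟨W1, hA6⟩ := hA6
  obtain ⟨c₀, δ, ys1, A, X1, hc₀, hδ, hys1, hA, hAX1, hA6⟩ := hA6 W1 le_rfl
  have hB1 := H634.thmB1 hb1 b2 a (half_pos hc₀) hδ hA
  obtain ⟨W2, hB⟩ := hB1
  obtain ⟨W3, hH⟩ := H2_of_B1 hb1 (half_pos hc₀) hδ hA
    (H634.thmB1 hb1 b2 a (half_pos hc₀) hδ hA)
  refine ⟨max W1 (max W2 W3), fun W hW => ?_⟩
  have hW1 : W1 ≤ W := (le_max_left _ _).trans hW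
  have hW2 : W2 ≤ W := ((le_max_left _ _).trans (le_max_right _ _)).trans hW
  have hW3 : W3 ≤ W := ((le_max_right _ _).trans (le_max_right _ _)).trans hW
  obtain ⟨c₁, C₁, η₁, ys2, X2, hc₁, hC₁, hη₁, hys2, hX2, hB⟩ := hB W hW2
  obtain ⟨c₂, C₂, η₂, ys3, X3, hc₂, hC₂, hη₂, hys3, hX3, hH⟩ := hH W hW3
  obtain ⟨c', K', hc', hK', hcov⟩ := covB c₁ hc₁
  set s : ℝ := Real.log (1 + (c₀ / 8) ^ 2) with hs
  have hs0 : 0 < s := Real.log_pos (by have : 0 < (c₀ / 8) ^ 2 := by positivity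
                                       linarith)
  set η : ℝ := min (min η₁ η₂) (s / 5) with hη
  have hη0 : 0 < η := lt_min (lt_min hη₁ hη₂) (by positivity)
  have hsm : Real.exp (s / 2 + 5 / 4 * η) - 1 ≤ (c₀ / 8) ^ 2 := by
    have h0 : η ≤ s / 5 := min_le_right _ _
    have h1 : Real.exp (s / 2 + 5 / 4 * η) ≤ Real.exp s := Real.exp_le_exp.2 (by linarith)
    rw [hs, Real.exp_log (by positivity)] at h1
    linarith
  set C : ℝ := max (C₂ * (8 / c₀)) (max C₁ (K' * C₁)) with hC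
  have hC1 : C₂ * (8 / c₀) ≤ C := le_max_left _ _
  have hC2 : C₁ ≤ C := (le_max_left _ _).trans (le_max_right _ _)
  have hC3 : K' * C₁ ≤ C := (le_max_right _ _).trans (le_max_right _ _)
  have hC0 : 0 < C := lt_of_lt_of_le hC₁ hC2
  set c : ℝ := min c₁ (min c₂ c') with hc
  have hcc1 : c ≤ c₁ := min_le_left _ _
  have hcc2 : c ≤ c₂ := (min_le_right _ _).trans (min_le_left _ _)
  have hcc3 : c ≤ c' := (min_le_right _ _).trans (min_le_right _ _)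
  have hc0 : 0 < c := lt_min hc₁ (lt_min hc₂ hc')
  refine ⟨c, C, η, s / 2, min ys1 (min ys2 ys3), max X1 (max X2 (max X3 2)), hc0, hC0, hη0,
    by positivity, lt_min hys1 (lt_min hys2 hys3),
    (hX2.trans (le_max_left _ _)).trans (le_max_right _ _), ?_⟩
  intro N _ b hb ξ y hR hNy d L K B R q n m ρ hd hL hK hq hKq hdq hρ hm hmR hsmall hT l hl0 hl1 f hf
  have hbpos : 0 < b := hb1.trans_le hR.hb1
  have hξ : 0 < ξ := lt_of_lt_of_le (Nat.lt_of_lt_of_le Nat.zero_lt_one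
    ((hX2.trans (le_max_left _ _)).trans (le_max_right X1 _))) hR.hX
  have hξR : (0 : ℝ) < ξ := by exact_mod_cast hξ
  have R1 := rng_mono hR hW1 (min_le_left _ _) (le_max_left _ _)
  have R2 : Spec.Rng b1 b2 a W ys2 X2 N b ξ y := rng_mono hR le_rfl
    ((min_le_right _ _).trans (min_le_left _ _)) ((le_max_left _ _).trans (le_max_right _ _))
  have R3 : Spec.Rng b1 b2 a W ys3 X3 N b ξ y := rng_mono hR le_rfl
    ((min_le_right _ _).trans (min_le_right _ _))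
    (((le_max_left _ _).trans (le_max_right _ _)).trans (le_max_right _ _))
  have hN2 : 2 ≤ N := by
    have h1 : 2 ≤ max X1 (max X2 (max X3 2)) :=
      ((le_max_right _ _).trans (le_max_right _ _)).trans (le_max_right _ _)
    have h2 := hR.hK
    have h3 : 2 * 1 ≤ max X1 (max X2 (max X3 2)) * ξ := Nat.mul_le_mul h1 hξ
    omega
  have hN1 : (N : ℝ) ^ 2 * y ≤ η₁ * (ξ : ℝ) ^ 2 := hNy.trans
    (mul_le_mul_of_nonneg_right ((min_le_left _ _).trans (min_le_left _ _)) (sq_nonneg _))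
  have hN3 : (N : ℝ) ^ 2 * y ≤ η₂ * (ξ : ℝ) ^ 2 := hNy.trans
    (mul_le_mul_of_nonneg_right ((min_le_left _ _).trans (min_le_right _ _)) (sq_nonneg _))
  have hkap := kap_le (N := N) hb hξ hR.hyp.qu hNy
  set μ : ℕ := ⌊δ * (ξ : ℝ) ^ 2⌋₊ with hμ
  have hPO : ∀ x0, c₀ / 2 ≤ Spec.PO N b ξ hb μ (ξ / A) (l • f) x0 := by
    intro x0
    have h1 := PO_cls (N := N) hb hξ (μ := μ) (r := ξ / A) (ε := C₂ * Real.exp (-(c₂ * n / ξ)))
      hc₀ hkap hsm (fun x0 => hA6 N b hb ξ y R1 x0)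
      (fun f g hP x0 h1 hfg => hH N b hb ξ y R3 hN3 f g hP x0 n h1 hfg)
      hd hL hK hq hKq hdq hρ hm hmR (by
        have h2 : Real.exp (-(c₂ * n / ξ)) ≤ Real.exp (-(c * n / ξ)) := by
          refine Real.exp_le_exp.2 (neg_le_neg ?_)
          gcongr
        have h3 : (m : ℝ) * (C₂ * (8 / c₀) * Real.exp (-(c₂ * n / ξ))) ≤ 1 := by
          refine le_trans ?_ hsmall
          refine mul_le_mul_of_nonneg_left ?_ (Nat.cast_nonneg _)
          exact mul_le_mul hC1 h2 (Real.exp_pos _).le hC0.le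
        have e : (m : ℝ) * (C₂ * (8 / c₀) * Real.exp (-(c₂ * n / ξ))) =
            (m : ℝ) * (C₂ * Real.exp (-(c₂ * n / ξ))) * 8 / c₀ := by ring
        rw [e, div_le_one hc₀] at h3
        linarith) hT hl0 hl1 hf x0
    linarith
  have F1 := hB N b hb ξ y R2 hN1 (l • f) hPO
  refine ⟨fun x0 n => ?_, ?_⟩
  · have h1 := F1 x0 n
    unfold Spec.Ele at h1 ⊢
    refine h1.trans (mul_le_mul' (ENNReal.ofReal_le_ofReal ?_) le_rfl)
    have h2 : Real.exp (-(c₁ * n / ξ)) ≤ Real.exp (-(c * n / ξ)) := by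
      refine Real.exp_le_exp.2 (neg_le_neg ?_)
      gcongr
    gcongr
  · intro x₀ y₀ u v hu hv hsu hsv
    have h1 := hcov N hN2 b hb ξ hξ (l • f) C₁ hC₁.le F1 x₀ y₀ u v hu hv hsu hsv
    refine h1.trans ?_
    have h2 : Real.exp (-(c' * H859.tn (x₀ - y₀) / ξ)) ≤
        Real.exp (-(c * H859.tn (x₀ - y₀) / ξ)) := by
      refine Real.exp_le_exp.2 (neg_le_neg ?_)
      have h6 : 0 ≤ H859.tn (x₀ - y₀) := H859.tn_nonneg _
      gcongr
    exact mul_le_mul hC3 h2 (Real.exp_pos _).le hC0.le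

end Vale.Agent.P159.H789
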