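import Vale.Agent.P159.H789.LgB
import Vale.Agent.P159.H612.Local5

/-!
P159, module LG (helper789), part C: the decay of covariances in the letters of `H37/Spec0`
(sources `J = t f`, `t = xi^(-2)`), for signed test functions and for a far source of any extent.
-/

namespace Vale.Agent.P159.H789

open Finset Matrix
open Vale.Agent.P159.H37
open Vale.Agent.P159.TM.H104 (EM Ex Cv Lg li nh Gr)
open Vale.Agent.P159.T1.H897 (Hol)
open Vale.Agent.P159.TM.SpecC (wT ms)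
open Vale.Agent.P159.TM.Spec (V)
open Vale.Agent.P159.TM.H459 (sn sd ball mem_ball sd_symm sd_tri)
open Vale.Agent.P159.TM.H859 (tn tn_nonneg)

/-! ### sums of exponentials -/

theorem tsum_exp_le {a : ℝ} (ha : 0 < a) : ∑' i : ℤ, Real.exp (-(a * |(i : ℝ)|)) ≤ 2 + 2 / a := by
  set r : ℝ := Real.exp (-a) with hr
  have hr0 : 0 < r := Real.exp_pos _
  have hr1 : r < 1 := by
    rw [hr, ← Real.exp_zero]
    exact Real.exp_lt_exp.2 (by linarith)
  have hg : Summable fun n : ℕ => r ^ n := summable_geometric_of_lt_one hr0.le hr1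
  have e1 : ∀ n : ℕ, Real.exp (-(a * |((n : ℤ) : ℝ)|)) = r ^ n := by
    intro n
    rw [hr, ← Real.exp_nat_mul]
    congr 1
    rw [Int.cast_natCast, Nat.abs_cast]
    ring
  have e2 : ∀ n : ℕ, Real.exp (-(a * |((-((n : ℤ) + 1) : ℤ) : ℝ)|)) = r * r ^ n := by
    intro n
    rw [hr, ← Real.exp_nat_mul, ← Real.exp_add]
    congr 1
    push_cast
    rw [abs_neg, abs_of_nonneg (by positivity)]
    ring
  rw [tsum_of_nat_of_neg_add_one (f := fun i : ℤ => Real.exp (-(a * |(i : ℝ)|)))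
    (hg.congr fun n => (e1 n).symm) ((hg.mul_left r).congr fun n => (e2 n).symm)]
  simp only [e1, e2]
  rw [tsum_mul_left, tsum_geometric_of_lt_one hr0.le hr1]
  have h1 : r * (1 + a) ≤ 1 := by
    have h2 := Real.add_one_le_exp a
    have h3 : r * Real.exp a = 1 := by
      rw [hr, ← Real.exp_add]
      simp
    nlinarith
  have h2 : (1 - r)⁻¹ ≤ 1 + 1 / a := by
    rw [inv_le_comm₀ (by linarith) (by positivity)]
    have e : (1 + 1 / a)⁻¹ = a / (1 + a) := by
      field_simp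
      rw [add_comm]
    rw [e, div_le_iff₀ (by positivity)]
    nlinarith
  have h3 : r * (1 - r)⁻¹ ≤ (1 - r)⁻¹ :=
    mul_le_of_le_one_left (inv_nonneg.2 (by linarith)) hr1.le
  have h4 : 2 / a = 2 * (1 / a) := by ring
  rw [h4]
  linarith

/-- the constant of the sums over a torus -/
noncomputable def Ks (c : ℝ) : ℝ := (2 + 4 / c) ^ 2

theorem Ks_pos {c : ℝ} (hc : 0 < c) : 0 < Ks c := by
  unfold Ks
  positivity

theorem sum_exp_torus {N : ℕ} [NeZero N] {c : ℝ} (hc : 0 < c) {ξ : ℕ} (hξ : 0 < ξ)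
    (x0 : ZMod N × ZMod N) :
    ∑ p : ZMod N × ZMod N, Real.exp (-(c * sd x0 p / ξ)) ≤ Ks c * (ξ : ℝ) ^ 2 := by
  have hξR : (0 : ℝ) < ξ := by exact_mod_cast hξ
  have hξ1 : (1 : ℝ) ≤ ξ := by exact_mod_cast hξ
  have h1 := TM.H857.sum_exp_sd N x0 (div_pos hc hξR)
  have e : ∀ p : ZMod N × ZMod N, Real.exp (-(c * sd x0 p / ξ)) =
      Real.exp (-(c / ξ * (sd x0 p : ℝ))) := fun p => by
    congr 2
    ring
  simp only [e]
  refine h1.trans ?_
  have h2 := tsum_exp_le (a := c / ξ / 2) (by positivity)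
  have h3 : 2 + 2 / (c / ξ / 2) ≤ (2 + 4 / c) * ξ := by
    have e1 : 2 / (c / ξ / 2) = 4 / c * ξ := by
      field_simp
      norm_num
    rw [e1, add_mul]
    linarith
  have h0 : 0 ≤ ∑' i : ℤ, Real.exp (-(c / ξ / 2 * |(i : ℝ)|)) := tsum_nonneg fun _ =>
    (Real.exp_pos _).le
  calc (∑' i : ℤ, Real.exp (-(c / ξ / 2 * |(i : ℝ)|))) ^ 2 ≤ ((2 + 4 / c) * ξ) ^ 2 :=
        pow_le_pow_left₀ h0 (h2.trans h3) 2
    _ = Ks c * (ξ : ℝ) ^ 2 := by
        unfold Ks
        ring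

theorem card_ball_ge {N : ℕ} [NeZero N] {r : ℕ} (h : 2 * r ≤ N) (x0 : ZMod N × ZMod N) :
    r ^ 2 ≤ (ball x0 r).card := by
  classical
  have vma : ∀ {i : ℕ}, 2 * i ≤ N → ((i : ZMod N)).valMinAbs = i := fun h =>
    ZMod.valMinAbs_natCast_of_le_half (by omega)
  have h1 : (range r ×ˢ range r).card ≤ (ball x0 r).card := by
    refine card_le_card_of_injOn (fun p => x0 + ((p.1 : ZMod N), (p.2 : ZMod N))) ?_ ?_
    · intro p hp
      have hp' := mem_product.1 (mem_coe.1 hp)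
      rw [mem_range, mem_range] at hp'
      refine mem_coe.2 (mem_ball.2 ?_)
      unfold sd
      rw [add_sub_cancel_left]
      unfold sn
      rw [vma (i := p.1) (by omega), vma (i := p.2) (by omega)]
      simp only [Int.natAbs_natCast]
      omega
    · intro p hp q hq hpq
      have hp' := mem_product.1 (mem_coe.1 hp)
      have hq' := mem_product.1 (mem_coe.1 hq)
      rw [mem_range, mem_range] at hp' hq'
      have h2 := add_left_cancel hpq
      have e1 := congrArg (fun w : ZMod N × ZMod N => w.1.valMinAbs) h2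
      have e2 := congrArg (fun w : ZMod N × ZMod N => w.2.valMinAbs) h2
      simp only at e1 e2
      rw [vma (i := p.1) (by omega), vma (i := q.1) (by omega)] at e1
      rw [vma (i := p.2) (by omega), vma (i := q.2) (by omega)] at e2
      exact Prod.ext (by exact_mod_cast e1) (by exact_mod_cast e2)
  rw [card_product, card_range] at h1
  rw [pow_two]
  exact h1

/-! ### decay of covariances in the source letters -/

section

variable {N : ℕ} [NeZero N] {b : ℝ}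

/-- exponential decay of the covariances at the source `J`, test functions `t u`, `t v` with
`0 ≤ u, v ≤ 1` supported in balls of radius `ξ` -/
def CD (μ : (V N → ℤ) → ℝ) (ξ : ℕ) (C c : ℝ) (J : V N → ℝ) : Prop :=
  ∀ (x₀ y₀ : V N) (u v : V N → ℝ),
    (∀ x, 0 ≤ u x ∧ u x ≤ 1) → (∀ x, 0 ≤ v x ∧ v x ≤ 1) →
    (∀ x, u x ≠ 0 → tn (x - x₀) ≤ ξ) → (∀ x, v x ≠ 0 → tn (x - y₀) ≤ ξ) →
    Cv μ J (li ((1 / (ξ : ℝ) ^ 2) • u)) (li ((1 / (ξ : ℝ) ^ 2) • v)) ≤
      C * Real.exp (-(c * tn (x₀ - y₀) / ξ))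

theorem Tf_eq_Tq (hb : 0 ≤ b) {ξ : ℕ} (hξ : 0 < ξ) (u : V N → ℝ) :
    Tf N b ξ u = Tq (wt N b (1 / (ξ : ℝ) ^ 2)) ((1 / (ξ : ℝ) ^ 2) • u) := by
  have hm := TM.H857.ms_pos (N := N) hξ
  have hW := TM.H41.wt_wT (N := N) hb
  obtain ⟨Wb, hWb⟩ := hW.bdd
  unfold Tf Tq
  rw [TM.H104.U_871, TM.H104.U_871, TM.H104.U_eq hm hW.nonneg hWb hW.pos,
    TM.H104.U_eq hm hW.nonneg hWb hW.pos, H612.wt_eq_bw]
  have e1 : TM.H104.mf (ms (ξ : ℝ)) u = (1 / (ξ : ℝ) ^ 2) • u := rfl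
  have e2 : TM.H104.mf (ms (ξ : ℝ)) (fun x => 2 * u x) = (2 : ℝ) • ((1 / (ξ : ℝ) ^ 2) • u) := by
    funext x
    simp only [TM.H104.mf, ms, Pi.smul_apply, smul_eq_mul]
    ring
  have e3 : TM.H104.bw (wT b N) (ms (ξ : ℝ)) = TM.H104.bw (wT b N) fun _ => 1 / (ξ : ℝ) ^ 2 := rfl
  have e4 : TM.H104.me (ms (ξ : ℝ)) (fun x => 2 * u x) = 4 * TM.H104.me (ms (ξ : ℝ)) u := by
    unfold TM.H104.me
    rw [Finset.mul_sum]
    exact Finset.sum_congr rfl fun x _ => by ring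
  rw [e1, e2, e3, e4]
  ring

/-- old letters to new letters -/
theorem CD_of_Cf {ξ : ℕ} {C c : ℝ} {f : V N → ℝ}
    (h : ∀ (x₀ y₀ : V N) (u v : V N → ℝ),
      (∀ x, 0 ≤ u x ∧ u x ≤ 1) → (∀ x, 0 ≤ v x ∧ v x ≤ 1) →
      (∀ x, u x ≠ 0 → tn (x - x₀) ≤ ξ) → (∀ x, v x ≠ 0 → tn (x - y₀) ≤ ξ) →
      TM.H104.Cf (wT b N) (ms (ξ : ℝ)) f (TM.H870.lin (ms (ξ : ℝ)) u)
        (TM.H870.lin (ms (ξ : ℝ)) v) ≤ C * Real.exp (-(c * tn (x₀ - y₀) / ξ))) :
    CD (wt N b (1 / (ξ : ℝ) ^ 2)) ξ C c ((1 / (ξ : ℝ) ^ 2) • f) := by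
  intro x₀ y₀ u v hu hv hsu hsv
  have h1 := h x₀ y₀ u v hu hv hsu hsv
  rw [TM.H104.Cf_eq, TM.H104.lin_li, TM.H104.lin_li] at h1
  rw [H612.wt_eq_bw]
  exact h1

variable {μ : (V N → ℤ) → ℝ}

/-- entries of the covariance are nonnegative -/
theorem Cm_nonneg (hμ : EM μ) (hol : Hol μ μ) (J : V N → ℝ) (x y : V N) : 0 ≤ Cm μ J x y := by
  unfold Cm
  rw [Matrix.of_apply]
  refine H612.fkg hμ hol J (TM.H104.Gr_co x) (TM.H104.Gr_co y) ?_ ?_
  · intro h h' hh
    show ((h x : ℤ) : ℝ) ≤ ((h' x : ℤ) : ℝ)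
    exact Int.cast_le.2 (hh x)
  · intro h h' hh
    show ((h y : ℤ) : ℝ) ≤ ((h' y : ℤ) : ℝ)
    exact Int.cast_le.2 (hh y)

theorem bf_abs_le (hμ : EM μ) (hol : Hol μ μ) (J u v : V N → ℝ) :
    |bf (Cm μ J) u v| ≤ bf (Cm μ J) (fun x => |u x|) fun x => |v x| := by
  unfold bf
  refine (Finset.abs_sum_le_sum_abs _ _).trans (Finset.sum_le_sum fun x _ => ?_)
  refine (Finset.abs_sum_le_sum_abs _ _).trans (Finset.sum_le_sum fun y _ => ?_)
  rw [abs_mul, abs_mul, abs_of_nonneg (Cm_nonneg hμ hol J x y)]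

theorem bf_mono (hμ : EM μ) (hol : Hol μ μ) (J : V N → ℝ) {u v u' v' : V N → ℝ}
    (hu : ∀ x, 0 ≤ u x) (hv : ∀ x, 0 ≤ v x) (huu : ∀ x, u x ≤ u' x) (hvv : ∀ x, v x ≤ v' x) :
    bf (Cm μ J) u v ≤ bf (Cm μ J) u' v' := by
  unfold bf
  refine Finset.sum_le_sum fun x _ => Finset.sum_le_sum fun y _ => ?_
  have h0 := Cm_nonneg hμ hol J x y
  have h1 := mul_le_mul_of_nonneg_right (huu x) h0
  have h2 : 0 ≤ u x * Cm μ J x y := mul_nonneg (hu x) h0
  exact mul_le_mul h1 (hvv y) (hv y) (h2.trans h1)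

theorem bf_sum_right {ι : Type*} (M : Matrix (V N) (V N) ℝ) (u : V N → ℝ) (s : Finset ι)
    (w : ι → V N → ℝ) : bf M u (fun x => ∑ i ∈ s, w i x) = ∑ i ∈ s, bf M u (w i) := by
  unfold bf
  simp only [Finset.mul_sum]
  have h1 : ∀ x, ∑ y, ∑ i ∈ s, u x * M x y * w i y = ∑ i ∈ s, ∑ y, u x * M x y * w i y :=
    fun x => Finset.sum_comm
  simp only [h1]
  exact Finset.sum_comm

theorem bf_smul_smul (M : Matrix (V N) (V N) ℝ) (u v : V N → ℝ) (a c : ℝ) :
    bf M (fun x => a * u x) (fun x => c * v x) = a * c * bf M u v := by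
  unfold bf
  simp only [Finset.mul_sum]
  exact Finset.sum_congr rfl fun x _ => Finset.sum_congr rfl fun y _ => by ring

open Classical in
/-- decay against a source of any extent which vanishes on a ball -/
theorem CD.far (hμ : EM μ) (hol : Hol μ μ) {ξ : ℕ} (hξ : 2 ≤ ξ) (hN : ξ ≤ N) {C c : ℝ}
    (hc : 0 < c) (hC : 0 ≤ C) {J : V N → ℝ} (h : CD μ ξ C c J) {v g : V N → ℝ} {x0 : V N}
    {A B : ℝ} {n : ℕ} (hA : 0 ≤ A) (hB : 0 ≤ B) (hv : ∀ x, |v x| ≤ B)
    (hvs : ∀ x, v x ≠ 0 → tn (x - x0) ≤ ξ) (hg : ∀ x, |g x| ≤ A)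
    (hgs : ∀ x ∈ ball x0 n, g x = 0) :
    |Cv μ J (li ((1 / (ξ : ℝ) ^ 2) • v)) (li ((1 / (ξ : ℝ) ^ 2) • g))| ≤
      A * B * (9 * C * Ks (c / 2) * Real.exp (c / 4) * Real.exp (-(c / 2 * n / ξ))) := by
  have hξ0 : 0 < ξ := by omega
  have hξR : (0 : ℝ) < ξ := by exact_mod_cast hξ0
  set t : ℝ := 1 / (ξ : ℝ) ^ 2 with ht
  have ht0 : 0 < t := by positivity
  set r : ℕ := ξ / 2 with hr
  have hr1 : 1 ≤ r := by omega
  have hrR : (0 : ℝ) < r := by exact_mod_cast hr1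
  have h2r : 2 * r ≤ ξ := by omega
  have h3r : (ξ : ℝ) ≤ 3 * r := by
    have : ξ ≤ 3 * r := by omega
    exact_mod_cast this
  -- the two indicator families
  set iv : V N → ℝ := fun x => if v x = 0 then 0 else 1 with hiv
  set w : V N → V N → ℝ := fun p x => if g x ≠ 0 ∧ x ∈ ball p r then 1 else 0 with hw
  have hiv0 : ∀ x, 0 ≤ iv x ∧ iv x ≤ 1 := by
    intro x
    simp only [hiv]
    split_ifs <;> norm_num
  have hw0 : ∀ p x, 0 ≤ w p x ∧ w p x ≤ 1 := by
    intro p x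
    simp only [hw]
    split_ifs <;> norm_num
  have hivs : ∀ x, iv x ≠ 0 → tn (x - x0) ≤ ξ := by
    intro x hx
    refine hvs x fun h0 => hx ?_
    simp only [hiv]
    rw [if_pos h0]
  have hws : ∀ p x, w p x ≠ 0 → tn (x - p) ≤ ξ := by
    intro p x hx
    have h1 : x ∈ ball p r := by
      by_contra hcon
      refine hx ?_
      simp only [hw]
      rw [if_neg fun hh => hcon hh.2]
    have h2 := TM.H459.tn_le_sn (x - p)
    have h3 : (sn (x - p) : ℝ) ≤ r := by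
      rw [mem_ball] at h1
      exact_mod_cast h1
    have h4 : (2 : ℝ) * r ≤ ξ := by exact_mod_cast h2r
    linarith
  -- step 1: absolute values and the averaged cover
  have s1 : |Cv μ J (li (t • v)) (li (t • g))| ≤
      bf (Cm μ J) (fun x => B * (t * iv x)) fun x => ∑ p, A / (r : ℝ) ^ 2 * (t * w p x) := by
    rw [← bf_Cm hμ]
    refine (bf_abs_le hμ hol J _ _).trans ?_
    refine bf_mono hμ hol J (fun x => abs_nonneg _) (fun x => abs_nonneg _) (fun x => ?_)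
      fun x => ?_
    · rw [Pi.smul_apply, smul_eq_mul, abs_mul, abs_of_pos ht0]
      simp only [hiv]
      split_ifs with h0
      · rw [h0, abs_zero]
        simp
      · have := hv x
        nlinarith
    · rw [Pi.smul_apply, smul_eq_mul, abs_mul, abs_of_pos ht0]
      rcases eq_or_ne (g x) 0 with h0 | h0
      · rw [h0, abs_zero, mul_zero]
        refine Finset.sum_nonneg fun p _ => ?_
        have := (hw0 p x).1
        positivity
      · have h1 : ∑ p, A / (r : ℝ) ^ 2 * (t * w p x) =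
            A / (r : ℝ) ^ 2 * t * ((ball x r).card : ℝ) := by
          have h2 : ∀ p, A / (r : ℝ) ^ 2 * (t * w p x) =
              A / (r : ℝ) ^ 2 * t * if p ∈ ball x r then 1 else 0 := by
            intro p
            simp only [hw]
            have h3 : (g x ≠ 0 ∧ x ∈ ball p r) ↔ p ∈ ball x r := by
              rw [mem_ball, mem_ball, sd_symm p x]
              exact ⟨fun hh => hh.2, fun hh => ⟨h0, hh⟩⟩
            rw [if_congr h3 rfl rfl]
            ring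
          simp only [h2]
          rw [← Finset.mul_sum, Finset.sum_ite_mem, Finset.univ_inter, Finset.sum_const,
            nsmul_eq_mul, mul_one]
        rw [h1]
        have h4 : (r : ℝ) ^ 2 ≤ ((ball x r).card : ℝ) := by
          have := card_ball_ge (N := N) (r := r) (by omega) x
          exact_mod_cast this
        have h5 := hg x
        have h6 : A / (r : ℝ) ^ 2 * t * (r : ℝ) ^ 2 = t * A := by
          field_simp
        calc t * |g x| ≤ t * A := mul_le_mul_of_nonneg_left h5 ht0.le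
          _ = A / (r : ℝ) ^ 2 * t * (r : ℝ) ^ 2 := h6.symm
          _ ≤ _ := mul_le_mul_of_nonneg_left h4 (by positivity)
  -- step 2: one ball
  have s2 : ∀ p : V N, bf (Cm μ J) (fun x => B * (t * iv x))
      (fun x => A / (r : ℝ) ^ 2 * (t * w p x)) ≤
      B * (A / (r : ℝ) ^ 2) * (C * (Real.exp (c / 4) * Real.exp (-(c / 2 * n / ξ)) *
        Real.exp (-(c / 2 * sd x0 p / ξ)))) := by
    intro p
    rw [bf_smul_smul]
    refine mul_le_mul_of_nonneg_left ?_ (by positivity)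
    by_cases hp : ∃ x, g x ≠ 0 ∧ x ∈ ball p r
    · obtain ⟨x, hx, hxp⟩ := hp
      have h1 : n < sd x0 x := by
        by_contra hcon
        exact hx (hgs x (mem_ball.2 (not_lt.1 hcon)))
      have h2 : n < sd x0 p + r := by
        have := sd_tri x0 p x
        rw [mem_ball] at hxp
        omega
      have h3 := h x0 p iv (w p) hiv0 (hw0 p) hivs (hws p)
      have e1 : bf (Cm μ J) (fun x => t * iv x) (fun x => t * w p x) =
          Cv μ J (li (t • iv)) (li (t • w p)) := by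
        rw [← bf_Cm hμ]
        rfl
      rw [e1]
      refine h3.trans (mul_le_mul_of_nonneg_left ?_ hC)
      rw [← Real.exp_add, ← Real.exp_add]
      refine Real.exp_le_exp.2 ?_
      have h4 : (sd x0 p : ℝ) ≤ tn (x0 - p) := by
        have h5 := TM.H459.sn_le_tn (x0 - p)
        have h6 : sd p x0 = sn (x0 - p) := rfl
        rw [sd_symm x0 p, h6]
        exact h5
      have h7 : (n : ℝ) ≤ sd x0 p + r := by exact_mod_cast h2.le
      have h8 : (2 : ℝ) * r ≤ ξ := by exact_mod_cast h2r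
      have h9 : (sd x0 p : ℝ) / ξ ≤ tn (x0 - p) / ξ := div_le_div_of_nonneg_right h4 hξR.le
      have h10 : (n : ℝ) / ξ ≤ sd x0 p / ξ + 1 / 2 := by
        rw [div_add_div _ _ hξR.ne' two_ne_zero, div_le_div_iff₀ hξR (by positivity)]
        nlinarith
      have e2 : c * tn (x0 - p) / ξ = c * (tn (x0 - p) / ξ) := by ring
      have e3 : c / 2 * n / ξ = c / 2 * ((n : ℝ) / ξ) := by ring
      have e4 : c / 2 * sd x0 p / ξ = c / 2 * ((sd x0 p : ℝ) / ξ) := by ring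
      rw [e2, e3, e4]
      nlinarith
    · have h1 : w p = 0 := by
        funext x
        simp only [hw]
        rw [if_neg fun hh => hp ⟨x, hh⟩]
        rfl
      rw [h1]
      have e : bf (Cm μ J) (fun x => t * iv x) (fun x => t * (0 : V N → ℝ) x) = 0 := by
        unfold bf
        simp
      rw [e]
      positivity
  -- step 3: summation
  refine s1.trans ?_
  rw [bf_sum_right]
  refine (Finset.sum_le_sum fun p _ => s2 p).trans ?_
  rw [← Finset.mul_sum, ← Finset.mul_sum, ← Finset.mul_sum]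
  have s3 := sum_exp_torus (N := N) (half_pos hc) hξ0 x0
  have hE : 0 ≤ Real.exp (c / 4) * Real.exp (-(c / 2 * n / ξ)) := by positivity
  have s4 : Real.exp (c / 4) * Real.exp (-(c / 2 * n / ξ)) *
      ∑ p : V N, Real.exp (-(c / 2 * sd x0 p / ξ)) ≤
      Real.exp (c / 4) * Real.exp (-(c / 2 * n / ξ)) * (Ks (c / 2) * (ξ : ℝ) ^ 2) :=
    mul_le_mul_of_nonneg_left s3 hE
  have s5 := mul_le_mul_of_nonneg_left s4 hC
  have s6 := mul_le_mul_of_nonneg_left s5 (by positivity : 0 ≤ B * (A / (r : ℝ) ^ 2))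
  refine s6.trans ?_
  have hK := (Ks_pos (half_pos hc)).le
  have s7 : (ξ : ℝ) ^ 2 ≤ 9 * (r : ℝ) ^ 2 := by nlinarith
  have s8 : (ξ : ℝ) ^ 2 / (r : ℝ) ^ 2 ≤ 9 := by
    rw [div_le_iff₀ (by positivity)]
    exact s7
  have e : B * (A / (r : ℝ) ^ 2) * (C * (Real.exp (c / 4) * Real.exp (-(c / 2 * n / ξ)) *
      (Ks (c / 2) * (ξ : ℝ) ^ 2))) =
      A * B * (C * Ks (c / 2) * Real.exp (c / 4) * Real.exp (-(c / 2 * n / ξ))) *
        ((ξ : ℝ) ^ 2 / (r : ℝ) ^ 2) := by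
    field_simp
  rw [e]
  have hP : 0 ≤ A * B * (C * Ks (c / 2) * Real.exp (c / 4) * Real.exp (-(c / 2 * n / ξ))) := by
    positivity
  refine (mul_le_mul_of_nonneg_left s8 hP).trans (le_of_eq ?_)
  ring

end

end Vale.Agent.P159.H789
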