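import Vale.Agent.P159.H789.LgD

/-!
P159, module LG (helper789), part E: the block form (239's class: block-constant Lipschitz part plus
blockwise constant multiples of a rough field) and the final theorem `lg_of`.
-/

set_option linter.unusedSectionVars false

namespace Vale.Agent.P159.H789

open Finset Matrix
open Vale.Agent.P159.H37
open Vale.Agent.P159.TM.H104 (EM Ex Cv Lg li nh Gr)
open Vale.Agent.P159.T1.H897 (Hol)
open Vale.Agent.P159.TM.SpecC (wT ms)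
open Vale.Agent.P159.TM.Spec (V)
open Vale.Agent.P159.TM.H459 (sn sd ball mem_ball sd_symm sd_tri sd_self bk bk1 blk mem_blk bk_le
  le_bk)
open Vale.Agent.P159.TM.H859 (tn tn_nonneg)

/-! ### Jensen for sums of fields -/

section

variable {V : Type*} [Fintype V] {μ : (V → ℤ) → ℝ}

theorem Rs_sum_le (hμ : EM μ) (he : Ev μ) (hK : PK μ) {ι : Type*} (s : Finset ι)
    (J : ι → V → ℝ) {M δ : ℝ} (hM : (s.card : ℝ) ≤ M) (hδ : 0 ≤ δ)
    (h : ∀ i ∈ s, Rs μ (M • J i) ≤ δ) : Rs μ (∑ i ∈ s, J i) ≤ δ := by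
  rcases s.eq_empty_or_nonempty with rfl | hs
  · rw [Finset.sum_empty, Rs_zero]
    exact hδ
  · have hc : (0 : ℝ) < s.card := by exact_mod_cast hs.card_pos
    have h1 := (Rs_convex hμ he hK).map_sum_le (t := s) (w := fun _ => (s.card : ℝ)⁻¹)
      (p := fun i => (s.card : ℝ) • J i) (fun i _ => by positivity)
      (by rw [Finset.sum_const, nsmul_eq_mul, mul_inv_cancel₀ hc.ne']) fun i _ => Set.mem_univ _
    have e : ∑ i ∈ s, (s.card : ℝ)⁻¹ • (s.card : ℝ) • J i = ∑ i ∈ s, J i :=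
      Finset.sum_congr rfl fun i _ => by rw [smul_smul, inv_mul_cancel₀ hc.ne', one_smul]
    rw [e] at h1
    refine h1.trans ?_
    have h2 : ∀ i ∈ s, (s.card : ℝ)⁻¹ • Rs μ ((s.card : ℝ) • J i) ≤ (s.card : ℝ)⁻¹ * δ := by
      intro i hi
      rw [smul_eq_mul]
      refine mul_le_mul_of_nonneg_left ?_ (by positivity)
      exact (Rs_ray_mono hμ he hK (J i) hc.le hM).trans (h i hi)
    refine (Finset.sum_le_sum h2).trans ?_
    rw [Finset.sum_const, nsmul_eq_mul, ← mul_assoc, mul_inv_cancel₀ hc.ne', one_mul]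

end

section

variable {N : ℕ} [NeZero N] {b : ℝ} {n : ℕ} [NeZero n] {ξ : ℕ}

/-- block distance -/
noncomputable def dB (n ξ : ℕ) [NeZero n] (z w : V N) : ℝ := (sd (bk n ξ z) (bk n ξ w) : ℝ)

theorem pm_dB (n ξ : ℕ) [NeZero n] : PM (dB (N := N) n ξ) where
  nn _ _ := Nat.cast_nonneg _
  self z := by
    unfold dB
    rw [sd_self]
    exact Nat.cast_zero
  symm z w := by
    unfold dB
    rw [sd_symm]
  tri z w u := by
    unfold dB
    exact_mod_cast sd_tri _ _ _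

/-- indicator of a block -/
noncomputable def ib (n ξ : ℕ) (β : ZMod n × ZMod n) (z : V N) : ℝ :=
  if bk n ξ z = β then 1 else 0

/-- the block class: `g` block-constant, Lipschitz for the block distance, bounded by `B`; `chi`
block-constant with values in `[0,1]` (arbitrary) -/
def BC (n ξ : ℕ) [NeZero n] (L B : ℝ) (ρ : V N → ℝ) : Set (V N → ℝ) :=
  {f | ∃ γ κ : ZMod n × ZMod n → ℝ, (∀ β β', |γ β - γ β'| ≤ L * sd β β') ∧ (∀ β, |γ β| ≤ B) ∧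
    (∀ β, 0 ≤ κ β ∧ κ β ≤ 1) ∧ f = fun z => γ (bk n ξ z) + κ (bk n ξ z) * ρ z}

theorem BC_sub {L B : ℝ} {ρ : V N → ℝ} : BC n ξ L B ρ ⊆ Cls (dB n ξ) L 1 B ρ := by
  rintro f ⟨γ, κ, h1, h2, h3, rfl⟩
  refine ⟨fun z => γ (bk n ξ z), fun z => κ (bk n ξ z), fun z w => h1 _ _, fun z => h2 _,
    fun z w => ?_, fun z => (h3 _).1, fun z => (h3 _).2, rfl⟩
  unfold dB
  rcases Nat.eq_zero_or_pos (sd (bk n ξ z) (bk n ξ w)) with h | h
  · have e : bk n ξ z = bk n ξ w := by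
      have h4 : sn (bk n ξ w - bk n ξ z) = 0 := h
      unfold TM.H459.sn at h4
      have h5 : (bk n ξ w - bk n ξ z).1.valMinAbs.natAbs = 0 := by
        have := le_max_left (bk n ξ w - bk n ξ z).1.valMinAbs.natAbs
          (bk n ξ w - bk n ξ z).2.valMinAbs.natAbs
        omega
      have h6 : (bk n ξ w - bk n ξ z).2.valMinAbs.natAbs = 0 := by
        have := le_max_right (bk n ξ w - bk n ξ z).1.valMinAbs.natAbs
          (bk n ξ w - bk n ξ z).2.valMinAbs.natAbs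
        omega
      rw [Int.natAbs_eq_zero, ZMod.valMinAbs_eq_zero] at h5 h6
      have h7 : bk n ξ w - bk n ξ z = 0 := Prod.ext h5 h6
      exact (sub_eq_zero.1 h7).symm
    show |κ (bk n ξ z) - κ (bk n ξ w)| ≤ _
    rw [e, sub_self, abs_zero]
    positivity
  · have h4 : (1 : ℝ) ≤ (sd (bk n ξ z) (bk n ξ w) : ℝ) := by exact_mod_cast h
    have h5 := h3 (bk n ξ z)
    have h6 := h3 (bk n ξ w)
    rw [one_mul]
    refine le_trans ?_ h4
    show |κ (bk n ξ z) - κ (bk n ξ w)| ≤ 1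
    rw [abs_le]
    constructor <;> linarith [h5.1, h5.2, h6.1, h6.2]

/-- centre of a block -/
def cB (N n ξ : ℕ) [NeZero N] (β : ZMod n × ZMod n) : V N :=
  (((β.1.val * ξ + ξ / 2 : ℕ) : ZMod N), ((β.2.val * ξ + ξ / 2 : ℕ) : ZMod N))

theorem val_cB (hξ : 0 < ξ) (hN : N = n * ξ) (a : ZMod n) :
    ((a.val * ξ + ξ / 2 : ℕ) : ZMod N).val = a.val * ξ + ξ / 2 := by
  refine ZMod.val_cast_of_lt ?_
  have h1 := ZMod.val_lt a
  have h2 : (a.val + 1) * ξ ≤ n * ξ := Nat.mul_le_mul_right ξ h1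
  have h3 : ξ / 2 < ξ := Nat.div_lt_self hξ (by norm_num)
  rw [add_mul, one_mul] at h2
  omega

theorem bk_cB (hξ : 0 < ξ) (hN : N = n * ξ) (β : ZMod n × ZMod n) :
    bk n ξ (cB N n ξ β) = β := by
  have key : ∀ a : ZMod n, bk1 n ξ ((a.val * ξ + ξ / 2 : ℕ) : ZMod N) = a := by
    intro a
    unfold TM.H459.bk1
    rw [val_cB hξ hN]
    have h : (a.val * ξ + ξ / 2) / ξ = a.val := by
      rw [add_comm, Nat.add_mul_div_right _ _ hξ,
        Nat.div_eq_of_lt (Nat.div_lt_self hξ (by norm_num)), zero_add]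
    rw [h, ZMod.natCast_zmod_val]
  unfold TM.H459.bk cB
  exact Prod.ext (key β.1) (key β.2)

theorem tn_cB (hξ : 0 < ξ) (hN : N = n * ξ) {β : ZMod n × ZMod n} {z : V N}
    (hz : bk n ξ z = β) : tn (z - cB N n ξ β) ≤ ξ := by
  have key : ∀ (u : ZMod N) (a : ZMod n), bk1 n ξ u = a →
      2 * (u - ((a.val * ξ + ξ / 2 : ℕ) : ZMod N)).valMinAbs.natAbs ≤ ξ := by
    intro u a ha
    have h1 : u.val / ξ = a.val := by
      unfold TM.H459.bk1 at ha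
      have h2 : u.val / ξ < n := by
        rw [Nat.div_lt_iff_lt_mul hξ, ← hN]
        exact ZMod.val_lt u
      rw [← ha, ZMod.val_cast_of_lt h2]
    have h3 : u = (((u.val : ℕ) : ℤ) : ZMod N) := by
      rw [Int.cast_natCast, ZMod.natCast_zmod_val]
    have h4 : u - ((a.val * ξ + ξ / 2 : ℕ) : ZMod N) =
        (((u.val : ℤ) - ((a.val * ξ + ξ / 2 : ℕ) : ℤ) : ℤ) : ZMod N) := by
      rw [Int.cast_sub, ← h3, Int.cast_natCast]
    have h5 := TM.H459.vma_le_of_eq _ _ h4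
    have h6 := Nat.div_add_mod u.val ξ
    rw [h1] at h6
    have h7 := Nat.mod_lt u.val hξ
    have h8 : ξ * a.val = a.val * ξ := Nat.mul_comm _ _
    have h9 : ((u.val : ℤ) - ((a.val * ξ + ξ / 2 : ℕ) : ℤ)).natAbs * 2 ≤ ξ := by
      omega
    omega
  have h1 := key z.1 β.1 (by rw [← hz]; rfl)
  have h2 := key z.2 β.2 (by rw [← hz]; rfl)
  have h3 := TM.H459.tn_le_sn (z - cB N n ξ β)
  have h4 : 2 * sn (z - cB N n ξ β) ≤ ξ := by
    unfold TM.H459.sn cB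
    rw [Prod.fst_sub, Prod.snd_sub]
    rcases max_choice (z.1 - ((β.1.val * ξ + ξ / 2 : ℕ) : ZMod N)).valMinAbs.natAbs
      (z.2 - ((β.2.val * ξ + ξ / 2 : ℕ) : ZMod N)).valMinAbs.natAbs with h | h
    · rw [h]
      exact h1
    · rw [h]
      exact h2
  have h5 : (2 : ℝ) * sn (z - cB N n ξ β) ≤ ξ := by exact_mod_cast h4
  linarith

theorem abs_sum_ib_le (hξ : 0 < ξ) (hN : N = n * ξ) (β : ZMod n × ZMod n) :
    |∑ z : V N, ((1 / (ξ : ℝ) ^ 2) • (ib n ξ β : V N → ℝ)) z| ≤ 1 := by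
  classical
  have hξR : (0 : ℝ) < ξ := by exact_mod_cast hξ
  have e1 : ∑ z : V N, ((1 / (ξ : ℝ) ^ 2) • (ib n ξ β : V N → ℝ)) z =
      1 / (ξ : ℝ) ^ 2 * ((Finset.univ.filter fun z : V N => bk n ξ z = β).card : ℝ) := by
    simp only [Pi.smul_apply, smul_eq_mul, ib, mul_ite, mul_one, mul_zero]
    rw [← Finset.sum_filter, Finset.sum_const, nsmul_eq_mul, mul_comm]
  have h1 : (Finset.univ.filter fun z : V N => bk n ξ z = β).card ≤
      (Finset.range ξ ×ˢ Finset.range ξ).card := by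
    refine Finset.card_le_card_of_injOn (fun z => (z.1.val % ξ, z.2.val % ξ)) ?_ ?_
    · intro z _
      simp only [Finset.coe_product, Finset.coe_range, Set.mem_prod, Set.mem_Iio]
      exact ⟨Nat.mod_lt _ hξ, Nat.mod_lt _ hξ⟩
    · intro z hz w hw h
      simp only [Finset.coe_filter, Finset.mem_univ, true_and, Set.mem_ofPred_eq] at hz hw
      simp only [Prod.mk.injEq] at h
      have key : ∀ u v : ZMod N, bk1 n ξ u = bk1 n ξ v → u.val % ξ = v.val % ξ → u = v := by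
        intro u v huv hm
        have h2 : ∀ u : ZMod N, u.val / ξ < n := fun u => by
          rw [Nat.div_lt_iff_lt_mul hξ, ← hN]
          exact ZMod.val_lt u
        unfold TM.H459.bk1 at huv
        have h3 := congrArg ZMod.val huv
        rw [ZMod.val_cast_of_lt (h2 u), ZMod.val_cast_of_lt (h2 v)] at h3
        apply ZMod.val_injective
        rw [← Nat.div_add_mod u.val ξ, ← Nat.div_add_mod v.val ξ, h3, hm]
      have hzw : bk n ξ z = bk n ξ w := hz.trans hw.symm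
      unfold TM.H459.bk at hzw
      rw [Prod.mk.injEq] at hzw
      exact Prod.ext (key _ _ hzw.1 h.1) (key _ _ hzw.2 h.2)
  rw [Finset.card_product, Finset.card_range] at h1
  rw [e1, abs_of_nonneg (by positivity)]
  have h2 : ((Finset.univ.filter fun z : V N => bk n ξ z = β).card : ℝ) ≤ (ξ : ℝ) * ξ := by
    exact_mod_cast h1
  rw [div_mul_eq_mul_div, one_mul, div_le_one (by positivity)]
  nlinarith

/-- a block-constant function from its values at the centres -/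
theorem sum_ib (hξ : 0 < ξ) (hN : N = n * ξ) {L : ℝ} {f : V N → ℝ} (hf : Ld (dB n ξ) L f)
    (z : V N) : f z = ∑ β : ZMod n × ZMod n, f (cB N n ξ β) * ib n ξ β z := by
  classical
  unfold ib
  simp only [mul_ite, mul_one, mul_zero]
  rw [Finset.sum_ite_eq, if_pos (Finset.mem_univ _)]
  have h1 := hf z (cB N n ξ (bk n ξ z))
  have h2 : dB n ξ z (cB N n ξ (bk n ξ z)) = 0 := by
    unfold dB
    rw [bk_cB hξ hN, sd_self]
    exact Nat.cast_zero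
  rw [h2, mul_zero] at h1
  have h3 := abs_eq_zero.1 (le_antisymm h1 (abs_nonneg _))
  linarith

/-- the bound of `R` at window fields by single block fields -/
theorem Rs_wnd (hb : 0 ≤ b) (hξ : 0 < ξ) (hN : N = n * ξ) {L A δ : ℝ} {D : ℕ}
    (hA : 0 < A) (hAL : L * D ≤ A) (hδ : 0 ≤ δ) {ρ : V N → ℝ}
    (h1 : ∀ β : ZMod n × ZMod n, Rs (wt N b (1 / (ξ : ℝ) ^ 2))
      ((8 * (4 * (D : ℝ) + 1) ^ 2) • ((1 / (ξ : ℝ) ^ 2) • fun z => ib n ξ β z * ρ z)) ≤ δ)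
    (h2 : ∀ β : ZMod n × ZMod n, Rs (wt N b (1 / (ξ : ℝ) ^ 2))
      ((8 * (4 * (D : ℝ) + 1) ^ 2 * A) • ((1 / (ξ : ℝ) ^ 2) • (ib n ξ β : V N → ℝ))) ≤ δ)
    (x0 : V N) {u : V N → ℝ} (hu : u ∈ Wnd (dB n ξ) L 1 D ρ x0) :
    Rs (wt N b (1 / (ξ : ℝ) ^ 2)) ((4 : ℝ) • ((1 / (ξ : ℝ) ^ 2) • u)) ≤ δ := by
  classical
  have hξR : (0 : ℝ) < ξ := by exact_mod_cast hξ
  have ht : (0 : ℝ) < 1 / (ξ : ℝ) ^ 2 := by positivity
  set t : ℝ := 1 / (ξ : ℝ) ^ 2 with htd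
  have hμ : EM (wt N b t) := em_wt (N := N) hb ht
  have he : Ev (wt N b t) := ev_wt
  have hK : PK (wt N b t) := pk_wt hb ht
  obtain ⟨v, χ, a1, a2, a3, a4, a5, a6, a7, rfl⟩ := hu
  set W : Finset (ZMod n × ZMod n) := ball (bk n ξ x0) (2 * D) with hW
  set M : ℝ := (4 * (D : ℝ) + 1) ^ 2 with hM
  have hM0 : 0 < M := by positivity
  have hWc : (W.card : ℝ) ≤ M := by
    have h3 := TM.H459.card_ball_le (bk n ξ x0) (2 * D)
    have h4 : (W.card : ℝ) ≤ ((2 * (2 * D) + 1) ^ 2 : ℕ) := by exact_mod_cast h3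
    refine h4.trans (le_of_eq ?_)
    rw [hM]
    push_cast
    ring
  have hfar : ∀ β, β ∉ W → v (cB N n ξ β) = 0 ∧ χ (cB N n ξ β) = 0 := by
    intro β hβ
    have h3 : 2 * (D : ℝ) ≤ dB n ξ x0 (cB N n ξ β) := by
      unfold dB
      rw [bk_cB hξ hN]
      rw [hW, mem_ball, not_le] at hβ
      exact_mod_cast hβ.le
    exact ⟨a6 _ h3, a7 _ h3⟩
  have ev : (8 : ℝ) • (t • v) = ∑ β ∈ W, (8 : ℝ) • (t • fun z => v (cB N n ξ β) * ib n ξ β z) := by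
    funext z
    simp only [Finset.sum_apply, Pi.smul_apply, smul_eq_mul]
    rw [← Finset.mul_sum, ← Finset.mul_sum]
    congr 2
    rw [sum_ib hξ hN a1 z]
    symm
    refine Finset.sum_subset (Finset.subset_univ _) fun β _ hβ => ?_
    rw [(hfar β hβ).1, zero_mul]
  have ec : (8 : ℝ) • (t • fun z => χ z * ρ z) =
      ∑ β ∈ W, (8 : ℝ) • (t • fun z => χ (cB N n ξ β) * (ib n ξ β z * ρ z)) := by
    funext z
    simp only [Finset.sum_apply, Pi.smul_apply, smul_eq_mul]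
    rw [← Finset.mul_sum, ← Finset.mul_sum]
    congr 2
    rw [sum_ib hξ hN a3 z, Finset.sum_mul]
    symm
    refine (Finset.sum_subset (Finset.subset_univ _) fun β _ hβ => ?_).trans
      (Finset.sum_congr rfl fun β _ => by ring)
    rw [(hfar β hβ).2, zero_mul]
  have r1 : Rs (wt N b t) ((8 : ℝ) • (t • v)) ≤ δ := by
    rw [ev]
    refine Rs_sum_le hμ he hK W _ hWc hδ fun β _ => ?_
    have e : M • (8 : ℝ) • (t • fun z : V N => v (cB N n ξ β) * ib n ξ β z) =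
        (v (cB N n ξ β) / A) • ((8 * M * A) • (t • (ib n ξ β : V N → ℝ))) := by
      funext z
      simp only [Pi.smul_apply, smul_eq_mul]
      field_simp
    rw [e]
    refine (Rs_abs_le hμ he hK _ ?_).trans (h2 β)
    rw [abs_div, abs_of_pos hA, div_le_one hA]
    exact (a2 _).trans hAL
  have r2 : Rs (wt N b t) ((8 : ℝ) • (t • fun z => χ z * ρ z)) ≤ δ := by
    rw [ec]
    refine Rs_sum_le hμ he hK W _ hWc hδ fun β _ => ?_
    have e : M • (8 : ℝ) • (t • fun z : V N => χ (cB N n ξ β) * (ib n ξ β z * ρ z)) =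
        χ (cB N n ξ β) • ((8 * M) • (t • fun z : V N => ib n ξ β z * ρ z)) := by
      funext z
      simp only [Pi.smul_apply, smul_eq_mul]
      ring
    rw [e]
    refine (Rs_abs_le hμ he hK _ ?_).trans (h1 β)
    rw [abs_of_nonneg (a4 _)]
    exact a5 _
  have h3 := Rs_half hμ he hK ((4 : ℝ) • (t • v)) ((4 : ℝ) • (t • fun z => χ z * ρ z))
  have e1 : (2 : ℝ) • (4 : ℝ) • (t • v) = (8 : ℝ) • (t • v) := by module
  have e2 : (2 : ℝ) • (4 : ℝ) • (t • fun z => χ z * ρ z) =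
      (8 : ℝ) • (t • fun z => χ z * ρ z) := by module
  have e3 : (4 : ℝ) • (t • v) + (4 : ℝ) • (t • fun z => χ z * ρ z) =
      (4 : ℝ) • (t • fun z => v z + χ z * ρ z) := by
    funext z
    simp only [Pi.add_apply, Pi.smul_apply, smul_eq_mul]
    ring
  rw [e1, e2, e3] at h3
  linarith

theorem dB_le (hξ : 0 < ξ) (hN : N = n * ξ) (D : ℕ) (x0 z : V N) (hz : sd x0 z ≤ D * ξ) :
    dB n ξ x0 z ≤ (D : ℝ) := by
  unfold dB
  have h3 := bk_le (n := n) hξ hN x0 z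
  have h4 : sd (bk n ξ x0) (bk n ξ z) ≤ D := by
    by_contra hcon
    rw [not_le] at hcon
    have h5 := Nat.mul_le_mul_left ξ hcon
    rw [Nat.mul_succ, Nat.mul_comm ξ D] at h5
    omega
  exact_mod_cast h4

/-- the bound of `R` on the block class from the decay of covariances and the window bounds -/
theorem R_block (hb : 0 < b) (hξ2 : 2 ≤ ξ) (hN : N = n * ξ) {y a C c : ℝ} (hc : 0 < c)
    (hC : 0 ≤ C) (hy0 : 0 ≤ y) (hQ : TM.H764.QU (ξ : ℝ) (TM.Spec.GT N b ξ) y a)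
    {L B R A δ : ℝ} {D : ℕ} {ρ : V N → ℝ} (hD : 1 ≤ D) (hL : 0 ≤ L) (hB : 0 ≤ B) (hR0 : 0 ≤ R)
    (hA : 1 ≤ A) (hρ : ∀ z, |ρ z| ≤ R) (hδ : 0 ≤ δ)
    (hCD : ∀ l : ℝ, 0 ≤ l → l ≤ 1 → ∀ f ∈ Cls (dB n ξ) L 1 B ρ,
      CD (wt N b (1 / (ξ : ℝ) ^ 2)) ξ C c ((1 / (ξ : ℝ) ^ 2) • (l • f)))
    (hwnd : ∀ x0, ∀ u ∈ Wnd (dB n ξ) L 1 (D : ℝ) ρ x0,
      Rs (wt N b (1 / (ξ : ℝ) ^ 2)) ((4 : ℝ) • ((1 / (ξ : ℝ) ^ 2) • u)) ≤ δ)
    (h1 : ∀ β : ZMod n × ZMod n, Rs (wt N b (1 / (ξ : ℝ) ^ 2))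
      ((8 * (4 * (D : ℝ) + 1) ^ 2) • ((1 / (ξ : ℝ) ^ 2) • fun z => ib n ξ β z * ρ z)) ≤ δ)
    (h2 : ∀ β : ZMod n × ZMod n, Rs (wt N b (1 / (ξ : ℝ) ^ 2))
      ((8 * (4 * (D : ℝ) + 1) ^ 2 * A) • ((1 / (ξ : ℝ) ^ 2) • (ib n ξ β : V N → ℝ))) ≤ δ)
    {R1 : ℝ} (hR1 : 0 ≤ R1) (hρ1 : ∀ β : ZMod n × ZMod n,
      |∑ z, ((1 / (ξ : ℝ) ^ 2) • fun z => ib n ξ β z * ρ z) z| ≤ R1)
    {f : V N → ℝ} (hf : f ∈ BC n ξ L B ρ) :
    Rs (wt N b (1 / (ξ : ℝ) ^ 2)) ((1 / (ξ : ℝ) ^ 2) • f) ≤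
      (n : ℝ) ^ 2 * (B + 1) * (δ + (n : ℝ) ^ 2 * y + (B + 1) * (R1 + 1) * y +
        4 * (B + R) * (R + 1) * (Kl C c * Real.exp (-(c / 2 * D)))) := by
  classical
  have hξ : 0 < ξ := by omega
  have hξR : (0 : ℝ) < ξ := by exact_mod_cast hξ
  have ht : (0 : ℝ) < 1 / (ξ : ℝ) ^ 2 := by positivity
  have hnN : ξ ≤ N := by
    rw [hN]
    exact Nat.le_mul_of_pos_left ξ (Nat.pos_of_ne_zero (NeZero.ne n))
  have hDR : (1 : ℝ) ≤ D := by exact_mod_cast hD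
  have hμ : EM (wt N b (1 / (ξ : ℝ) ^ 2)) := em_wt (N := N) hb.le ht
  have he : Ev (wt N b (1 / (ξ : ℝ) ^ 2)) := ev_wt
  have hK : PK (wt N b (1 / (ξ : ℝ) ^ 2)) := pk_wt hb.le ht
  have hdq := dB_le (N := N) (n := n) hξ hN D
  obtain ⟨γ, κ, g1, g2, g3, hfe⟩ := hf
  have hf' : f ∈ Cls (dB n ξ) L 1 B ρ := BC_sub ⟨γ, κ, g1, g2, g3, hfe⟩
  have hDM : (4 : ℝ) ≤ 8 * (4 * (D : ℝ) + 1) ^ 2 := by nlinarith
  have hDMA : (4 : ℝ) ≤ 8 * (4 * (D : ℝ) + 1) ^ 2 * A := by nlinarith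
  have hib : ∀ (β : ZMod n × ZMod n) (z : V N), |ib n ξ β z| ≤ 1 := by
    intro β z
    unfold ib
    split_ifs <;> norm_num
  have key2 := lg2 (N := N) hb hξ2 hnN (y := y) hc hC hQ (pm_dB n ξ) (L := L)
    (K := 1) (B := B) (R := R) (q := (D : ℝ)) (n := D * ξ) hL zero_le_one hB hR0 (by positivity)
    (by linarith) hdq hρ hCD hwnd hf'
    (Finset.univ : Finset ((ZMod n × ZMod n) × Bool))
    (fun i => if i.2 then κ i.1 else γ i.1)
    (fun i z => if i.2 then ib n ξ i.1 z * ρ z else ib n ξ i.1 z)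
    (fun i => cB N n ξ i.1) (E := R + 1) (by positivity)
    (fun i _ z => by
      have h3 := hib i.1 z
      have h4 := hρ z
      rcases i.2 with _ | _
      · simp only [Bool.false_eq_true, if_false]
        linarith
      · simp only [if_true]
        rw [abs_mul]
        have h5 : 0 ≤ |ρ z| := abs_nonneg _
        nlinarith)
    (fun i _ z hz => by
      refine tn_cB hξ hN ?_
      by_contra hne
      refine hz ?_
      unfold ib
      rw [if_neg hne]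
      simp)
    (fun i _ => by
      rcases hi : i.2 with _ | _
      · have h3 := (Rs_ray_mono hμ he hK ((1 / (ξ : ℝ) ^ 2) • (ib n ξ i.1 : V N → ℝ))
          (by norm_num : (0 : ℝ) ≤ 4) hDMA).trans (h2 i.1)
        simpa using h3
      · have h3 := (Rs_ray_mono hμ he hK ((1 / (ξ : ℝ) ^ 2) • fun z => ib n ξ i.1 z * ρ z)
          (by norm_num : (0 : ℝ) ≤ 4) hDM).trans (h1 i.1)
        simpa using h3)
    (S0 := R1 + 1) (by positivity)
    (fun i _ => by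
      rcases hi : i.2 with _ | _
      · have h3 := abs_sum_ib_le (N := N) hξ hN i.1
        simp only [Bool.false_eq_true, if_false]
        linarith
      · have h3 := hρ1 i.1
        simp only [if_true]
        linarith)
    (by
      funext z
      rw [Fintype.sum_prod_type]
      simp only [Fintype.sum_bool, if_true, Bool.false_eq_true, if_false]
      rw [hfe]
      unfold ib
      simp only [ite_mul, one_mul, zero_mul, mul_ite, mul_one, mul_zero]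
      rw [Finset.sum_add_distrib, Finset.sum_ite_eq, Finset.sum_ite_eq,
        if_pos (Finset.mem_univ _), if_pos (Finset.mem_univ _)]
      ring)
  refine key2.trans ?_
  have hsum : ∑ i : (ZMod n × ZMod n) × Bool, |if i.2 then κ i.1 else γ i.1| ≤
      (n : ℝ) ^ 2 * (B + 1) := by
    rw [Fintype.sum_prod_type]
    simp only [Fintype.sum_bool, if_true, Bool.false_eq_true, if_false]
    have h3 : ∀ β : ZMod n × ZMod n, |κ β| + |γ β| ≤ B + 1 := by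
      intro β
      rw [abs_of_nonneg (g3 β).1]
      have := (g3 β).2
      have := g2 β
      linarith
    refine (Finset.sum_le_sum fun β _ => h3 β).trans (le_of_eq ?_)
    rw [Finset.sum_const, Finset.card_univ, nsmul_eq_mul, Fintype.card_prod, ZMod.card]
    push_cast
    ring
  have hE2 : Real.exp (-(c / 2 * ((D * ξ : ℕ) : ℝ) / ξ)) = Real.exp (-(c / 2 * D)) := by
    congr 2
    push_cast
    field_simp
  rw [hE2]
  have hNn : (N : ℝ) ^ 2 / (4 * (ξ : ℝ) ^ 2) * y ≤ (n : ℝ) ^ 2 * y := by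
    refine mul_le_mul_of_nonneg_right ?_ hy0
    rw [div_le_iff₀ (by positivity), hN]
    push_cast
    nlinarith [mul_nonneg (sq_nonneg (n : ℝ)) (sq_nonneg (ξ : ℝ))]
  have hKl0 : 0 ≤ Kl C c := by
    unfold Kl
    have := (Ks_pos (half_pos hc)).le
    positivity
  refine mul_le_mul hsum ?_ ?_ (by positivity)
  · linarith
  · positivity

end

/-- **LG (final form)**: single block fields on the torus itself control `R` and the decay of
covariances for every field of the block class on the whole torus; `R` bounds `sup |rho|` (it only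
multiplies the exponentially small term), `R1` bounds the block averages of `rho` -/
theorem lg_avg {b1 : ℝ} (hb1 : 0 < b1) (b2 a : ℝ) (hA6 : TM.Spec.ThmA6 b1 b2 a) :
    ∃ W₀ : ℝ, ∀ W : ℝ, W₀ ≤ W → ∃ c C η τ₀ ys : ℝ, ∃ X : ℕ, 0 < c ∧ 0 < C ∧ 0 < η ∧ 0 < τ₀ ∧
      0 < ys ∧ 1 ≤ X ∧
      ∀ (N : ℕ) [NeZero N] (b : ℝ) (ξ : ℕ) (y : ℝ),
        TM.Spec.Rng b1 b2 a W ys X N b ξ y → (N : ℝ) ^ 2 * y ≤ η * (ξ : ℝ) ^ 2 →
        ∀ (n : ℕ) [NeZero n], N = n * ξ → ∀ (D : ℕ) (L B R R1 A δ : ℝ) (ρ : V N → ℝ),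
          1 ≤ D → 0 ≤ L → 0 ≤ B → 0 ≤ R → 0 ≤ R1 → 1 ≤ A → L * D ≤ A → (∀ z, |ρ z| ≤ R) →
          (∀ β : ZMod n × ZMod n,
            |∑ z, ((1 / (ξ : ℝ) ^ 2) • fun z => ib n ξ β z * ρ z) z| ≤ R1) →
          (B + R + 1) * (C * Real.exp (-(c * D))) ≤ 1 → 0 ≤ δ → δ ≤ τ₀ →
          (∀ β : ZMod n × ZMod n, Rs (wt N b (1 / (ξ : ℝ) ^ 2))
            ((8 * (4 * (D : ℝ) + 1) ^ 2) • ((1 / (ξ : ℝ) ^ 2) • fun z => ib n ξ β z * ρ z)) ≤ δ) →
          (∀ β : ZMod n × ZMod n, Rs (wt N b (1 / (ξ : ℝ) ^ 2))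
            ((8 * (4 * (D : ℝ) + 1) ^ 2 * A) • ((1 / (ξ : ℝ) ^ 2) • (ib n ξ β : V N → ℝ))) ≤ δ) →
          ∀ f ∈ BC n ξ L B ρ,
            (∀ l : ℝ, 0 ≤ l → l ≤ 1 →
              CD (wt N b (1 / (ξ : ℝ) ^ 2)) ξ C c ((1 / (ξ : ℝ) ^ 2) • (l • f))) ∧
            Rs (wt N b (1 / (ξ : ℝ) ^ 2)) ((1 / (ξ : ℝ) ^ 2) • f) ≤
              (n : ℝ) ^ 2 * (B + 1) * (δ + (n : ℝ) ^ 2 * y + (B + 1) * (R1 + 1) * y +
                4 * (B + R) * (R + 1) * (C * Real.exp (-(c * D)))) := by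
  obtain ⟨W₀, hW₀⟩ := lg1_of hb1 b2 a hA6
  refine ⟨W₀, fun W hW => ?_⟩
  obtain ⟨c, C, η, τ₀, ys, X, hc, hC, hη, hτ₀, hys, hX, h⟩ := hW₀ W hW
  set C' : ℝ := max (4 * C) (Kl C c) with hC'
  have hC'1 : 4 * C ≤ C' := le_max_left _ _
  have hC'2 : Kl C c ≤ C' := le_max_right _ _
  have hC'0 : 0 < C' := lt_of_lt_of_le (by positivity) hC'1
  refine ⟨c / 2, C', η, τ₀, ys, max X 2, by positivity, hC'0, hη, hτ₀, hys,
    hX.trans (le_max_left _ _), ?_⟩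
  intro N _ b ξ y hR hNy n _ hN D L B R R1 A δ ρ hD hL hB hR0 hR1 hA hAL hρ hρ1 hsmall hδ hδτ h1
    h2 f hf
  have hbpos : 0 < b := hb1.trans_le hR.hb1
  have hξ2 : 2 ≤ ξ := (le_max_right _ _).trans hR.hX
  have hξ : 0 < ξ := by omega
  have hξR : (0 : ℝ) < ξ := by exact_mod_cast hξ
  have ht : (0 : ℝ) < 1 / (ξ : ℝ) ^ 2 := by positivity
  have hR' : TM.Spec.Rng b1 b2 a W ys X N b ξ y := TM.H857.rng_mono hR le_rfl le_rfl
    (le_max_left _ _)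
  have hnN : ξ ≤ N := by
    rw [hN]
    exact Nat.le_mul_of_pos_left ξ (Nat.pos_of_ne_zero (NeZero.ne n))
  have hDR : (1 : ℝ) ≤ D := by exact_mod_cast hD
  have hA0 : 0 < A := lt_of_lt_of_le one_pos hA
  have hμ : EM (wt N b (1 / (ξ : ℝ) ^ 2)) := em_wt (N := N) hbpos.le ht
  have he : Ev (wt N b (1 / (ξ : ℝ) ^ 2)) := ev_wt
  have hK : PK (wt N b (1 / (ξ : ℝ) ^ 2)) := pk_wt hbpos.le ht
  have hwnd : ∀ x0, ∀ u ∈ Wnd (dB n ξ) L 1 (D : ℝ) ρ x0,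
      Rs (wt N b (1 / (ξ : ℝ) ^ 2)) ((4 : ℝ) • ((1 / (ξ : ℝ) ^ 2) • u)) ≤ δ :=
    fun x0 u hu => Rs_wnd hbpos.le hξ hN hA0 hAL hδ h1 h2 x0 hu
  have hT : ∀ x0, ∀ u ∈ Wnd (dB n ξ) L 1 (D : ℝ) ρ x0, Tf N b ξ u ≤ τ₀ := by
    intro x0 u hu
    rw [Tf_eq_Tq hbpos.le hξ]
    have h3 := H612.Tq_le hμ he hK ((1 / (ξ : ℝ) ^ 2) • u)
    have h4 := Rs_ray_mono hμ he hK ((1 / (ξ : ℝ) ^ 2) • u) zero_le_two
      (show (2 : ℝ) ≤ 4 by norm_num)
    exact h3.trans (h4.trans ((hwnd x0 u hu).trans hδτ))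
  have hdq := dB_le (N := N) (n := n) hξ hN D
  have hexpD : Real.exp (-(c * ((D * ξ : ℕ) : ℝ) / ξ)) ≤ Real.exp (-(c / 2 * D)) := by
    refine Real.exp_le_exp.2 (neg_le_neg ?_)
    have e : c * ((D * ξ : ℕ) : ℝ) / ξ = c * D := by
      push_cast
      field_simp
    rw [e]
    nlinarith
  have hm : (0 : ℕ) < ⌈2 * (B + R)⌉₊ + 1 := Nat.succ_pos _
  have hmle : 2 * (B + R) ≤ ((⌈2 * (B + R)⌉₊ + 1 : ℕ) : ℝ) := by
    push_cast
    have := Nat.le_ceil (2 * (B + R))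
    linarith
  have hmge : ((⌈2 * (B + R)⌉₊ + 1 : ℕ) : ℝ) ≤ 2 * (B + R) + 2 := by
    push_cast
    have := Nat.ceil_lt_add_one (show 0 ≤ 2 * (B + R) by positivity)
    linarith
  have hcond : ((⌈2 * (B + R)⌉₊ + 1 : ℕ) : ℝ) *
      (C * Real.exp (-(c * ((D * ξ : ℕ) : ℝ) / ξ))) ≤ 1 := by
    have h3 : C * Real.exp (-(c * ((D * ξ : ℕ) : ℝ) / ξ)) ≤ C * Real.exp (-(c / 2 * D)) :=
      mul_le_mul_of_nonneg_left hexpD hC.le
    have h4 : 0 ≤ C * Real.exp (-(c / 2 * D)) := by positivity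
    have h5 : (4 * C) * Real.exp (-(c / 2 * D)) ≤ C' * Real.exp (-(c / 2 * D)) :=
      mul_le_mul_of_nonneg_right hC'1 (Real.exp_pos _).le
    calc ((⌈2 * (B + R)⌉₊ + 1 : ℕ) : ℝ) * (C * Real.exp (-(c * ((D * ξ : ℕ) : ℝ) / ξ)))
        ≤ (2 * (B + R) + 2) * (C * Real.exp (-(c / 2 * D))) :=
          mul_le_mul hmge h3 (by positivity) (by positivity)
      _ ≤ (B + R + 1) * (4 * C * Real.exp (-(c / 2 * D))) := by nlinarith
      _ ≤ (B + R + 1) * (C' * Real.exp (-(c / 2 * D))) :=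
          mul_le_mul_of_nonneg_left h5 (by positivity)
      _ ≤ 1 := hsmall
  have key := h N b hbpos.le ξ y hR' hNy (dB n ξ) L 1 B R (D : ℝ) (D * ξ) (⌈2 * (B + R)⌉₊ + 1) ρ
    (pm_dB n ξ) hL zero_le_one (by positivity) (by linarith) hdq hρ hm hmle hcond hT
  have hCD : ∀ l : ℝ, 0 ≤ l → l ≤ 1 → ∀ f ∈ Cls (dB n ξ) L 1 B ρ,
      CD (wt N b (1 / (ξ : ℝ) ^ 2)) ξ C c ((1 / (ξ : ℝ) ^ 2) • (l • f)) :=
    fun l hl0 hl1 f hf => CD_of_Cf (key l hl0 hl1 f hf).2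
  refine ⟨fun l hl0 hl1 => ?_, ?_⟩
  · intro x₀ y₀ u v hu hv hsu hsv
    have h3 := hCD l hl0 hl1 f (BC_sub hf) x₀ y₀ u v hu hv hsu hsv
    refine h3.trans ?_
    have h4 : Real.exp (-(c * tn (x₀ - y₀) / ξ)) ≤ Real.exp (-(c / 2 * tn (x₀ - y₀) / ξ)) := by
      refine Real.exp_le_exp.2 (neg_le_neg ?_)
      have h6 : 0 ≤ tn (x₀ - y₀) := tn_nonneg _
      have h7 : c / 2 ≤ c := by linarith
      gcongr
    have h5 : C ≤ C' := by linarith
    exact mul_le_mul h5 h4 (Real.exp_pos _).le hC'0.le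
  · refine (R_block hbpos hξ2 hN hc hC.le hR.y0 hR.hyp.qu hD hL hB hR0 hA hρ hδ hCD hwnd h1 h2
      hR1 hρ1 hf).trans ?_
    refine mul_le_mul_of_nonneg_left ?_ (by positivity)
    have hKl : 4 * (B + R) * (R + 1) * (Kl C c * Real.exp (-(c / 2 * D))) ≤
        4 * (B + R) * (R + 1) * (C' * Real.exp (-(c / 2 * D))) := by
      refine mul_le_mul_of_nonneg_left ?_ (by positivity)
      exact mul_le_mul_of_nonneg_right hC'2 (Real.exp_pos _).le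
    linarith

theorem abs_avg_le {N : ℕ} [NeZero N] {n : ℕ} [NeZero n] {ξ : ℕ} (hξ : 0 < ξ) (hN : N = n * ξ)
    {R : ℝ} {ρ : V N → ℝ} (hρ : ∀ z, |ρ z| ≤ R) (β : ZMod n × ZMod n) :
    |∑ z, ((1 / (ξ : ℝ) ^ 2) • fun z => ib n ξ β z * ρ z) z| ≤ R := by
  have h1 := abs_sum_ib_le (N := N) hξ hN β
  have hib : ∀ z : V N, 0 ≤ ((1 / (ξ : ℝ) ^ 2) • (ib n ξ β : V N → ℝ)) z := by
    intro z
    rw [Pi.smul_apply, smul_eq_mul]
    unfold ib
    split_ifs <;> positivity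
  have h2 : ∑ z : V N, ((1 / (ξ : ℝ) ^ 2) • (ib n ξ β : V N → ℝ)) z ≤ 1 :=
    (le_abs_self _).trans h1
  have hR : 0 ≤ R := (abs_nonneg _).trans (hρ 0)
  refine (Finset.abs_sum_le_sum_abs _ _).trans ?_
  have h3 : ∀ z : V N, |((1 / (ξ : ℝ) ^ 2) • fun z => ib n ξ β z * ρ z) z| ≤
      ((1 / (ξ : ℝ) ^ 2) • (ib n ξ β : V N → ℝ)) z * R := by
    intro z
    have e : ((1 / (ξ : ℝ) ^ 2) • fun z => ib n ξ β z * ρ z) z =
        ((1 / (ξ : ℝ) ^ 2) • (ib n ξ β : V N → ℝ)) z * ρ z := by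
      simp only [Pi.smul_apply, smul_eq_mul]
      ring
    rw [e, abs_mul, abs_of_nonneg (hib z)]
    exact mul_le_mul_of_nonneg_left (hρ z) (hib z)
  refine (Finset.sum_le_sum fun z _ => h3 z).trans ?_
  rw [← Finset.sum_mul]
  nlinarith

/-- LG with the sup norm of `rho` in the term of first order -/
theorem lg_of {b1 : ℝ} (hb1 : 0 < b1) (b2 a : ℝ) (hA6 : TM.Spec.ThmA6 b1 b2 a) :
    ∃ W₀ : ℝ, ∀ W : ℝ, W₀ ≤ W → ∃ c C η τ₀ ys : ℝ, ∃ X : ℕ, 0 < c ∧ 0 < C ∧ 0 < η ∧ 0 < τ₀ ∧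
      0 < ys ∧ 1 ≤ X ∧
      ∀ (N : ℕ) [NeZero N] (b : ℝ) (ξ : ℕ) (y : ℝ),
        TM.Spec.Rng b1 b2 a W ys X N b ξ y → (N : ℝ) ^ 2 * y ≤ η * (ξ : ℝ) ^ 2 →
        ∀ (n : ℕ) [NeZero n], N = n * ξ → ∀ (D : ℕ) (L B R A δ : ℝ) (ρ : V N → ℝ),
          1 ≤ D → 0 ≤ L → 0 ≤ B → 0 ≤ R → 1 ≤ A → L * D ≤ A → (∀ z, |ρ z| ≤ R) →
          (B + R + 1) * (C * Real.exp (-(c * D))) ≤ 1 → 0 ≤ δ → δ ≤ τ₀ →
          (∀ β : ZMod n × ZMod n, Rs (wt N b (1 / (ξ : ℝ) ^ 2))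
            ((8 * (4 * (D : ℝ) + 1) ^ 2) • ((1 / (ξ : ℝ) ^ 2) • fun z => ib n ξ β z * ρ z)) ≤ δ) →
          (∀ β : ZMod n × ZMod n, Rs (wt N b (1 / (ξ : ℝ) ^ 2))
            ((8 * (4 * (D : ℝ) + 1) ^ 2 * A) • ((1 / (ξ : ℝ) ^ 2) • (ib n ξ β : V N → ℝ))) ≤ δ) →
          ∀ f ∈ BC n ξ L B ρ,
            (∀ l : ℝ, 0 ≤ l → l ≤ 1 →
              CD (wt N b (1 / (ξ : ℝ) ^ 2)) ξ C c ((1 / (ξ : ℝ) ^ 2) • (l • f))) ∧
            Rs (wt N b (1 / (ξ : ℝ) ^ 2)) ((1 / (ξ : ℝ) ^ 2) • f) ≤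
              (n : ℝ) ^ 2 * (B + 1) * (δ + (n : ℝ) ^ 2 * y + 9 * (B + 1) * (R + 1) * y +
                4 * (B + R) * (R + 1) * (C * Real.exp (-(c * D)))) := by
  obtain ⟨W₀, hW₀⟩ := lg_avg hb1 b2 a hA6
  refine ⟨W₀, fun W hW => ?_⟩
  obtain ⟨c, C, η, τ₀, ys, X, hc, hC, hη, hτ₀, hys, hX, h⟩ := hW₀ W hW
  refine ⟨c, C, η, τ₀, ys, max X 1, hc, hC, hη, hτ₀, hys, le_max_right _ _, ?_⟩
  intro N _ b ξ y hR hNy n _ hN D L B R A δ ρ hD hL hB hR0 hA hAL hρ hsmall hδ hδτ h1 h2 f hf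
  have hξ : 0 < ξ := by
    have := (le_max_right X 1).trans hR.hX
    omega
  have hR' : TM.Spec.Rng b1 b2 a W ys X N b ξ y := TM.H857.rng_mono hR le_rfl le_rfl
    (le_max_left _ _)
  have key := h N b ξ y hR' hNy n hN D L B R R A δ ρ hD hL hB hR0 hR0 hA hAL hρ
    (abs_avg_le hξ hN hρ) hsmall hδ hδτ h1 h2 f hf
  refine ⟨key.1, key.2.trans ?_⟩
  refine mul_le_mul_of_nonneg_left ?_ (by positivity)
  have hy := hR.y0
  have h3 : (B + 1) * (R + 1) * y ≤ 9 * (B + 1) * (R + 1) * y := by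
    have : 0 ≤ (B + 1) * (R + 1) * y := by positivity
    nlinarith
  linarith

end Vale.Agent.P159.H789
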