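import Mathlib
import Vale.Agent.P159.TM.H821.Dup

/-!
P159, helper789: E1 as positive semidefiniteness.  For a function `Z` of the duplication class the
kernel `(a, c) ↦ Z (a + c) * Z (a - c)` is positive semidefinite (`psdk`); consequences: the
Cauchy-Schwarz inequality relative to the origin (`cs0`) and the metric inequality (`met`).
-/

open scoped ENNReal
open Finset

namespace Vale.Agent.P159.H789

/-- the kernel -/
def kk {A : Type*} [AddCommGroup A] (Z : A → ℝ) (a c : A) : ℝ := Z (a + c) * Z (a - c)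

/-- the kernel `Z (a+c) * Z (a-c)` is positive semidefinite -/
def PSDK {A : Type*} [AddCommGroup A] (Z : A → ℝ) : Prop :=
  ∀ (n : ℕ) (p : Fin n → A) (x : Fin n → ℝ), 0 ≤ ∑ i, ∑ j, x i * x j * kk Z (p i) (p j)

theorem psdk {A : Type} [AddCommGroup A] {φ : A → ℝ≥0∞} (h : TM.H821.Dup φ)
    (hf : ∀ a, φ a ≠ ⊤) : PSDK fun a => (φ a).toReal := by
  obtain ⟨K, c, G, hG⟩ := h
  intro n p x
  -- the real version of the expansion
  have hne : ∀ a b : A, ∑' k, c k * (G k (a + b) * G k (a - b)) ≠ ⊤ := fun a b => by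
    rw [← hG]
    exact ENNReal.mul_ne_top (hf a) (hf b)
  have hterm : ∀ (a b : A) (k : K), c k * (G k (a + b) * G k (a - b)) ≠ ⊤ := fun a b k =>
    ENNReal.ne_top_of_tsum_ne_top (hne a b) k
  have hS : ∀ a b : A, Summable fun k => (c k).toReal * ((G k (a + b)).toReal *
      (G k (a - b)).toReal) := fun a b => by
    have := ENNReal.summable_toReal (hne a b)
    simpa only [ENNReal.toReal_mul] using this
  have hE : ∀ a b : A, (φ a).toReal * (φ b).toReal = ∑' k, (c k).toReal *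
      ((G k (a + b)).toReal * (G k (a - b)).toReal) := fun a b => by
    rw [← ENNReal.toReal_mul, hG, ENNReal.tsum_toReal_eq (hterm a b)]
    simp only [ENNReal.toReal_mul]
  set g : Fin n → K → ℝ := fun i k => (G k (p i + p i)).toReal with hg
  have hS' : ∀ i j, Summable fun k => (c k).toReal * (g i k * g j k) := fun i j => by
    have := hS (p i + p j) (p i - p j)
    have e1 : p i + p j + (p i - p j) = p i + p i := by abel
    have e2 : p i + p j - (p i - p j) = p j + p j := by abel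
    simpa only [e1, e2] using this
  have hE' : ∀ i j, (φ (p i + p j)).toReal * (φ (p i - p j)).toReal =
      ∑' k, (c k).toReal * (g i k * g j k) := fun i j => by
    rw [hE]
    have e1 : p i + p j + (p i - p j) = p i + p i := by abel
    have e2 : p i + p j - (p i - p j) = p j + p j := by abel
    simp only [e1, e2, hg]
  have hs : HasSum (fun k => ∑ i, ∑ j, x i * x j * ((c k).toReal * (g i k * g j k)))
      (∑ i, ∑ j, x i * x j * ((φ (p i + p j)).toReal * (φ (p i - p j)).toReal)) := by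
    refine hasSum_sum fun i _ => hasSum_sum fun j _ => ?_
    rw [hE']
    exact (hS' i j).hasSum.mul_left _
  have hs' : HasSum (fun k => ∑ i, ∑ j, x i * x j * ((c k).toReal * (g i k * g j k)))
      (∑ i, ∑ j, x i * x j * kk (fun a => (φ a).toReal) (p i) (p j)) := hs
  refine hs'.nonneg fun k => ?_
  have : ∑ i, ∑ j, x i * x j * ((c k).toReal * (g i k * g j k)) =
      (c k).toReal * (∑ i, x i * g i k) ^ 2 := by
    rw [sq, Finset.sum_mul_sum, Finset.mul_sum]
    refine Finset.sum_congr rfl fun i _ => ?_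
    rw [Finset.mul_sum]
    exact Finset.sum_congr rfl fun j _ => by ring
  rw [this]
  exact mul_nonneg ENNReal.toReal_nonneg (sq_nonneg _)

section

variable {A : Type*} [AddCommGroup A] {Z : A → ℝ}

theorem kk_symm (he : ∀ a, Z (-a) = Z a) (a c : A) : kk Z a c = kk Z c a := by
  unfold kk
  rw [add_comm a c, ← he (a - c), neg_sub]

/-- discriminant -/
theorem disc {a b c : ℝ} (h : ∀ s t : ℝ, 0 ≤ s ^ 2 * a + 2 * (s * t * b) + t ^ 2 * c) :
    b ^ 2 ≤ a * c := by
  have ha : 0 ≤ a := by simpa using h 1 0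
  have hc : 0 ≤ c := by simpa using h 0 1
  rcases ha.eq_or_lt with h0 | h0
  · -- `a = 0`
    subst h0
    rcases eq_or_ne b 0 with hb | hb
    · simp [hb]
    · exfalso
      have h1 := h (-(c + 1) / (2 * b)) 1
      have h2 : 2 * (-(c + 1) / (2 * b) * 1 * b) = -(c + 1) := by field_simp
      rw [h2] at h1
      nlinarith
  · have h1 := h (-b) a
    have h2 : (-b) ^ 2 * a + 2 * (-b * a * b) + a ^ 2 * c = a * (a * c - b ^ 2) := by ring
    rw [h2] at h1
    nlinarith [(mul_nonneg_iff_of_pos_left h0).1 h1]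

/-- Cauchy-Schwarz for the components orthogonal to the origin -/
theorem cs0 (hK : PSDK Z) (he : ∀ a, Z (-a) = Z a) (h0 : 0 < Z 0) (F : A) {n : ℕ}
    (p : Fin n → A) (x : Fin n → ℝ) :
    ((∑ i, x i * kk Z F (p i)) * Z 0 ^ 2 - kk Z F 0 * ∑ i, x i * kk Z 0 (p i)) ^ 2 ≤
      (kk Z F F * Z 0 ^ 2 - kk Z F 0 ^ 2) *
        ((∑ i, ∑ j, x i * x j * kk Z (p i) (p j)) * Z 0 ^ 2 - (∑ i, x i * kk Z 0 (p i)) ^ 2) := by
  set K0 : ℝ := Z 0 ^ 2 with hK0
  have hK0p : 0 < K0 := by positivity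
  have h00 : kk Z 0 0 = K0 := by simp [kk, hK0, sq]
  set L : ℝ := ∑ i, x i * kk Z F (p i) with hL
  set L0 : ℝ := ∑ i, x i * kk Z 0 (p i) with hL0
  set Q : ℝ := ∑ i, ∑ j, x i * x j * kk Z (p i) (p j) with hQ
  have hq : ∀ α β γ : ℝ, 0 ≤ α ^ 2 * kk Z F F + β ^ 2 * K0 + γ ^ 2 * Q + 2 * (α * β * kk Z F 0) +
      2 * (α * γ * L) + 2 * (β * γ * L0) := by
    intro α β γ
    have h1 := hK (n + 2) (Fin.cons F (Fin.cons 0 p)) (Fin.cons α (Fin.cons β fun i => γ * x i))
    simp only [Fin.sum_univ_succ, Fin.cons_zero, Fin.cons_succ, Finset.sum_add_distrib] at h1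
    have e1 : ∑ i, α * (γ * x i) * kk Z F (p i) = α * γ * L := by
      rw [hL, Finset.mul_sum]
      exact Finset.sum_congr rfl fun i _ => by ring
    have e2 : ∑ i, β * (γ * x i) * kk Z 0 (p i) = β * γ * L0 := by
      rw [hL0, Finset.mul_sum]
      exact Finset.sum_congr rfl fun i _ => by ring
    have e3 : ∑ i, γ * x i * α * kk Z (p i) F = α * γ * L := by
      rw [hL, Finset.mul_sum]
      exact Finset.sum_congr rfl fun i _ => by rw [kk_symm he (p i) F]; ring
    have e4 : ∑ i, γ * x i * β * kk Z (p i) 0 = β * γ * L0 := by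
      rw [hL0, Finset.mul_sum]
      exact Finset.sum_congr rfl fun i _ => by rw [kk_symm he (p i) 0]; ring
    have e5 : ∑ i, ∑ j, γ * x i * (γ * x j) * kk Z (p i) (p j) = γ ^ 2 * Q := by
      rw [hQ, Finset.mul_sum]
      refine Finset.sum_congr rfl fun i _ => ?_
      rw [Finset.mul_sum]
      exact Finset.sum_congr rfl fun j _ => by ring
    have e6 : kk Z 0 F = kk Z F 0 := kk_symm he 0 F
    rw [e1, e2, e3, e4, e5, e6, h00] at h1
    linarith
  -- choose `β`
  have hd : ∀ s t : ℝ, 0 ≤ s ^ 2 * (kk Z F F * K0 - kk Z F 0 ^ 2) +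
      2 * (s * t * (L * K0 - kk Z F 0 * L0)) + t ^ 2 * (Q * K0 - L0 ^ 2) := by
    intro s t
    have h1 := hq s (-(s * kk Z F 0 + t * L0) / K0) t
    have h2 : K0 * (s ^ 2 * kk Z F F + (-(s * kk Z F 0 + t * L0) / K0) ^ 2 * K0 + t ^ 2 * Q +
        2 * (s * (-(s * kk Z F 0 + t * L0) / K0) * kk Z F 0) + 2 * (s * t * L) +
        2 * ((-(s * kk Z F 0 + t * L0) / K0) * t * L0)) =
        s ^ 2 * (kk Z F F * K0 - kk Z F 0 ^ 2) +
      2 * (s * t * (L * K0 - kk Z F 0 * L0)) + t ^ 2 * (Q * K0 - L0 ^ 2) := by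
      field_simp
      ring
    rw [← h2]
    exact mul_nonneg hK0p.le h1
  exact disc hd

/-- **Metric inequality**: the angle between the feature vectors of `a` and `c` -/
theorem met (hK : PSDK Z) (he : ∀ a, Z (-a) = Z a) (hp : ∀ a, 0 < Z a) (a c : A) :
    (Z (a + c) * Z (a - c) * Z 0 ^ 2 / (Z a ^ 2 * Z c ^ 2) - 1) ^ 2 ≤
      (Z (a + a) * Z 0 ^ 3 / Z a ^ 4 - 1) * (Z (c + c) * Z 0 ^ 3 / Z c ^ 4 - 1) := by
  have h0 := hp 0
  have ha := hp a
  have hc := hp c
  have h1 := cs0 hK he h0 a (n := 1) (fun _ => c) fun _ => 1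
  simp only [Finset.univ_unique, Fin.default_eq_zero, Fin.isValue, Finset.sum_const,
    Finset.card_singleton, one_smul, one_mul] at h1
  have e1 : kk Z a 0 = Z a ^ 2 := by simp [kk, sq]
  have e2 : kk Z 0 c = Z c ^ 2 := by simp [kk, sq, he]
  have e3 : kk Z a a = Z (a + a) * Z 0 := by simp [kk]
  have e4 : kk Z c c = Z (c + c) * Z 0 := by simp [kk]
  have e5 : kk Z a c = Z (a + c) * Z (a - c) := rfl
  rw [e1, e2, e3, e4, e5] at h1
  have h2 : Z (a + c) * Z (a - c) * Z 0 ^ 2 / (Z a ^ 2 * Z c ^ 2) - 1 =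
      (Z (a + c) * Z (a - c) * Z 0 ^ 2 - Z a ^ 2 * Z c ^ 2) / (Z a ^ 2 * Z c ^ 2) := by
    field_simp
  have h3 : (Z (a + a) * Z 0 ^ 3 / Z a ^ 4 - 1) * (Z (c + c) * Z 0 ^ 3 / Z c ^ 4 - 1) =
      ((Z (a + a) * Z 0 * Z 0 ^ 2 - (Z a ^ 2) ^ 2) * (Z (c + c) * Z 0 * Z 0 ^ 2 - (Z c ^ 2) ^ 2)) /
        (Z a ^ 2 * Z c ^ 2) ^ 2 := by
    field_simp
  rw [h2, h3, div_pow]
  exact div_le_div_of_nonneg_right h1 (by positivity)

end

end Vale.Agent.P159.H789
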