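import Vale.Agent.P159.H239.Typ
import Vale.Agent.P159.H896.Ht0

/-!
P159 (helper789), **strong R numbers**, part A: domination by the cell source itself.

* `sym_Sgn`, `Sgn_low2` : the cell source `Sgn N l b T s` (`T` = mass, `s` = prior mass) is at least
  `1/2 (T - s) (1 + (T - s) (s + kap lapM / l ^ 2)⁻¹)` on neutral vectors, from the flat profile of
  the low momenta only;
* `LM k C`   : `|C f|² ≤ k |f|²` and `dirE (C f) ≤ k dirE f`;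
* `dom_Sgn`  : `<Cᵀ v, Sgn Cᵀ v> ≤ 2 k max(1, b kap) <v, Sgn v>`, every prior mass;
* `dom_site` : the same for the source on the sites.
-/

set_option linter.unusedSectionVars false

namespace Vale.Agent.P159.H789

open Finset Matrix MeasureTheory
open Vale.Agent.P159.TM.H104 (EM Ex Cv K3 Lg li nh Gr)
open Vale.Agent.P159.TM.H764 (EE)
open Vale.Agent.P159.H37
open Vale.Agent.P159.TM.Spec (V)
open Vale.Agent.P159.TM.SpecC (wT)
open Vale.Agent.P159.H864 (TI sym cobV l_pos lapM ti_lapM)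
open Vale.Agent.P159.H963 (Neu pin Pn nwt nMC obsN Gnc PinC)
open Vale.Agent.P159.H859 (Sgn As Rk sq qd)
open Vale.Agent.P159.H730 (wN)
open Vale.Agent.P159.H447
open Vale.Agent.P159.H239 (TypE)

noncomputable section

variable {N l : ℕ} [NeZero N] [NeZero (N / l)] {b T s : ℝ}

/-- the symbol of the cell source -/
lemma sym_Sgn (hb : 0 < b) (hl : l ∣ N) (hT : 0 < T) (hs : 0 < s) (hsT : s < T)
    {k : V (N / l)} (hk : k ≠ 0) :
    sym (Sgn N l b T s) k = (T - s) * (1 + (T - s) / (s + PinC N l b T T k)) := by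
  have hG : TI (Gnc N l b T T) := H963.ti_Gnc hb.le hl hT le_rfl
  have hTs : 0 < T - s := sub_pos.2 hsT
  have hlt : (T⁻¹ : ℝ) < (T - s)⁻¹ := inv_strictAnti₀ hTs (by linarith)
  have e0 : TI ((T - s)⁻¹ • (1 : Matrix (V (N / l)) (V (N / l)) ℝ) - Gnc N l b T T) :=
    (TI.one.smul _).sub hG
  have e1 : ∀ k, sym ((T - s)⁻¹ • (1 : Matrix (V (N / l)) (V (N / l)) ℝ) - Gnc N l b T T) k =
      (T - s)⁻¹ - sym (Gnc N l b T T) k := fun k => by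
    rw [H864.sym_sub, H864.sym_smul, H864.sym_one, mul_one]
  unfold Sgn As
  rw [H864.sym_inv' e0 (fun k => by
    rw [e1]
    have := H963.sym_Gnc_le hb.le hl hT le_rfl k
    exact (sub_pos.2 (this.trans_lt hlt)).ne'), e1]
  have hg := H963.sym_Gnc_pos hb hl hT (le_refl T) hk
  have hP := H963.PinC_nonneg hb hl hT (le_refl T) hk
  have e2 : sym (Gnc N l b T T) k = (T + PinC N l b T T k)⁻¹ := by
    unfold PinC
    rw [add_sub_cancel, inv_inv]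
  rw [e2]
  have h1 : 0 < T + PinC N l b T T k := by linarith
  have h2 : 0 < s + PinC N l b T T k := by linarith
  have h3 : (T - s)⁻¹ - (T + PinC N l b T T k)⁻¹ =
      (s + PinC N l b T T k) / ((T - s) * (T + PinC N l b T T k)) := by
    field_simp
    ring
  rw [h3, inv_div]
  field_simp
  ring

/-- lower bound of the symbol of the source from the low momenta -/
theorem sym_Sgn_low (hb : 0 < b) (hl : l ∣ N) (hs : 0 < s) (hsT : s < T) {κ : ℝ}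
    (hκ : 1 ≤ κ) (hP : ∀ k : V (N / l), k ≠ 0 → EE k ≤ T * (l : ℝ) ^ 2 →
      (l : ℝ) ^ 2 * PinC N l b T T k ≤ κ * EE k) {k : V (N / l)} (hk : k ≠ 0) :
    (T - s) + (T - s) ^ 2 * (s + κ / (l : ℝ) ^ 2 * EE k)⁻¹ ≤ 2 * sym (Sgn N l b T s) k := by
  have hT : 0 < T := hs.trans hsT
  have hTs : 0 < T - s := sub_pos.2 hsT
  have hl0 : (0 : ℝ) < l := by exact_mod_cast l_pos hl
  have hκ0 : 0 < κ := by linarith
  have hκl : 0 < κ / (l : ℝ) ^ 2 := by positivity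
  rw [sym_Sgn hb hl hT hs hsT hk]
  have hP0 := H963.PinC_nonneg hb hl hT (le_refl T) hk
  have hE : 0 ≤ EE k := H462.EE_nonneg k
  have h2 : 0 < s + PinC N l b T T k := by linarith
  have h3 : (T - s) ^ 2 * (s + κ / (l : ℝ) ^ 2 * EE k)⁻¹ ≤
      (T - s) * (1 + (T - s) / (s + PinC N l b T T k)) := by
    rcases le_or_gt (EE k) (T * (l : ℝ) ^ 2) with h | h
    · have h4 := hP k hk h
      have h5 : PinC N l b T T k ≤ κ / (l : ℝ) ^ 2 * EE k := by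
        rw [div_mul_eq_mul_div, le_div_iff₀ (by positivity)]
        linarith
      have h6 : (s + κ / (l : ℝ) ^ 2 * EE k)⁻¹ ≤ (s + PinC N l b T T k)⁻¹ :=
        inv_anti₀ h2 (by linarith)
      calc (T - s) ^ 2 * (s + κ / (l : ℝ) ^ 2 * EE k)⁻¹
          ≤ (T - s) ^ 2 * (s + PinC N l b T T k)⁻¹ :=
            mul_le_mul_of_nonneg_left h6 (sq_nonneg _)
        _ = (T - s) * ((T - s) / (s + PinC N l b T T k)) := by ring
        _ ≤ _ := by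
          refine mul_le_mul_of_nonneg_left ?_ hTs.le
          linarith
    · have h5 : T ≤ s + κ / (l : ℝ) ^ 2 * EE k := by
        have h6 : κ / (l : ℝ) ^ 2 * (T * (l : ℝ) ^ 2) ≤ κ / (l : ℝ) ^ 2 * EE k :=
          mul_le_mul_of_nonneg_left h.le hκl.le
        have e : κ / (l : ℝ) ^ 2 * (T * (l : ℝ) ^ 2) = κ * T := by field_simp
        rw [e] at h6
        have : T ≤ κ * T := le_mul_of_one_le_left hT.le hκ
        linarith
      have h6 : (s + κ / (l : ℝ) ^ 2 * EE k)⁻¹ ≤ T⁻¹ := inv_anti₀ hT h5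
      have h7 : (T - s) * T⁻¹ ≤ 1 := by
        rw [← div_eq_mul_inv, div_le_one hT]
        linarith
      have h8 : 0 ≤ (T - s) / (s + PinC N l b T T k) := by positivity
      calc (T - s) ^ 2 * (s + κ / (l : ℝ) ^ 2 * EE k)⁻¹ ≤ (T - s) ^ 2 * T⁻¹ :=
            mul_le_mul_of_nonneg_left h6 (sq_nonneg _)
        _ = (T - s) * ((T - s) * T⁻¹) := by ring
        _ ≤ (T - s) * (1 + (T - s) / (s + PinC N l b T T k)) :=
            mul_le_mul_of_nonneg_left (by linarith) hTs.le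
  have h9 : (T - s) ≤ (T - s) * (1 + (T - s) / (s + PinC N l b T T k)) := by
    have h8 : 0 ≤ (T - s) / (s + PinC N l b T T k) := by positivity
    exact le_mul_of_one_le_right hTs.le (by linarith)
  linarith

/-- **lower bound of the source** from the low momenta -/
theorem Sgn_low2 (hb : 0 < b) (hl : l ∣ N) (hs : 0 < s) (hsT : s < T) {κ : ℝ}
    (hκ : 1 ≤ κ) (hP : ∀ k : V (N / l), k ≠ 0 → EE k ≤ T * (l : ℝ) ^ 2 →
      (l : ℝ) ^ 2 * PinC N l b T T k ≤ κ * EE k) {u : V (N / l) → ℝ} (hu : Neu u) :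
    (T - s) * ∑ x, u x ^ 2 + (T - s) ^ 2 * qf (Rk s (κ / (l : ℝ) ^ 2)) u ≤
      2 * qf (Sgn N l b T s) u := by
  have hT : 0 < T := hs.trans hsT
  have hTs : 0 < T - s := sub_pos.2 hsT
  have hl0 : (0 : ℝ) < l := by exact_mod_cast l_pos hl
  have hκ0 : 0 < κ := by linarith
  have hκl : 0 < κ / (l : ℝ) ^ 2 := by positivity
  have hTI : TI (Sgn N l b T s) := ((TI.one.smul _).sub (H963.ti_Gnc hb.le hl hT le_rfl)).inv
  have h1 := H896.qf_neu_le (S := (T - s) • (1 : Matrix (V (N / l)) (V (N / l)) ℝ) +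
      ((T - s) ^ 2) • Rk s (κ / (l : ℝ) ^ 2)) (R := Sgn N l b T s)
    ((TI.one.smul _).add ((H859.ti_Rk _ _).smul _)) hTI (c := 2) (fun k hk => by
      rw [H864.sym_add, H864.sym_smul, H864.sym_smul, H864.sym_one, mul_one,
        H859.sym_Rk hs hκl.le]
      exact sym_Sgn_low hb hl hs hsT hκ hP hk) hu
  rw [H37.qf_add_mat, H864.qf_smul_mat, H864.qf_smul_mat] at h1
  have e1 : qf (1 : Matrix (V (N / l)) (V (N / l)) ℝ) u = ∑ x, u x ^ 2 := by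
    rw [qf_eq, one_mulVec]
    unfold dotProduct
    exact Finset.sum_congr rfl fun x _ => by ring
  rwa [e1] at h1

/-- a linear map on the cells with bounded norm and bounded energy norm -/
structure LM {M : ℕ} [NeZero M] (k : ℝ) (C : Matrix (V M) (V M) ℝ) : Prop where
  op : ∀ f : V M → ℝ, ∑ x, (C *ᵥ f) x ^ 2 ≤ k * ∑ x, f x ^ 2
  en : ∀ f : V M → ℝ, qf lapM (C *ᵥ f) ≤ k * qf lapM f

section lm

variable {M : ℕ} [NeZero M] {k : ℝ} {C : Matrix (V M) (V M) ℝ}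

/-- the transpose has the same norm -/
lemma LM.opT (h : LM k C) (hk : 0 ≤ k) (v : V M → ℝ) :
    ∑ x, (Cᵀ *ᵥ v) x ^ 2 ≤ k * ∑ x, v x ^ 2 := by
  obtain ⟨u, hu⟩ : ∃ u, u = Cᵀ *ᵥ v := ⟨_, rfl⟩
  rw [← hu]
  obtain ⟨x, hx⟩ : ∃ x : ℝ, x = ∑ i, u i ^ 2 := ⟨_, rfl⟩
  obtain ⟨y, hy⟩ : ∃ y : ℝ, y = ∑ i, v i ^ 2 := ⟨_, rfl⟩
  have e1 : x = v ⬝ᵥ (C *ᵥ u) := by
    have e : u ⬝ᵥ u = v ⬝ᵥ (C *ᵥ u) := by
      nth_rw 1 [hu]
      rw [Matrix.mulVec_transpose, ← Matrix.dotProduct_mulVec]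
    rw [← e, hx]
    unfold dotProduct
    exact Finset.sum_congr rfl fun i _ => by ring
  have h1 := h.op u
  rw [← hx] at h1
  have h2 : 0 ≤ ∑ i, ((C *ᵥ u) i - k * v i) ^ 2 := Finset.sum_nonneg fun i _ => sq_nonneg _
  have h3 : ∑ i, ((C *ᵥ u) i - k * v i) ^ 2 =
      ∑ i, (C *ᵥ u) i ^ 2 - 2 * k * (v ⬝ᵥ (C *ᵥ u)) + k ^ 2 * ∑ i, v i ^ 2 := by
    unfold dotProduct
    rw [Finset.mul_sum, Finset.mul_sum, ← Finset.sum_sub_distrib, ← Finset.sum_add_distrib]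
    exact Finset.sum_congr rfl fun i _ => by ring
  rw [h3, ← e1, ← hy] at h2
  rw [← hx, ← hy]
  rcases hk.eq_or_lt with h0 | h0
  · rw [← h0] at h1 ⊢
    have h4 : ∑ i, (C *ᵥ u) i ^ 2 = 0 :=
      le_antisymm (by linarith) (Finset.sum_nonneg fun i _ => sq_nonneg _)
    have h5 : C *ᵥ u = 0 := by
      funext i
      have := (Finset.sum_eq_zero_iff_of_nonneg (fun i _ => sq_nonneg ((C *ᵥ u) i))).1 h4 i
        (Finset.mem_univ i)
      simpa using this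
    rw [h5, dotProduct_zero] at e1
    rw [e1]
    simp
  · have h5 : k * x ≤ k * (k * y) := by nlinarith
    exact le_of_mul_le_mul_left h5 h0

/-- **duality of resolvents** -/
lemma LM.res (h : LM k C) (hk : 0 ≤ k) {s κ₁ κ₂ m : ℝ} (hs : 0 < s) (h1 : 0 ≤ κ₁) (h2 : 0 ≤ κ₂)
    (hm : 1 ≤ m) (h12 : κ₂ ≤ m * κ₁) (v : V M → ℝ) :
    qf (Rk s κ₁) (Cᵀ *ᵥ v) ≤ k * m * qf (Rk s κ₂) v := by
  obtain ⟨u, hu⟩ : ∃ u, u = Cᵀ *ᵥ v := ⟨_, rfl⟩
  rw [← hu]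
  obtain ⟨f, hf⟩ : ∃ f, f = Rk s κ₁ *ᵥ u := ⟨_, rfl⟩
  obtain ⟨w, hw⟩ : ∃ w, w = Rk s κ₂ *ᵥ v := ⟨_, rfl⟩
  have hf1 : (s • (1 : Matrix (V M) (V M) ℝ) + κ₁ • lapM) *ᵥ f = u := by
    rw [hf, mulVec_mulVec, H859.op_mul_Rk hs h1, one_mulVec]
  have hw1 : (s • (1 : Matrix (V M) (V M) ℝ) + κ₂ • lapM) *ᵥ w = v := by
    rw [hw, mulVec_mulVec, H859.op_mul_Rk hs h2, one_mulVec]
  have ex : qf (Rk s κ₁) u = f ⬝ᵥ u := by
    rw [qf_eq, ← hf, dotProduct_comm]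
  have ey : qf (Rk s κ₂) v = w ⬝ᵥ v := by
    rw [qf_eq, ← hw, dotProduct_comm]
  have hop : ∀ (κ : ℝ) (g : V M → ℝ), g ⬝ᵥ ((s • (1 : Matrix (V M) (V M) ℝ) + κ • lapM) *ᵥ g) =
      s * ∑ i, g i ^ 2 + κ * qf lapM g := by
    intro κ g
    rw [add_mulVec, smul_mulVec, smul_mulVec, one_mulVec, dotProduct_add, dotProduct_smul,
      dotProduct_smul, smul_eq_mul, smul_eq_mul, qf_eq]
    congr 2
    unfold dotProduct
    exact Finset.sum_congr rfl fun i _ => by ring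
  have hlap : ∀ g : V M → ℝ, 0 ≤ qf lapM g := fun g => by
    rw [H864.qf_lapM]
    unfold TM.H764.grd
    exact add_nonneg (TM.H764.Q_nonneg _ _) (TM.H764.Q_nonneg _ _)
  -- `x = <v, C f>`
  have e1 : f ⬝ᵥ u = v ⬝ᵥ (C *ᵥ f) := by
    rw [dotProduct_comm, hu, Matrix.mulVec_transpose, ← Matrix.dotProduct_mulVec]
  have e2 : (C *ᵥ f) ⬝ᵥ ((s • (1 : Matrix (V M) (V M) ℝ) + κ₂ • lapM) *ᵥ (C *ᵥ f)) ≤
      k * m * (f ⬝ᵥ u) := by
    have h3 : f ⬝ᵥ u = s * ∑ i, f i ^ 2 + κ₁ * qf lapM f := by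
      rw [← hop κ₁ f, hf1]
    rw [hop κ₂, h3]
    have h4 := h.op f
    have h5 := h.en f
    have h6 : s * ∑ i, (C *ᵥ f) i ^ 2 ≤ k * m * (s * ∑ i, f i ^ 2) := by
      have h7 : 0 ≤ k * (s * ∑ i, f i ^ 2) :=
        mul_nonneg hk (mul_nonneg hs.le (Finset.sum_nonneg fun i _ => sq_nonneg _))
      calc s * ∑ i, (C *ᵥ f) i ^ 2 ≤ s * (k * ∑ i, f i ^ 2) :=
            mul_le_mul_of_nonneg_left h4 hs.le
        _ = k * (s * ∑ i, f i ^ 2) := by ring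
        _ ≤ m * (k * (s * ∑ i, f i ^ 2)) := le_mul_of_one_le_left h7 hm
        _ = _ := by ring
    have h8 : κ₂ * qf lapM (C *ᵥ f) ≤ k * m * (κ₁ * qf lapM f) := by
      have h9 : 0 ≤ k * qf lapM f := mul_nonneg hk (hlap f)
      calc κ₂ * qf lapM (C *ᵥ f) ≤ κ₂ * (k * qf lapM f) := mul_le_mul_of_nonneg_left h5 h2
        _ ≤ m * κ₁ * (k * qf lapM f) := mul_le_mul_of_nonneg_right h12 h9
        _ = _ := by ring
    linarith
  have hsymm : (s • (1 : Matrix (V M) (V M) ℝ) + κ₂ • (lapM : Matrix (V M) (V M) ℝ))ᵀ =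
      s • (1 : Matrix (V M) (V M) ℝ) + κ₂ • lapM := (H859.ti_op s κ₂).transpose
  have hpsd : ∀ g : V M → ℝ, 0 ≤ g ⬝ᵥ ((s • (1 : Matrix (V M) (V M) ℝ) + κ₂ • lapM) *ᵥ g) :=
    fun g => by
      rw [hop κ₂ g]
      exact add_nonneg (mul_nonneg hs.le (Finset.sum_nonneg fun i _ => sq_nonneg _))
        (mul_nonneg h2 (hlap g))
  have hkm : 0 ≤ k * m := mul_nonneg hk (by linarith)
  obtain ⟨K, hK⟩ : ∃ K, K = k * m := ⟨_, rfl⟩
  have h3 := hpsd ((C *ᵥ f) - K • w)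
  obtain ⟨A₂, hA₂⟩ : ∃ A₂ : Matrix (V M) (V M) ℝ,
    A₂ = s • (1 : Matrix (V M) (V M) ℝ) + κ₂ • lapM := ⟨_, rfl⟩
  rw [← hA₂] at h3 e2 hw1 hsymm
  have e3 : ((C *ᵥ f) - K • w) ⬝ᵥ (A₂ *ᵥ ((C *ᵥ f) - K • w)) =
      (C *ᵥ f) ⬝ᵥ (A₂ *ᵥ (C *ᵥ f)) - 2 * K * (v ⬝ᵥ (C *ᵥ f)) + K ^ 2 * (w ⬝ᵥ v) := by
    rw [mulVec_sub, mulVec_smul, hw1, sub_dotProduct, dotProduct_sub, dotProduct_sub,
      smul_dotProduct, smul_dotProduct, dotProduct_smul, dotProduct_smul]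
    have e4 : w ⬝ᵥ (A₂ *ᵥ (C *ᵥ f)) = v ⬝ᵥ (C *ᵥ f) := by
      rw [dotProduct_mulVec, ← Matrix.mulVec_transpose, hsymm, hw1]
    rw [e4, dotProduct_comm (C *ᵥ f) v]
    simp only [smul_eq_mul]
    ring
  rw [e3, ← e1] at h3
  rw [← hK] at e2
  rw [ex, ey, ← hK]
  have hK0 : 0 ≤ K := by rw [hK]; exact hkm
  have h4 : K * (f ⬝ᵥ u) ≤ K ^ 2 * (w ⬝ᵥ v) := by nlinarith
  rcases hK0.eq_or_lt with h0 | h0
  · rw [← h0] at e2 ⊢
    -- then the energy of `C f` vanishes, so `x = 0`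
    have h5 := h.op f
    have h6 : k = 0 := by
      have hm0 : 0 < m := by linarith
      have : k * m = 0 := by rw [← hK, ← h0]
      exact (mul_eq_zero.1 this).resolve_right hm0.ne'
    rw [h6, zero_mul] at h5
    have h7 : ∑ i, (C *ᵥ f) i ^ 2 = 0 :=
      le_antisymm h5 (Finset.sum_nonneg fun i _ => sq_nonneg _)
    have h8 : C *ᵥ f = 0 := by
      funext i
      have := (Finset.sum_eq_zero_iff_of_nonneg (fun i _ => sq_nonneg ((C *ᵥ f) i))).1 h7 i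
        (Finset.mem_univ i)
      simpa using this
    rw [e1, h8, dotProduct_zero]
    simp
  · have h5 : K * (f ⬝ᵥ u) ≤ K * (K * (w ⬝ᵥ v)) := by
      rw [← mul_assoc, ← pow_two]
      exact h4
    exact le_of_mul_le_mul_left h5 h0

end lm

/-- **domination of the transported cell source**, every prior mass -/
theorem dom_Sgn (hb : 0 < b) (hl : l ∣ N) (hs : 0 < s) (hsT : s < T) {κ k : ℝ}
    (hκ : 1 ≤ κ) (hP : ∀ q : V (N / l), q ≠ 0 → EE q ≤ T * (l : ℝ) ^ 2 →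
      (l : ℝ) ^ 2 * PinC N l b T T q ≤ κ * EE q) {C : Matrix (V (N / l)) (V (N / l)) ℝ}
    (h : LM k C) (hk : 0 ≤ k) {v : V (N / l) → ℝ} (hv : Neu v) :
    qf (Sgn N l b T s) (Cᵀ *ᵥ v) ≤ 2 * (k * max 1 (b * κ)) * qf (Sgn N l b T s) v := by
  have hT : 0 < T := hs.trans hsT
  have hTs : 0 < T - s := sub_pos.2 hsT
  have hl0 : (0 : ℝ) < l := by exact_mod_cast l_pos hl
  have hd := H859.dat_neu' (N := N) (l := l) hb hl hT
  have hκ0 : 0 < κ := by linarith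
  have h1 := hd.up hs hsT (Cᵀ *ᵥ v)
  have hsq : H859.sq (Cᵀ *ᵥ v) = ∑ x, (Cᵀ *ᵥ v) x ^ 2 := by
    unfold H859.sq dotProduct
    exact Finset.sum_congr rfl fun x _ => by ring
  rw [hsq] at h1
  have h2 := h.opT hk v
  have hm : 1 ≤ max 1 (b * κ) := le_max_left _ _
  have h3 := h.res hk (κ₁ := 1 / b / (l : ℝ) ^ 2) (κ₂ := κ / (l : ℝ) ^ 2) (m := max 1 (b * κ)) hs
    (by positivity) (by positivity) hm (by
      have h4 : b * κ ≤ max 1 (b * κ) := le_max_right _ _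
      calc κ / (l : ℝ) ^ 2 = (b * κ) * (1 / b / (l : ℝ) ^ 2) := by field_simp
        _ ≤ max 1 (b * κ) * (1 / b / (l : ℝ) ^ 2) :=
          mul_le_mul_of_nonneg_right h4 (by positivity)) v
  have h4 := Sgn_low2 hb hl hs hsT hκ hP hv
  have e1 : qd (s • (1 : Matrix (V (N / l)) (V (N / l)) ℝ) +
      (1 / b / (l : ℝ) ^ 2) • lapM)⁻¹ (Cᵀ *ᵥ v) =
      qf (Rk s (1 / b / (l : ℝ) ^ 2)) (Cᵀ *ᵥ v) := by
    rw [H859.qf_qd]
    rfl
  rw [e1] at h1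
  obtain ⟨m, hm'⟩ : ∃ m, m = max 1 (b * κ) := ⟨_, rfl⟩
  rw [← hm'] at h3 hm ⊢
  have hv0 : 0 ≤ ∑ x, v x ^ 2 := Finset.sum_nonneg fun _ _ => sq_nonneg _
  have h5 : (T - s) * ∑ x, (Cᵀ *ᵥ v) x ^ 2 ≤ k * m * ((T - s) * ∑ x, v x ^ 2) := by
    have h6 : 0 ≤ k * ((T - s) * ∑ x, v x ^ 2) := by positivity
    calc (T - s) * ∑ x, (Cᵀ *ᵥ v) x ^ 2 ≤ (T - s) * (k * ∑ x, v x ^ 2) :=
          mul_le_mul_of_nonneg_left h2 hTs.le
      _ = k * ((T - s) * ∑ x, v x ^ 2) := by ring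
      _ ≤ m * (k * ((T - s) * ∑ x, v x ^ 2)) := le_mul_of_one_le_left h6 hm
      _ = _ := by ring
  have h7 : (T - s) ^ 2 * qf (Rk s (1 / b / (l : ℝ) ^ 2)) (Cᵀ *ᵥ v) ≤
      k * m * ((T - s) ^ 2 * qf (Rk s (κ / (l : ℝ) ^ 2)) v) := by
    calc (T - s) ^ 2 * qf (Rk s (1 / b / (l : ℝ) ^ 2)) (Cᵀ *ᵥ v) ≤
        (T - s) ^ 2 * (k * m * qf (Rk s (κ / (l : ℝ) ^ 2)) v) :=
          mul_le_mul_of_nonneg_left h3 (sq_nonneg _)
      _ = _ := by ring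
  have h8 : qf (Sgn N l b T s) (Cᵀ *ᵥ v) ≤ k * m * ((T - s) * ∑ x, v x ^ 2 +
      (T - s) ^ 2 * qf (Rk s (κ / (l : ℝ) ^ 2)) v) := by
    have e2 : qf (Sgn N l b T s) (Cᵀ *ᵥ v) = qd (As (Gnc N l b T T) T s) (Cᵀ *ᵥ v) := by
      unfold Sgn
      rw [H859.qf_qd]
    rw [e2]
    refine h1.trans ?_
    rw [mul_add]
    exact add_le_add h5 h7
  refine h8.trans ?_
  have hkm : 0 ≤ k * m := mul_nonneg hk (by linarith)
  calc k * m * ((T - s) * ∑ x, v x ^ 2 + (T - s) ^ 2 * qf (Rk s (κ / (l : ℝ) ^ 2)) v)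
      ≤ k * m * (2 * qf (Sgn N l b T s) v) := mul_le_mul_of_nonneg_left h4 hkm
    _ = _ := by ring

/-- covariance of the cell source on the sites -/
def Gam (N l : ℕ) [NeZero N] [NeZero (N / l)] (b T s : ℝ) : Matrix (V N) (V N) ℝ :=
  (CN N l)ᵀ * Sgn N l b T s * CN N l

/-- the site map of a cell map -/
def up1 (N l : ℕ) [NeZero N] [NeZero (N / l)] (C : Matrix (V (N / l)) (V (N / l)) ℝ) :
    Matrix (V N) (V N) ℝ := (CN N l)ᵀ * C * CN N l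

lemma Gam_real {I : Type*} [Fintype I] {A : Matrix (V (N / l)) I ℝ}
    (hA : A * Aᵀ = Sgn N l b T s) : ((CN N l)ᵀ * A) * ((CN N l)ᵀ * A)ᵀ = Gam N l b T s := by
  unfold Gam
  rw [transpose_mul, transpose_transpose, Matrix.mul_assoc, ← Matrix.mul_assoc A, hA,
    ← Matrix.mul_assoc]

lemma CN_CNt (hl : l ∣ N) : CN N l * (CN N l)ᵀ = Pn := by
  unfold CN
  have e : (Pn : Matrix (V (N / l)) (V (N / l)) ℝ)ᵀ = Pn := H963.ti_Pn.transpose
  rw [transpose_mul, e, Matrix.mul_assoc, ← Matrix.mul_assoc (cobV N l), H864.cobV_mul_tr hl,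
    Matrix.one_mul, H963.Pn_mul_Pn]

lemma neu_CN (v : V N → ℝ) : Neu (CN N l *ᵥ v) := by
  unfold CN
  rw [← mulVec_mulVec]
  exact H963.neu_Pn _

lemma sum_Pn_le {M : ℕ} [NeZero M] (f : V M → ℝ) :
    ∑ x, ((Pn : Matrix (V M) (V M) ℝ) *ᵥ f) x ^ 2 ≤ ∑ x, f x ^ 2 := by
  have e : ∀ g : V M → ℝ, ∑ x, g x ^ 2 = qf (1 : Matrix (V M) (V M) ℝ) g := fun g => by
    rw [qf_eq, one_mulVec]
    unfold dotProduct
    exact Finset.sum_congr rfl fun x _ => by ring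
  have hPt : (Pn : Matrix (V M) (V M) ℝ)ᵀ = Pn := H963.ti_Pn.transpose
  have e1 : ∑ x, ((Pn : Matrix (V M) (V M) ℝ) *ᵥ f) x ^ 2 = qf (Pn : Matrix (V M) (V M) ℝ) f := by
    have h1 : ∑ x, ((Pn : Matrix (V M) (V M) ℝ) *ᵥ f) x ^ 2 =
        (Pn *ᵥ f) ⬝ᵥ (Pn *ᵥ f) := by
      unfold dotProduct
      exact Finset.sum_congr rfl fun x _ => by ring
    rw [h1, qf_eq, dotProduct_mulVec, ← Matrix.mulVec_transpose, hPt, mulVec_mulVec,
      H963.Pn_mul_Pn, dotProduct_comm]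
  rw [e1, e f]
  refine (H864.qf_le_iff H963.ti_Pn TI.one).2 (fun k => ?_) f
  rw [H963.sym_Pn, H864.sym_one]
  split_ifs <;> norm_num

lemma lap_Pn {M : ℕ} [NeZero M] (f : V M → ℝ) :
    qf lapM ((Pn : Matrix (V M) (V M) ℝ) *ᵥ f) = qf lapM f := by
  have hPt : (Pn : Matrix (V M) (V M) ℝ)ᵀ = Pn := H963.ti_Pn.transpose
  have e1 : (Pn : Matrix (V M) (V M) ℝ) * lapM * Pn = lapM := by
    refine H864.sym_inj ((H963.ti_Pn.mul ti_lapM).mul H963.ti_Pn) ti_lapM fun k => ?_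
    rw [H864.sym_mul (H963.ti_Pn.mul ti_lapM) H963.ti_Pn, H864.sym_mul H963.ti_Pn ti_lapM,
      H963.sym_Pn, H864.sym_lapM]
    split_ifs with hk
    · rw [hk]
      unfold EE
      simp [TM.H764.cN]
    · ring
  have e2 : qf lapM ((Pn : Matrix (V M) (V M) ℝ) *ᵥ f) =
      qf ((Pn : Matrix (V M) (V M) ℝ) * lapM * Pn) f := by
    rw [qf_eq, qf_eq, ← mulVec_mulVec, ← mulVec_mulVec, dotProduct_mulVec f Pn,
      ← Matrix.mulVec_transpose, hPt]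
  rw [e2, e1]

/-- **domination on the sites** -/
theorem dom_site (hb : 0 < b) (hl : l ∣ N) (hs : 0 < s) (hsT : s < T) {κ k : ℝ}
    (hκ : 1 ≤ κ) (hP : ∀ q : V (N / l), q ≠ 0 → EE q ≤ T * (l : ℝ) ^ 2 →
      (l : ℝ) ^ 2 * PinC N l b T T q ≤ κ * EE q) {C : Matrix (V (N / l)) (V (N / l)) ℝ}
    (h : LM k C) (hk : 0 ≤ k) :
    ((2 * (k * max 1 (b * κ))) • Gam N l b T s -
      up1 N l C * Gam N l b T s * (up1 N l C)ᵀ).PosSemidef := by
  have hSt : (Sgn N l b T s)ᵀ = Sgn N l b T s :=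
    (((TI.one.smul _).sub (H963.ti_Gnc hb.le hl (hs.trans hsT) le_rfl)).inv).transpose
  have hGt : (Gam N l b T s)ᵀ = Gam N l b T s := by
    unfold Gam
    rw [transpose_mul, transpose_mul, transpose_transpose, hSt, Matrix.mul_assoc]
  have hPt : (Pn : Matrix (V (N / l)) (V (N / l)) ℝ)ᵀ = Pn := H963.ti_Pn.transpose
  have qG : ∀ w : V N → ℝ, qf (Gam N l b T s) w = qf (Sgn N l b T s) (CN N l *ᵥ w) := fun w => by
    unfold Gam
    rw [qf_eq, qf_eq, ← mulVec_mulVec, ← mulVec_mulVec, dotProduct_mulVec, Matrix.vecMul_transpose]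
  refine H859.psd_of ?_ fun v => ?_
  · rw [transpose_sub, transpose_smul, hGt, transpose_mul, transpose_mul, transpose_transpose,
      hGt, Matrix.mul_assoc]
  · have e1 : qf (up1 N l C * Gam N l b T s * (up1 N l C)ᵀ) v =
        qf (Gam N l b T s) ((up1 N l C)ᵀ *ᵥ v) := by
      rw [qf_eq, qf_eq, ← mulVec_mulVec, ← mulVec_mulVec, dotProduct_mulVec,
        ← Matrix.mulVec_transpose]
    have hn : Neu (CN N l *ᵥ v) := neu_CN v
    have e2 : CN N l *ᵥ ((up1 N l C)ᵀ *ᵥ v) = Pn *ᵥ (Cᵀ *ᵥ (CN N l *ᵥ v)) := by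
      unfold up1
      rw [transpose_mul, transpose_mul, transpose_transpose, mulVec_mulVec, ← Matrix.mul_assoc,
        CN_CNt hl, mulVec_mulVec, mulVec_mulVec, Matrix.mul_assoc]
    have e3 : Pn *ᵥ (Cᵀ *ᵥ (CN N l *ᵥ v)) =
        (C * (Pn : Matrix (V (N / l)) (V (N / l)) ℝ))ᵀ *ᵥ (CN N l *ᵥ v) := by
      rw [transpose_mul, hPt, ← mulVec_mulVec]
    have hLM : LM k (C * (Pn : Matrix (V (N / l)) (V (N / l)) ℝ)) := by
      refine ⟨fun f => ?_, fun f => ?_⟩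
      · rw [← mulVec_mulVec]
        refine (h.op _).trans (mul_le_mul_of_nonneg_left ?_ hk)
        exact sum_Pn_le f
      · rw [← mulVec_mulVec]
        refine (h.en _).trans (le_of_eq ?_)
        rw [lap_Pn]
    rw [H864.qf_sub_mat, H864.qf_smul_mat, e1, qG, qG, e2, e3, sub_nonneg]
    exact dom_Sgn hb hl hs hsT hκ hP hLM hk hn

end

end Vale.Agent.P159.H789
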