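import Vale.Agent.P159.H789.StA
import Vale.Agent.P159.H896.Rq2
import Vale.Agent.P159.H896.Amp

/-!
P159 (helper789), **strong R numbers**, part B: linear images of the cell source under the exact
law, strong level, every prior mass.

* `gau_strong` : amplitude `2 ^ j` at the strong level, Gaussian law;
* `gau_lin`, `typ_lin` : the same for linear images dominated by the source, exact law.
-/

set_option linter.unusedSectionVars false

namespace Vale.Agent.P159.H789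

open Finset Matrix MeasureTheory
open Vale.Agent.P159.TM.H104 (EM Ex Cv K3 Lg li nh Gr)
open Vale.Agent.P159.TM.H764 (EE)
open Vale.Agent.P159.H37
open Vale.Agent.P159.TM.Spec (V)
open Vale.Agent.P159.TM.SpecC (wT)
open Vale.Agent.P159.H864 (TI sym cobV l_pos lapM ti_lapM)
open Vale.Agent.P159.H963 (Neu pin Pn nwt nMC obsN Gnc PinC)
open Vale.Agent.P159.H859 (Sgn)
open Vale.Agent.P159.H730 (wN)
open Vale.Agent.P159.H447
open Vale.Agent.P159.H239 (TypE)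

noncomputable section

variable {N l : ℕ} [NeZero N] [NeZero (N / l)] {b T s : ℝ}

/-- the strong level at amplitude `2 ^ j` -/
def lvS (ρ : ℝ) (j k : ℕ) : ℝ := 576 * 16 ^ j * ρ ^ (1 - (1 / 2 : ℝ) ^ k)

/-- **amplitude `2 ^ j` at the strong level**, Gaussian law of the source -/
theorem gau_strong {Y ρ p p' : ℝ} {j k : ℕ} (hb : 0 ≤ b) (hl : l ∣ N) (hs : 0 < s) (hsT : s < T)
    {I : Type*} [Fintype I] {A : Matrix (V (N / l)) I ℝ} (hA : A * Aᵀ = Sgn N l b T s)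
    (hAm : TypE N l b T s Y 1 p) (hSt : TypE N l b T s 1 ρ p') (hY : (2 : ℝ) ^ (j + k) ≤ Y)
    (hρ : ρ ≤ 1) (hp : p ≤ 1 / 2) (hp' : p' ≤ 1 / 2) :
    (gau I).real {g | lvS ρ j k < Rs (nwt N b T 0) ((2 : ℝ) ^ j • (((CN N l)ᵀ * A) *ᵥ g))} ≤
      6 * p + 6 * p' := by
  have hT : 0 < T := hs.trans hsT
  have hX := rl_tor hb hl hs hsT hA
  have hY1 : 1 ≤ Y := (one_le_pow₀ one_le_two).trans hY
  have h1 := H896.typ_gauss hb hl hs hsT hX hAm hY1 le_rfl hp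
  have h2 := H896.typ_gauss hb hl hs hsT hX hSt le_rfl hρ hp'
  have hem := H963.em_nwt (N := N) hb hT 0
  have hev : Ev (nwt N b T 0) := (H963.gw_wT hb).ev_nM _ _ 0
  have hpk : PK (nwt N b T 0) := by
    rw [← H963.nMC_self N l b T 0]
    exact H963.pk_nMC hb hl hT le_rfl 0
  refine (measureReal_mono (μ := gau I) (s₂ := {g : I → ℝ | 1 < Rs (nwt N b T 0)
      (Y • (((CN N l)ᵀ * A) *ᵥ g))} ∪ {g | ρ < Rs (nwt N b T 0) ((1 : ℝ) •
      (((CN N l)ᵀ * A) *ᵥ g))}) fun g hg => ?_).trans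
    ((measureReal_union_le _ _).trans (add_le_add h1 h2))
  simp only [Set.mem_ofPred_eq, Set.mem_union] at hg ⊢
  by_contra hc
  rw [not_or, not_lt, not_lt, one_smul] at hc
  obtain ⟨c1, c2⟩ := hc
  have c3 : Rs (nwt N b T 0) ((2 : ℝ) ^ (j + k) • (((CN N l)ᵀ * A) *ᵥ g)) ≤ 1 :=
    (H239.rs_ray hb hT _ (by positivity) hY).trans c1
  exact absurd (H896.amp_le hem hev hpk c3 c2) (not_le.2 hg)

/-- **linear images**, Gaussian law of the source -/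
theorem gau_lin {Y ρ p p' κ K : ℝ} {j k : ℕ} (hb : 0 ≤ b) (hl : l ∣ N) (hs : 0 < s) (hsT : s < T)
    {I : Type*} [Fintype I] {A : Matrix (V (N / l)) I ℝ} (hA : A * Aᵀ = Sgn N l b T s)
    (hAm : TypE N l b T s Y 1 p) (hSt : TypE N l b T s 1 ρ p') (hY : (2 : ℝ) ^ (j + k) ≤ Y)
    (hρ : ρ ≤ 1) (hp : p ≤ 1 / 2) (hp' : p' ≤ 1 / 2) {L : Matrix (V N) (V N) ℝ}
    (hL : (K • Gam N l b T s - L * Gam N l b T s * Lᵀ).PosSemidef) (hK : 0 ≤ K) (hκ : 0 ≤ κ)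
    (hκK : κ * √K ≤ 2 ^ j) :
    (gau I).real {g | lvS ρ j k < Rs (nwt N b T 0) (κ • (L *ᵥ (((CN N l)ᵀ * A) *ᵥ g)))} ≤
      12 * (p + p') := by
  have hT : 0 < T := hs.trans hsT
  have hM := maj_nwt (N := N) hb hT 0
  have h1 : ((√K ^ 2) • (((CN N l)ᵀ * A) * ((CN N l)ᵀ * A)ᵀ) -
      (L * ((CN N l)ᵀ * A)) * (L * ((CN N l)ᵀ * A))ᵀ).PosSemidef := by
    rw [Real.sq_sqrt hK, Gam_real hA, transpose_mul, ← Matrix.mul_assoc,
      Matrix.mul_assoc L, Gam_real hA]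
    exact hL
  have h2 := hM.prob_psd κ (√K) h1 (lvS ρ j k)
  have h3 := gau_strong hb hl hs hsT hA hAm hSt hY hρ hp hp'
  have h4 : (gau I).real {g | lvS ρ j k < Rs (nwt N b T 0) ((κ * √K) •
      (((CN N l)ᵀ * A) *ᵥ g))} ≤ 6 * p + 6 * p' := by
    refine (measureReal_mono fun g hg => ?_).trans h3
    simp only [Set.mem_ofPred_eq] at hg ⊢
    exact hg.trans_le (H239.rs_ray hb hT _ (by positivity) hκK)
  have h5 : {g : I → ℝ | lvS ρ j k < Rs (nwt N b T 0) (κ • (L *ᵥ (((CN N l)ᵀ * A) *ᵥ g)))} =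
      {g | lvS ρ j k < Rs (nwt N b T 0) (κ • ((L * ((CN N l)ᵀ * A)) *ᵥ g))} := by
    ext g
    simp only [Set.mem_ofPred_eq, mulVec_mulVec]
  rw [h5]
  refine h2.trans ?_
  linarith

/-- **linear images of the source, strong level, exact law, every prior mass** -/
theorem typ_lin {Y ρ p p' κ K : ℝ} {j k : ℕ} (hb : 0 < b) (hl : l ∣ N) (hs : 0 < s) (hsT : s < T)
    (hAm : TypE N l b T s Y 1 p) (hSt : TypE N l b T s 1 ρ p') (hY : (2 : ℝ) ^ (j + k) ≤ Y)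
    (hρ : ρ ≤ 1) (hp : p ≤ 1 / 2) (hp' : p' ≤ 1 / 2) {L : Matrix (V N) (V N) ℝ}
    (hL : (K • Gam N l b T s - L * Gam N l b T s * Lᵀ).PosSemidef) (hK : 0 ≤ K) (hκ : 0 ≤ κ)
    (hκK : κ * √K ≤ 2 ^ j) :
    Ech (wN N l b T s) 0 (obsN N l (T - s))
      ({J : V N → ℝ | Rs (nwt N b T 0) (κ • (L *ᵥ J)) ≤ lvS ρ j k}ᶜ.indicator
        fun _ => (1 : ℝ)) ≤ 34 * (p + p') := by
  have hT : 0 < T := hs.trans hsT
  have hY1 : 1 ≤ Y := (one_le_pow₀ one_le_two).trans hY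
  have hd := H859.dat_neu' (N := N) (l := l) (t := T) hb hl hT
  obtain ⟨A, hA⟩ := H239.exists_increment (hd.pd hs hsT).posSemidef
  have hA' : A * Aᵀ = Sgn N l b T s := hA.symm
  have h2 := gau_lin hb.le hl hs hsT hA' hAm hSt hY hρ hp hp' hL hK hκ hκK
  have hm : MeasurableSet {J : V N → ℝ | Rs (nwt N b T 0) (κ • (L *ᵥ J)) ≤ lvS ρ j k} := by
    refine measurableSet_le ?_ measurable_const
    exact (H239.rs_meas hb.le hT).comp ((H552.meas_mulVec L).const_smul κ)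
  have hm0 : MeasurableSet {J : V N → ℝ | Rs (nwt N b T 0) J ≤ 1} := by
    have := H239.typ_meas (N := N) hb.le hT 1 1
    simpa only [one_smul] using this
  have h3 : (gau (V (N / l))).real {g | ((CN N l)ᵀ * A) *ᵥ g ∉
      {J : V N → ℝ | Rs (nwt N b T 0) (κ • (L *ᵥ J)) ≤ lvS ρ j k}} ≤ 12 * (p + p') := by
    refine le_trans (le_of_eq ?_) h2
    congr 1
    ext g
    simp only [Set.mem_ofPred_eq, not_le]
  have h4 := bad_law hb.le hl hs hsT hA' hm hm0 (fun J hJ => hJ)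
  have h5 : Ech (wN N l b T s) 0 (obsN N l (T - s))
      ({J : V N → ℝ | Rs (nwt N b T 0) J ≤ 1}ᶜ.indicator fun _ => (1 : ℝ)) ≤ p := by
    have h6 := hAm.mono hb.le hl hs hsT.le zero_le_one hY1 le_rfl le_rfl
    unfold TypE at h6
    simpa only [one_smul] using h6
  refine h4.trans ?_
  have hp0 := hAm.nonneg hb.le hl hs hsT.le
  have hp1 := hSt.nonneg hb.le hl hs hsT.le
  have h7 : Real.exp 1 ≤ 2.7182818286 := Real.exp_one_lt_d9.le
  have h9 : Real.exp 1 * (gau (V (N / l))).real {g | ((CN N l)ᵀ * A) *ᵥ g ∉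
      {J : V N → ℝ | Rs (nwt N b T 0) (κ • (L *ᵥ J)) ≤ lvS ρ j k}} ≤
      2.7182818286 * (12 * (p + p')) :=
    mul_le_mul h7 h3 measureReal_nonneg (by norm_num)
  nlinarith

/-- **linear maps of the cells** -/
theorem typ_LM {Y ρ p p' κ κ₀ q : ℝ} {j k : ℕ} (hb : 0 < b) (hl : l ∣ N) (hs : 0 < s) (hsT : s < T)
    (hAm : TypE N l b T s Y 1 p) (hSt : TypE N l b T s 1 ρ p') (hY : (2 : ℝ) ^ (j + k) ≤ Y)
    (hρ : ρ ≤ 1) (hp : p ≤ 1 / 2) (hp' : p' ≤ 1 / 2) (hκ₀ : 1 ≤ κ₀)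
    (hP : ∀ q : V (N / l), q ≠ 0 → EE q ≤ T * (l : ℝ) ^ 2 →
      (l : ℝ) ^ 2 * PinC N l b T T q ≤ κ₀ * EE q)
    {C : Matrix (V (N / l)) (V (N / l)) ℝ} (h : LM q C) (hq : 0 ≤ q) (hκ : 0 ≤ κ)
    (hκK : κ * √(2 * (q * max 1 (b * κ₀))) ≤ 2 ^ j) :
    Ech (wN N l b T s) 0 (obsN N l (T - s))
      ({J : V N → ℝ | Rs (nwt N b T 0) (κ • (up1 N l C *ᵥ J)) ≤ lvS ρ j k}ᶜ.indicator
        fun _ => (1 : ℝ)) ≤ 34 * (p + p') :=
  typ_lin hb hl hs hsT hAm hSt hY hρ hp hp' (dom_site hb hl hs hsT hκ₀ hP h hq)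
    (mul_nonneg zero_le_two (mul_nonneg hq (zero_le_one.trans (le_max_left _ _)))) hκ hκK

end

end Vale.Agent.P159.H789
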