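import Vale.Agent.P159.H789.StC

/-!
P159 (helper789), **strong R numbers**, part E: maps on the sites seen from the cells.

* `Q_cell`  : `|u (. + z) - u|² ≤ 8 (q / l + 3)² dirE f` for `u = cobVᵀ f`, `|z| ≤ q`;
* `Kr q K`  : averaging kernels on the sites (convolution with a probability kernel of range `q`);
* `Kr.cell` : `cobV (a (K₁ - K₂)) cobVᵀ` is in the class `LM (8 + 128 (A (q + 3 l))²)`.
-/

set_option linter.unusedSectionVars false

namespace Vale.Agent.P159.H789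

open Finset Matrix
open Vale.Agent.P159.TM.H764 (EE Q grd)
open Vale.Agent.P159.H37
open Vale.Agent.P159.TM.Spec (V)
open Vale.Agent.P159.H864 (TI sym lapM ti_lapM cobV l_pos cl up cl1)

noncomputable section

variable {N l : ℕ} [NeZero N] [NeZero (N / l)]

/-- the cell of a sum -/
lemma cl1_add (hl : l ∣ N) (x z : ZMod N) :
    (cl1 (x + z) : ZMod (N / l)) = cl1 x + cl1 z ∨ (cl1 (x + z) : ZMod (N / l)) = cl1 x + cl1 z + 1 := by
  have h1 : (cl1 (x + z) : ZMod (N / l)) = (((x.val + z.val) / l : ℕ) : ZMod (N / l)) := by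
    unfold cl1
    rw [ZMod.val_add]
    have e : N = l * (N / l) := (Nat.mul_div_cancel' hl).symm
    have e2 : (x.val + z.val) % N = (x.val + z.val) % (l * (N / l)) := by rw [← e]
    rw [e2, Nat.mod_mul_right_div_self, ZMod.natCast_mod]
  rw [h1, Nat.add_div (l_pos hl)]
  unfold cl1
  split_ifs
  · right
    push_cast
    ring
  · left
    push_cast
    ring

lemma nat_abs_cast_le {n : ℕ} [NeZero n] (m : ℕ) : ((m : ZMod n).valMinAbs).natAbs ≤ m := by
  rw [ZMod.valMinAbs_natAbs_eq_min]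
  refine (min_le_left _ _).trans ?_
  rw [ZMod.val_natCast]
  exact Nat.mod_le _ _

lemma abs_add_le' {n : ℕ} [NeZero n] (a c : ZMod n) :
    ((a + c).valMinAbs).natAbs ≤ a.valMinAbs.natAbs + c.valMinAbs.natAbs :=
  (ZMod.natAbs_valMinAbs_add_le a c).trans (Int.natAbs_add_le _ _)

/-- the cell of a short vector is short -/
lemma cl1_short (hl : l ∣ N) {q : ℕ} {z : ZMod N} (hz : z.valMinAbs.natAbs ≤ q) :
    ((cl1 z : ZMod (N / l)).valMinAbs).natAbs ≤ q / l + 1 := by
  have hp : ∀ j : ℕ, j ≤ q → j < N → ((cl1 (j : ZMod N) : ZMod (N / l)).valMinAbs).natAbs ≤ q / l := by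
    intro j hj hjN
    unfold cl1
    rw [ZMod.val_natCast, Nat.mod_eq_of_lt hjN]
    exact (nat_abs_cast_le _).trans (Nat.div_le_div_right hj)
  have hlt : z.valMinAbs.natAbs < N := by
    have h1 := ZMod.natAbs_valMinAbs_le z
    have h2 := NeZero.pos N
    omega
  have hc : z = (z.valMinAbs.natAbs : ZMod N) ∨ z = -(z.valMinAbs.natAbs : ZMod N) := by
    rcases Int.natAbs_eq z.valMinAbs with h | h
    · left
      have h2 := ZMod.coe_valMinAbs z
      rw [h, Int.cast_natCast] at h2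
      exact h2.symm
    · right
      have h2 := ZMod.coe_valMinAbs z
      rw [h, Int.cast_neg, Int.cast_natCast] at h2
      exact h2.symm
  rcases hc with h | h
  · rw [h]
    exact (hp _ hz hlt).trans (Nat.le_succ _)
  · have h0 : (cl1 ((z.valMinAbs.natAbs : ZMod N) + z) : ZMod (N / l)) = 0 := by
      have e : (z.valMinAbs.natAbs : ZMod N) + z = 0 := by
        nth_rw 2 [h]
        ring
      rw [e]
      exact H864.cl1_zero
    have h3 := hp _ hz hlt
    rcases cl1_add hl (z.valMinAbs.natAbs : ZMod N) z with h4 | h4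
    · rw [h0] at h4
      have h5 : (cl1 z : ZMod (N / l)) = -cl1 (z.valMinAbs.natAbs : ZMod N) := by
        rw [eq_neg_iff_add_eq_zero, add_comm, ← h4]
      rw [h5, ZMod.natAbs_valMinAbs_neg]
      omega
    · rw [h0] at h4
      have h5 : (cl1 z : ZMod (N / l)) = -(cl1 (z.valMinAbs.natAbs : ZMod N) + 1) := by
        rw [eq_neg_iff_add_eq_zero]
        linear_combination -h4
      rw [h5, ZMod.natAbs_valMinAbs_neg]
      have h6 := abs_add_le' (cl1 (z.valMinAbs.natAbs : ZMod N) : ZMod (N / l)) 1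
      have h7 : ((1 : ZMod (N / l)).valMinAbs).natAbs ≤ 1 := by
        have := nat_abs_cast_le (n := N / l) 1
        rwa [Nat.cast_one] at this
      omega

/-- the energy of a displacement of a cell function, displacements by cells -/
lemma Q_le_disp (f : V (N / l) → ℝ) (d : V (N / l)) {m : ℕ} (h1 : d.1.valMinAbs.natAbs ≤ m)
    (h2 : d.2.valMinAbs.natAbs ≤ m) : Q f d ≤ 2 * (m : ℝ) ^ 2 * grd f := by
  refine (H859.Q_le f d).trans ?_
  refine mul_le_mul_of_nonneg_right ?_ (H859.grd_nonneg f)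
  refine mul_le_mul_of_nonneg_left ?_ zero_le_two
  refine pow_le_pow_left₀ (Nat.cast_nonneg _) ?_ 2
  have : TM.H764.nrm d ≤ m := max_le h1 h2
  exact_mod_cast this

/-- **piecewise constant functions** -/
theorem Q_cell (hl : l ∣ N) (f : V (N / l) → ℝ) {z : V N} {q : ℕ} (hz : TM.H764.nrm z ≤ q) :
    Q ((cobV N l)ᵀ *ᵥ f) z ≤ 8 * ((q : ℝ) / l + 3) ^ 2 * grd f := by
  have hl0 : (0 : ℝ) < l := by exact_mod_cast l_pos hl
  -- the four displacements
  obtain ⟨D, hD⟩ : ∃ D : Finset (V (N / l)), D = {cl z, cl z + (1, 0), cl z + (0, 1),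
    cl z + (1, 1)} := ⟨_, rfl⟩
  have hcl : ∀ x : V N, cl (x + z) - cl x ∈ D := by
    intro x
    rw [hD]
    simp only [Finset.mem_insert, Finset.mem_singleton]
    have e1 : (cl (x + z) : V (N / l)) = (cl1 (x.1 + z.1), cl1 (x.2 + z.2)) := rfl
    have e2 : (cl x : V (N / l)) = (cl1 x.1, cl1 x.2) := rfl
    have e3 : (cl z : V (N / l)) = (cl1 z.1, cl1 z.2) := rfl
    rw [e1, e2, e3]
    rcases cl1_add (l := l) hl x.1 z.1 with h1 | h1 <;>
      rcases cl1_add (l := l) hl x.2 z.2 with h2 | h2 <;> rw [h1, h2]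
    · left
      ext <;> simp
    · right; right; left
      ext <;> simp
      ring
    · right; left
      ext <;> simp
      ring
    · right; right; right
      ext <;> simp <;> ring
  have hcard : D.card ≤ 4 := by
    rw [hD]
    exact Finset.card_le_four
  have h3 : ∀ x : V N, (((cobV N l)ᵀ *ᵥ f) (x + z) - ((cobV N l)ᵀ *ᵥ f) x) ^ 2 ≤
      ∑ d ∈ D, (l : ℝ)⁻¹ ^ 2 * (f (cl x + d) - f (cl x)) ^ 2 := by
    intro x
    rw [H864.cobV_tr_mulVec, H864.cobV_tr_mulVec, ← mul_sub, mul_pow]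
    have e : (cl (x + z) : V (N / l)) = cl x + (cl (x + z) - cl x) := by abel
    rw [e]
    exact Finset.single_le_sum (f := fun d => (l : ℝ)⁻¹ ^ 2 * (f (cl x + d) - f (cl x)) ^ 2)
      (fun d _ => by positivity) (hcl x)
  have h4 : ∀ d : V (N / l), ∑ x : V N, (l : ℝ)⁻¹ ^ 2 * (f (cl x + d) - f (cl x)) ^ 2 = Q f d := by
    intro d
    unfold Q
    rw [← Finset.sum_fiberwise (s := (univ : Finset (V N))) (g := fun x => (cl x : V (N / l)))
      (f := fun x => (l : ℝ)⁻¹ ^ 2 * (f (cl x + d) - f (cl x)) ^ 2)]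
    refine Finset.sum_congr rfl fun c _ => ?_
    have e : ∑ x ∈ univ.filter (fun x : V N => (cl x : V (N / l)) = c),
        (l : ℝ)⁻¹ ^ 2 * (f (cl x + d) - f (cl x)) ^ 2 =
        ∑ _x ∈ univ.filter (fun x : V N => (cl x : V (N / l)) = c),
          (l : ℝ)⁻¹ ^ 2 * (f (c + d) - f c) ^ 2 := by
      refine Finset.sum_congr rfl fun x hx => ?_
      rw [(Finset.mem_filter.1 hx).2]
    rw [e, Finset.sum_const, nsmul_eq_mul, H864.card_cell hl, ← mul_assoc, ← mul_pow,
      mul_inv_cancel₀ hl0.ne', one_pow, one_mul]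
  have h5 : ∀ d ∈ D, Q f d ≤ 2 * ((q / l + 3 : ℕ) : ℝ) ^ 2 * grd f := by
    intro d hd
    have g1 : (cl1 z.1 : ZMod (N / l)).valMinAbs.natAbs ≤ q / l + 1 :=
      cl1_short hl ((le_max_left _ _).trans hz)
    have g2 : (cl1 z.2 : ZMod (N / l)).valMinAbs.natAbs ≤ q / l + 1 :=
      cl1_short hl ((le_max_right _ _).trans hz)
    have g3 : ((1 : ZMod (N / l)).valMinAbs).natAbs ≤ 1 := by
      have := nat_abs_cast_le (n := N / l) 1
      rwa [Nat.cast_one] at this
    have g4 := abs_add_le' (cl1 z.1 : ZMod (N / l)) 1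
    have g5 := abs_add_le' (cl1 z.2 : ZMod (N / l)) 1
    have e3 : (cl z : V (N / l)) = (cl1 z.1, cl1 z.2) := rfl
    rw [hD] at hd
    simp only [Finset.mem_insert, Finset.mem_singleton] at hd
    rcases hd with h | h | h | h <;> rw [h, e3] <;> refine Q_le_disp f _ ?_ ?_ <;>
      simp only [Prod.fst_add, Prod.snd_add, add_zero] <;> omega
  have h6 : Q ((cobV N l)ᵀ *ᵥ f) z ≤ ∑ d ∈ D, Q f d := by
    have h7 : Q ((cobV N l)ᵀ *ᵥ f) z ≤
        ∑ x : V N, ∑ d ∈ D, (l : ℝ)⁻¹ ^ 2 * (f (cl x + d) - f (cl x)) ^ 2 :=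
      Finset.sum_le_sum fun x _ => h3 x
    rw [Finset.sum_comm] at h7
    refine h7.trans (le_of_eq ?_)
    exact Finset.sum_congr rfl fun d _ => h4 d
  refine h6.trans ((Finset.sum_le_card_nsmul _ _ _ h5).trans ?_)
  rw [nsmul_eq_mul]
  have hg := H859.grd_nonneg f
  have h8 : ((q / l + 3 : ℕ) : ℝ) ≤ (q : ℝ) / l + 3 := by
    push_cast
    have := @Nat.cast_div_le ℝ _ _ _ q l
    linarith
  have h9 : ((q / l + 3 : ℕ) : ℝ) ^ 2 ≤ ((q : ℝ) / l + 3) ^ 2 :=
    pow_le_pow_left₀ (Nat.cast_nonneg _) h8 2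
  have h10 : (D.card : ℝ) ≤ 4 := by exact_mod_cast hcard
  have h11 : 0 ≤ 2 * ((q / l + 3 : ℕ) : ℝ) ^ 2 * grd f := by positivity
  calc (D.card : ℝ) * (2 * ((q / l + 3 : ℕ) : ℝ) ^ 2 * grd f)
      ≤ 4 * (2 * ((q / l + 3 : ℕ) : ℝ) ^ 2 * grd f) := mul_le_mul_of_nonneg_right h10 h11
    _ ≤ 4 * (2 * ((q : ℝ) / l + 3) ^ 2 * grd f) := by
      refine mul_le_mul_of_nonneg_left ?_ (by norm_num)
      refine mul_le_mul_of_nonneg_right ?_ hg
      exact mul_le_mul_of_nonneg_left h9 (by norm_num)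
    _ = _ := by ring

end

end Vale.Agent.P159.H789
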