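import Vale.Agent.P159.H789.StE
import Vale.Agent.P159.H789.StB
import Vale.Agent.P159.H789.StD

/-!
P159 (helper789), **strong R numbers**, part F: smooth local cuts on the sites, cell channel.

* `Kr q K`    : convolution with a probability kernel of range `q` on the sites;
* `Kr.cell`   : `cobV (a (K₁ - K₂)) cobVᵀ` is in the class `LM (8 + 128 (A (q + 3 l))²)`;
* `cut_cell`  : strong level of `Rs (kap • cellP (Pn a (K₁ - K₂) J))` in the cell channel, every prior.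
-/

set_option linter.unusedSectionVars false

namespace Vale.Agent.P159.H789

open Finset Matrix MeasureTheory
open Vale.Agent.P159.TM.H764 (EE Q grd)
open Vale.Agent.P159.H37
open Vale.Agent.P159.TM.Spec (V)
open Vale.Agent.P159.H864 (TI sym lapM ti_lapM cobV l_pos cl up cl1)
open Vale.Agent.P159.H963 (Neu pin Pn nwt nMC obsN Gnc PinC)
open Vale.Agent.P159.H859 (Sgn Rk)
open Vale.Agent.P159.H730 (wN)
open Vale.Agent.P159.H447
open Vale.Agent.P159.H239 (TypE)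

noncomputable section

section ker

variable {M : ℕ} [NeZero M]

/-- convolution with a probability kernel of range `q` -/
def Kr (q : ℕ) (K : Matrix (V M) (V M) ℝ) : Prop :=
  ∃ w : V M → ℝ, (∀ z, 0 ≤ w z) ∧ ∑ z, w z = 1 ∧ (∀ z, w z ≠ 0 → TM.H764.nrm z ≤ q) ∧ K = cvm w

variable {q q' : ℕ} {K : Matrix (V M) (V M) ℝ}

lemma Kr.cn (h : Kr q K) (f : V M → ℝ) : ∑ x, (K *ᵥ f) x ^ 2 ≤ ∑ x, f x ^ 2 := by
  obtain ⟨w, h0, h1, _, rfl⟩ := h
  exact cvm_cn h0 h1 f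

lemma cvm_tr (w : V M → ℝ) : (cvm w)ᵀ = cvm fun z => w (-z) := by
  ext x y
  unfold cvm
  simp only [Matrix.transpose_apply, Matrix.of_apply, neg_sub]

lemma Kr.tr (h : Kr q K) : Kr q Kᵀ := by
  obtain ⟨w, h0, h1, h2, rfl⟩ := h
  refine ⟨fun z => w (-z), fun z => h0 _, ?_, fun z hz => ?_, cvm_tr w⟩
  · rw [← h1]
    exact Equiv.sum_comp (Equiv.neg (V M)) w
  · have h3 := h2 _ hz
    unfold TM.H764.nrm at h3 ⊢
    simpa only [Prod.fst_neg, Prod.snd_neg, ZMod.natAbs_valMinAbs_neg] using h3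

lemma Kr.disp (h : Kr q K) (f : V M → ℝ) (e : V M) : Q (K *ᵥ f) e ≤ Q f e := by
  obtain ⟨w, h0, h1, _, rfl⟩ := h
  unfold Q
  have h3 := cvm_cn h0 h1 (fun x => f (x + e) - f x)
  refine le_trans (le_of_eq ?_) h3
  refine Finset.sum_congr rfl fun x _ => ?_
  rw [cvm_apply, cvm_apply, cvm_apply, ← Finset.sum_sub_distrib]
  congr 1
  refine Finset.sum_congr rfl fun z _ => ?_
  have e1 : x + e + z = x + z + e := by abel
  rw [e1]
  ring

lemma Kr.ap (h : Kr q K) (f : V M → ℝ) {B : ℝ} (hB : ∀ z, TM.H764.nrm z ≤ q → Q f z ≤ B) :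
    ∑ x, (f x - (K *ᵥ f) x) ^ 2 ≤ B := by
  obtain ⟨w, h0, h1, h2, rfl⟩ := h
  have h3 : ∀ x, (f x - (cvm w *ᵥ f) x) ^ 2 ≤ ∑ z, w z * (f (x + z) - f x) ^ 2 := by
    intro x
    have e1 : f x - (cvm w *ᵥ f) x = -∑ z, w z * (f (x + z) - f x) := by
      rw [cvm_apply]
      have e2 : ∑ z, w z * (f (x + z) - f x) = ∑ z, w z * f (x + z) - (∑ z, w z) * f x := by
        rw [Finset.sum_mul, ← Finset.sum_sub_distrib]
        exact Finset.sum_congr rfl fun z _ => by ring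
      rw [e2, h1]
      ring
    rw [e1, neg_sq]
    exact wt_sq h0 h1
  refine (Finset.sum_le_sum fun x _ => h3 x).trans ?_
  rw [Finset.sum_comm]
  have h4 : ∀ z, ∑ x, w z * (f (x + z) - f x) ^ 2 ≤ w z * B := by
    intro z
    rw [← Finset.mul_sum]
    by_cases hz : w z = 0
    · rw [hz]
      simp
    · exact mul_le_mul_of_nonneg_left (hB z (h2 z hz)) (h0 z)
  refine (Finset.sum_le_sum fun z _ => h4 z).trans (le_of_eq ?_)
  rw [← Finset.sum_mul, h1, one_mul]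

lemma Kr.mono (h : Kr q K) (hq : q ≤ q') : Kr q' K := by
  obtain ⟨w, h0, h1, h2, h3⟩ := h
  exact ⟨w, h0, h1, fun z hz => (h2 z hz).trans hq, h3⟩

lemma Kr.one : Kr q (1 : Matrix (V M) (V M) ℝ) := by
  refine ⟨fun z => if z = 0 then 1 else 0, fun z => ?_, ?_, fun z hz => ?_, ?_⟩
  · show (0 : ℝ) ≤ if z = 0 then 1 else 0
    split_ifs <;> norm_num
  · rw [Finset.sum_ite_eq' Finset.univ (0 : V M) fun _ => (1 : ℝ)]
    simp
  · by_cases h : z = 0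
    · rw [h]
      unfold TM.H764.nrm
      simp
    · simp [h] at hz
  · ext x y
    unfold cvm
    simp only [Matrix.of_apply, Matrix.one_apply, sub_eq_zero]
    by_cases h : x = y
    · rw [if_pos h, if_pos h.symm]
    · rw [if_neg h, if_neg (Ne.symm h)]

/-- entries non negative, translation invariant, row sums one -/
lemma Kr.of_ti (hK : TI K) (h0 : ∀ x y, 0 ≤ K x y) (h1 : ∑ y, K 0 y = 1)
    (h2 : ∀ z, K 0 z ≠ 0 → TM.H764.nrm z ≤ q) : Kr q K := by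
  refine ⟨K 0, fun z => h0 _ _, h1, h2, ?_⟩
  ext x y
  unfold cvm
  rw [Matrix.of_apply, hK.eq x y]

end ker

variable {N l : ℕ} [NeZero N] [NeZero (N / l)] {b T s : ℝ}

/-- displacements of a slowly varying function -/
lemma disp_le {a : V N → ℝ} {A : ℝ} {e : V N} (hA : ∀ x, |a (x + e) - a x| ≤ A) (m : ℕ) (x : V N) :
    |a (x + m • e) - a x| ≤ m * A := by
  induction m with
  | zero => simp
  | succ m ih =>
    have e1 : x + (m + 1) • e = x + m • e + e := by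
      rw [add_smul, one_smul, add_assoc]
    rw [e1]
    have h1 := hA (x + m • e)
    have h2 := abs_sub_le (a (x + m • e + e)) (a (x + m • e)) (a x)
    push_cast
    linarith

lemma up_eq1 : (up ((1, 0) : V (N / l)) : V N) = (l * (1 : ZMod (N / l)).val) • ((1, 0) : V N) := by
  unfold H864.up H864.up1
  ext
  · simp
  · simp

lemma up_eq2 : (up ((0, 1) : V (N / l)) : V N) = (l * (1 : ZMod (N / l)).val) • ((0, 1) : V N) := by
  unfold H864.up H864.up1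
  ext
  · simp
  · simp

lemma Q_smul_add {a g : V N → ℝ} {B : ℝ} {e : V N} (ha : ∀ x, |a x| ≤ 1)
    (hB : ∀ x, |a (x + e) - a x| ≤ B) :
    Q (fun x => a x * g x) e ≤ 2 * Q g e + 2 * B ^ 2 * ∑ x, g x ^ 2 := by
  unfold Q
  rw [Finset.mul_sum, Finset.mul_sum, ← Finset.sum_add_distrib]
  refine Finset.sum_le_sum fun x _ => ?_
  have h4 : a (x + e) ^ 2 ≤ 1 := by
    rw [sq_le_one_iff_abs_le_one]
    exact ha _
  have h5 : (a (x + e) - a x) ^ 2 ≤ B ^ 2 := by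
    rw [← sq_abs]
    exact pow_le_pow_left₀ (abs_nonneg _) (hB x) 2
  have h6 := mul_le_mul_of_nonneg_right h4 (sq_nonneg (g (x + e) - g x))
  have h7 := mul_le_mul_of_nonneg_right h5 (sq_nonneg (g x))
  have e2 : a (x + e) * g (x + e) - a x * g x =
      a (x + e) * (g (x + e) - g x) + (a (x + e) - a x) * g x := by ring
  rw [e2]
  nlinarith [sq_nonneg (a (x + e) * (g (x + e) - g x) - (a (x + e) - a x) * g x)]

lemma Q_up_cell (hl : l ∣ N) (f : V (N / l) → ℝ) (d : V (N / l)) :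
    Q ((cobV N l)ᵀ *ᵥ f) (up d) = Q f d := by
  have hl0 : (0 : ℝ) < l := by exact_mod_cast l_pos hl
  have h3 : ∀ x : V N, (((cobV N l)ᵀ *ᵥ f) (x + up d) - ((cobV N l)ᵀ *ᵥ f) x) ^ 2 =
      (l : ℝ)⁻¹ ^ 2 * (f (cl x + d) - f (cl x)) ^ 2 := by
    intro x
    rw [H864.cobV_tr_mulVec, H864.cobV_tr_mulVec, ← mul_sub, mul_pow, H864.cl_add_up hl]
  unfold Q
  simp_rw [h3]
  rw [← Finset.sum_fiberwise (s := (univ : Finset (V N))) (g := fun x => (cl x : V (N / l)))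
    (f := fun x => (l : ℝ)⁻¹ ^ 2 * (f (cl x + d) - f (cl x)) ^ 2)]
  refine Finset.sum_congr rfl fun c _ => ?_
  have e : ∑ x ∈ univ.filter (fun x : V N => (cl x : V (N / l)) = c),
      (l : ℝ)⁻¹ ^ 2 * (f (cl x + d) - f (cl x)) ^ 2 =
      ∑ _x ∈ univ.filter (fun x : V N => (cl x : V (N / l)) = c),
        (l : ℝ)⁻¹ ^ 2 * (f (c + d) - f c) ^ 2 := by
    refine Finset.sum_congr rfl fun x hx => ?_
    rw [(Finset.mem_filter.1 hx).2]
  rw [e, Finset.sum_const, nsmul_eq_mul, H864.card_cell hl, ← mul_assoc, ← mul_pow,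
    mul_inv_cancel₀ hl0.ne', one_pow, one_mul]

lemma sum_cobT (hl : l ∣ N) (f : V (N / l) → ℝ) :
    ∑ x, ((cobV N l)ᵀ *ᵥ f) x ^ 2 = ∑ c, f c ^ 2 := by
  have e : ∀ {ι : Type} [Fintype ι] (g : ι → ℝ), ∑ i, g i ^ 2 = g ⬝ᵥ g := fun g => by
    unfold dotProduct
    exact Finset.sum_congr rfl fun i _ => by ring
  rw [e, e, dotProduct_mulVec, Matrix.vecMul_transpose, mulVec_mulVec, H864.cobV_mul_tr hl,
    one_mulVec]

/-- **smooth local cuts on the sites, seen from the cells** -/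
theorem Kr.cell (hl : l ∣ N) {q : ℕ} {K₁ K₂ : Matrix (V N) (V N) ℝ} (h₁ : Kr q K₁) (h₂ : Kr q K₂)
    {a : V N → ℝ} {A : ℝ} (ha : ∀ x, |a x| ≤ 1) (hA1 : ∀ x, |a (x + (1, 0)) - a x| ≤ A)
    (hA2 : ∀ x, |a (x + (0, 1)) - a x| ≤ A) :
    LM (8 + 128 * (A * (q + 3 * l)) ^ 2)
      (cobV N l * (Matrix.diagonal a * (K₁ - K₂)) * (cobV N l)ᵀ) := by
  have hl0 : (0 : ℝ) < l := by exact_mod_cast l_pos hl
  have hA0 : 0 ≤ A := (abs_nonneg _).trans (hA1 0)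
  have e0 : ∀ f : V (N / l) → ℝ,
      (cobV N l * (Matrix.diagonal a * (K₁ - K₂)) * (cobV N l)ᵀ) *ᵥ f =
      cobV N l *ᵥ (fun x => a x * ((K₁ *ᵥ ((cobV N l)ᵀ *ᵥ f)) x -
        (K₂ *ᵥ ((cobV N l)ᵀ *ᵥ f)) x)) := by
    intro f
    rw [← mulVec_mulVec, ← mulVec_mulVec, ← mulVec_mulVec]
    congr 1
    funext x
    rw [Matrix.mulVec_diagonal, sub_mulVec, Pi.sub_apply]
  refine ⟨fun f => ?_, fun f => ?_⟩
  · rw [e0]
    have hu := sum_cobT hl f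
    have h3 := h₁.cn ((cobV N l)ᵀ *ᵥ f)
    have h4 := h₂.cn ((cobV N l)ᵀ *ᵥ f)
    rw [hu] at h3 h4
    obtain ⟨u₁, hu1⟩ : ∃ u₁, u₁ = K₁ *ᵥ ((cobV N l)ᵀ *ᵥ f) := ⟨_, rfl⟩
    obtain ⟨u₂, hu2⟩ : ∃ u₂, u₂ = K₂ *ᵥ ((cobV N l)ᵀ *ᵥ f) := ⟨_, rfl⟩
    rw [← hu1] at h3 ⊢
    rw [← hu2] at h4 ⊢
    have h5 : ∑ c, (cobV N l *ᵥ fun x => a x * (u₁ x - u₂ x)) c ^ 2 ≤
        ∑ x, (a x * (u₁ x - u₂ x)) ^ 2 := by
      rw [← H864.qf_cellP hl]
      exact H864.qf_cellP_le hl _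
    have h6 : ∑ x, (a x * (u₁ x - u₂ x)) ^ 2 ≤ ∑ x, (2 * u₁ x ^ 2 + 2 * u₂ x ^ 2) := by
      refine Finset.sum_le_sum fun x _ => ?_
      rw [mul_pow]
      have h7 : a x ^ 2 ≤ 1 := by
        rw [sq_le_one_iff_abs_le_one]
        exact ha x
      have h8 := mul_le_mul_of_nonneg_right h7 (sq_nonneg (u₁ x - u₂ x))
      nlinarith [sq_nonneg (u₁ x + u₂ x)]
    rw [Finset.sum_add_distrib, ← Finset.mul_sum, ← Finset.mul_sum] at h6
    have h9 : 0 ≤ ∑ c, f c ^ 2 := Finset.sum_nonneg fun _ _ => sq_nonneg _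
    have h10 : 0 ≤ 128 * (A * (q + 3 * l)) ^ 2 * ∑ c, f c ^ 2 := by positivity
    nlinarith
  · rw [e0]
    obtain ⟨u, hu⟩ : ∃ u, u = (cobV N l)ᵀ *ᵥ f := ⟨_, rfl⟩
    rw [← hu]
    obtain ⟨g, hg⟩ : ∃ g : V N → ℝ, g = fun x => (K₁ *ᵥ u) x - (K₂ *ᵥ u) x := ⟨_, rfl⟩
    have e1 : (fun x => a x * ((K₁ *ᵥ u) x - (K₂ *ᵥ u) x)) = fun x => a x * g x := by
      rw [hg]
    rw [e1]
    obtain ⟨B, hB⟩ : ∃ B, B = 8 * ((q : ℝ) / l + 3) ^ 2 * grd f := ⟨_, rfl⟩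
    have hf0 := H859.grd_nonneg f
    have hB0 : 0 ≤ B := by rw [hB]; positivity
    have hQu : ∀ z, TM.H764.nrm z ≤ q → Q u z ≤ B := fun z hz => by
      rw [hu, hB]
      exact Q_cell hl f hz
    have g1 := h₁.ap u hQu
    have g2 := h₂.ap u hQu
    have hgs : ∑ x, g x ^ 2 ≤ 4 * B := by
      have h3 : ∑ x, g x ^ 2 ≤ ∑ x, (2 * (u x - (K₁ *ᵥ u) x) ^ 2 + 2 * (u x - (K₂ *ᵥ u) x) ^ 2) := by
        refine Finset.sum_le_sum fun x _ => ?_
        rw [hg]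
        simp only
        nlinarith [sq_nonneg ((u x - (K₁ *ᵥ u) x) + (u x - (K₂ *ᵥ u) x))]
      rw [Finset.sum_add_distrib, ← Finset.mul_sum, ← Finset.mul_sum] at h3
      linarith
    have hQg : ∀ d : V (N / l), Q g (up d) ≤ 4 * Q f d := by
      intro d
      have h3 : Q g (up d) ≤ 2 * Q (K₁ *ᵥ u) (up d) + 2 * Q (K₂ *ᵥ u) (up d) := by
        unfold Q
        rw [Finset.mul_sum, Finset.mul_sum, ← Finset.sum_add_distrib]
        refine Finset.sum_le_sum fun x _ => ?_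
        rw [hg]
        simp only
        nlinarith [sq_nonneg (((K₁ *ᵥ u) (x + up d) - (K₁ *ᵥ u) x) +
          ((K₂ *ᵥ u) (x + up d) - (K₂ *ᵥ u) x))]
      have h4 := h₁.disp u (up d)
      have h5 := h₂.disp u (up d)
      have h6 : Q u (up d) = Q f d := by rw [hu]; exact Q_up_cell hl f d
      rw [h6] at h4 h5
      linarith
    have hv := val_one_le (n := N / l)
    have hm : ((l * (1 : ZMod (N / l)).val : ℕ) : ℝ) * A ≤ l * A := by
      refine mul_le_mul_of_nonneg_right ?_ hA0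
      exact_mod_cast (Nat.mul_le_mul_left l hv).trans (by rw [mul_one])
    have d1 : ∀ x, |a (x + up ((1, 0) : V (N / l))) - a x| ≤ l * A := fun x => by
      rw [up_eq1]
      exact (disp_le hA1 _ x).trans hm
    have d2 : ∀ x, |a (x + up ((0, 1) : V (N / l))) - a x| ≤ l * A := fun x => by
      rw [up_eq2]
      exact (disp_le hA2 _ x).trans hm
    have q1 := (Q_cob hl (fun x => a x * g x) ((1, 0) : V (N / l))).trans (Q_smul_add ha d1)
    have q2 := (Q_cob hl (fun x => a x * g x) ((0, 1) : V (N / l))).trans (Q_smul_add ha d2)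
    have q3 := hQg (1, 0)
    have q4 := hQg (0, 1)
    rw [H864.qf_lapM, H864.qf_lapM]
    have q5 : grd (cobV N l *ᵥ fun x => a x * g x) ≤ 8 * grd f + 4 * (l * A) ^ 2 * (4 * B) := by
      have h7 : 2 * (l * A) ^ 2 * ∑ x, g x ^ 2 ≤ 2 * (l * A) ^ 2 * (4 * B) :=
        mul_le_mul_of_nonneg_left hgs (by positivity)
      unfold grd
      linarith
    refine q5.trans (le_of_eq ?_)
    rw [hB]
    field_simp
    ring

/-! ### the cell channel -/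

lemma Pn_cobT (hl : l ∣ N) : (Pn : Matrix (V N) (V N) ℝ) * (cobV N l)ᵀ =
    (cobV N l)ᵀ * (Pn : Matrix (V (N / l)) (V (N / l)) ℝ) := by
  have h3 := congrArg Matrix.transpose (H963.cobV_mul_Pn (N := N) (l := l) hl)
  have h1 : (Pn : Matrix (V N) (V N) ℝ)ᵀ = Pn := H963.ti_Pn.transpose
  have h2 : (Pn : Matrix (V (N / l)) (V (N / l)) ℝ)ᵀ = Pn := H963.ti_Pn.transpose
  rwa [transpose_mul, transpose_mul, h1, h2] at h3

lemma CNt_eq : (CN N l)ᵀ = (cobV N l)ᵀ * (Pn : Matrix (V (N / l)) (V (N / l)) ℝ) := by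
  have h2 : (Pn : Matrix (V (N / l)) (V (N / l)) ℝ)ᵀ = Pn := H963.ti_Pn.transpose
  unfold CN
  rw [transpose_mul, h2]

/-- a site map on the cell sources -/
lemma site_cell (hl : l ∣ N) (D : Matrix (V N) (V N) ℝ) :
    cellP N l * ((Pn : Matrix (V N) (V N) ℝ) * D) * (CN N l)ᵀ =
      up1 N l (cobV N l * D * (cobV N l)ᵀ) * (CN N l)ᵀ := by
  have h1 : cellP N l * (Pn : Matrix (V N) (V N) ℝ) = (CN N l)ᵀ * cobV N l := by
    rw [CNt_eq, H864.cellP_eq hl, Matrix.mul_assoc, H963.cobV_mul_Pn hl, ← Matrix.mul_assoc]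
  have h2 : up1 N l (cobV N l * D * (cobV N l)ᵀ) * (CN N l)ᵀ =
      (CN N l)ᵀ * (cobV N l * D * (cobV N l)ᵀ) * (Pn : Matrix (V (N / l)) (V (N / l)) ℝ) := by
    unfold up1
    rw [Matrix.mul_assoc, CN_CNt hl]
  rw [h2, ← Matrix.mul_assoc, h1, CNt_eq]
  simp only [Matrix.mul_assoc]

/-- **smooth local cuts on the sites: strong level in the cell channel, every prior mass** -/
theorem cut_cell {Y ρ p p' κ κ₀ A : ℝ} {j k q : ℕ} (hb : 0 < b) (hl : l ∣ N) (hs : 0 < s)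
    (hsT : s < T) (hAm : TypE N l b T s Y 1 p) (hSt : TypE N l b T s 1 ρ p')
    (hY : (2 : ℝ) ^ (j + k) ≤ Y) (hρ : ρ ≤ 1) (hp : p ≤ 1 / 2) (hp' : p' ≤ 1 / 2) (hκ₀ : 1 ≤ κ₀)
    (hP : ∀ q : V (N / l), q ≠ 0 → EE q ≤ T * (l : ℝ) ^ 2 →
      (l : ℝ) ^ 2 * PinC N l b T T q ≤ κ₀ * EE q)
    {K₁ K₂ : Matrix (V N) (V N) ℝ} (h₁ : Kr q K₁) (h₂ : Kr q K₂)
    {a : V N → ℝ} (ha : ∀ x, |a x| ≤ 1) (hA1 : ∀ x, |a (x + (1, 0)) - a x| ≤ A)
    (hA2 : ∀ x, |a (x + (0, 1)) - a x| ≤ A) (hκ : 0 ≤ κ)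
    (hκK : κ * √(2 * ((8 + 128 * (A * (q + 3 * l)) ^ 2) * max 1 (b * κ₀))) ≤ 2 ^ j) :
    Ech (wN N l b T s) 0 (obsN N l (T - s))
      ({J : V N → ℝ | Rs (nwt N b T 0) (κ • ((cellP N l * (Pn * (Matrix.diagonal a *
        (K₁ - K₂)))) *ᵥ J)) ≤ lvS ρ j k}ᶜ.indicator fun _ => (1 : ℝ)) ≤ 34 * (p + p') := by
  have hLM := Kr.cell hl h₁ h₂ ha hA1 hA2
  have hdom := dom_site hb hl hs hsT hκ₀ hP hLM (by positivity)
  refine typ_lin hb hl hs hsT hAm hSt hY hρ hp hp' (K := 2 * ((8 + 128 * (A * (q + 3 * l)) ^ 2) *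
    max 1 (b * κ₀))) ?_ (by positivity) hκ hκK
  have e1 : cellP N l * (Pn * (Matrix.diagonal a * (K₁ - K₂))) * Gam N l b T s *
      (cellP N l * (Pn * (Matrix.diagonal a * (K₁ - K₂))))ᵀ =
      up1 N l (cobV N l * (Matrix.diagonal a * (K₁ - K₂)) * (cobV N l)ᵀ) * Gam N l b T s *
      (up1 N l (cobV N l * (Matrix.diagonal a * (K₁ - K₂)) * (cobV N l)ᵀ))ᵀ := by
    obtain ⟨L, hL⟩ : ∃ L, L = cellP N l * (Pn * (Matrix.diagonal a * (K₁ - K₂))) := ⟨_, rfl⟩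
    obtain ⟨U, hU⟩ : ∃ U, U = up1 N l (cobV N l * (Matrix.diagonal a * (K₁ - K₂)) *
      (cobV N l)ᵀ) := ⟨_, rfl⟩
    have h1 : L * (CN N l)ᵀ = U * (CN N l)ᵀ := by
      rw [hL, hU]
      exact site_cell hl _
    have h2 : ∀ X : Matrix (V N) (V N) ℝ, X * Gam N l b T s * Xᵀ =
        (X * (CN N l)ᵀ) * Sgn N l b T s * (X * (CN N l)ᵀ)ᵀ := by
      intro X
      unfold Gam
      rw [transpose_mul, transpose_transpose]
      simp only [Matrix.mul_assoc]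
    rw [← hL, ← hU, h2 L, h2 U, h1]
  rw [e1]
  exact hdom

end

end Vale.Agent.P159.H789
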