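import Vale.Agent.P159.H663.Drl4

/-!
P159 (helper789), **strong R numbers**, part I: uniform bounds of the averaged field without a union
over the sites.

* `lin_mom`  : `E ⟨u, F⟩^(2 m) ≤ 4 (2 m)! W^m`, `W ≥ |u|²/t + 2 b |j|²`, `W ≥ |j|_∞²`;
* `Sv N h f` : three averages at the scale `h` (`bxT h (tT h f)`);
* `sup_dir`  : `ν {∃ x, Λ / h < |S f (x + d) - S f x|} ≤ 4 (N/h)² (1/4)^m`,
  `16 m² (8/(t h²) + 2 b + 1) ≤ Λ²`, for `f = tT N q F`.
-/

set_option linter.unusedSectionVars false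

open Finset Matrix MeasureTheory

namespace Vale.Agent.P159.H789

open Vale.Agent.P159.TM.Spec (V)
open Vale.Agent.P159.TM.SpecC (Tor wT)
open Vale.Agent.P159.H276 (bxT bxT_add bxT_smul bxT_neg bxT_sub bxT_const bxT_addc sum_bxT)
open Vale.Agent.P159.H770 (Ed eS eT)
open Vale.Agent.P159.H883 (FlJ lin_int nuM prob_nuM bw_wT mf_scalar meas_lin)
open Vale.Agent.P159.H663.Dr
open Vale.Agent.P159.TM.H764 (Q grd)

noncomputable section

variable {N q h m : ℕ} [NeZero N] {b t : ℝ}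

lemma pow_le_exp_pair (y : ℝ) (m : ℕ) :
    y ^ (2 * m) ≤ ((2 * m).factorial : ℝ) * (Real.exp y + Real.exp (-y)) := by
  have h1 := Real.pow_div_factorial_le_exp |y| (abs_nonneg y) (2 * m)
  have hf : (0 : ℝ) < ((2 * m).factorial : ℝ) := by exact_mod_cast Nat.factorial_pos _
  rw [div_le_iff₀ hf, Even.pow_abs (even_two_mul m)] at h1
  refine h1.trans ?_
  rw [mul_comm]
  refine mul_le_mul_of_nonneg_left ?_ hf.le
  rcases abs_cases y with ⟨h2, _⟩ | ⟨h2, _⟩
  · rw [h2]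
    have := Real.exp_pos (-y)
    linarith
  · rw [h2]
    have := Real.exp_pos y
    linarith

/-- **even moments of the linear functionals of the field** -/
theorem lin_mom (hb : 0 < b) (ht : 0 < t) (x₀ : V N) {u : V N → ℝ} {j : Ed N → ℝ}
    (hj : FlJ u j) {W : ℝ} (hW : 0 < W) (h1 : (∑ y, u y ^ 2) / t + 2 * b * ∑ e, j e ^ 2 ≤ W)
    (h2 : ∀ e, j e ^ 2 ≤ W) (m : ℕ) :
    Integrable (fun F : V N → ℝ => (∑ x, u x * F x) ^ (2 * m))
      (nuM (wT b N) (t • (1 : Matrix (V N) (V N) ℝ)) x₀) ∧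
    ∫ F, (∑ x, u x * F x) ^ (2 * m) ∂(nuM (wT b N) (t • (1 : Matrix (V N) (V N) ℝ)) x₀) ≤
      4 * ((2 * m).factorial : ℝ) * W ^ m := by
  obtain ⟨ν, hν⟩ : ∃ ν, ν = nuM (wT b N) (t • (1 : Matrix (V N) (V N) ℝ)) x₀ := ⟨_, rfl⟩
  rw [← hν]
  have hW' : 0 < √W := Real.sqrt_pos.2 hW
  have hsq : √W ^ 2 = W := Real.sq_sqrt hW.le
  obtain ⟨s, hs⟩ : ∃ s : ℝ, s = (√W)⁻¹ := ⟨_, rfl⟩
  have hs0 : 0 < s := by rw [hs]; exact inv_pos.2 hW'
  have hs2 : s ^ 2 * W = 1 := by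
    rw [hs, inv_pow, hsq]
    exact inv_mul_cancel₀ hW.ne'
  have hexp : Real.exp (1 / 2) ≤ 2 := by
    have h3 : Real.exp (1 / 2) ^ 2 = Real.exp 1 := by
      rw [← Real.exp_nat_mul]
      norm_num
    have h4 := Real.exp_one_lt_d9
    nlinarith [Real.exp_pos (1 / 2 : ℝ)]
  have key : ∀ c : ℝ, c ^ 2 = s ^ 2 →
      Integrable (fun F : V N → ℝ => Real.exp (∑ x, (c • u) x * F x)) ν ∧
      ∫ F, Real.exp (∑ x, (c • u) x * F x) ∂ν ≤ 2 := by
    intro c hc
    obtain ⟨hi, hle⟩ := lin_int hb ht x₀ (hj.smul c)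
    rw [← hν] at hi hle
    refine ⟨hi, hle.trans (le_trans (Real.exp_le_exp.2 ?_) hexp)⟩
    have e3 : ∑ y, (c • u) y ^ 2 = s ^ 2 * ∑ y, u y ^ 2 := by
      rw [← hc, Finset.mul_sum]
      refine Finset.sum_congr rfl fun y _ => ?_
      rw [Pi.smul_apply, smul_eq_mul, mul_pow]
    have e4 : ∑ e, (Real.cosh ((c • j) e) - 1) ≤ s ^ 2 * ∑ e, j e ^ 2 := by
      rw [← hc, Finset.mul_sum]
      refine Finset.sum_le_sum fun e _ => ?_
      have h5 : |(c • j) e| ≤ 1 := by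
        rw [← sq_le_one_iff_abs_le_one, Pi.smul_apply, smul_eq_mul, mul_pow, hc]
        calc s ^ 2 * j e ^ 2 ≤ s ^ 2 * W := mul_le_mul_of_nonneg_left (h2 e) (sq_nonneg s)
          _ = 1 := hs2
      refine (H513.cosh_sub_le_sq h5).trans (le_of_eq ?_)
      rw [Pi.smul_apply, smul_eq_mul, mul_pow]
    rw [e3]
    have h6 := mul_le_mul_of_nonneg_left e4 hb.le
    have h7 := mul_le_mul_of_nonneg_left h1 (by positivity : (0 : ℝ) ≤ s ^ 2 / 2)
    have e5 : s ^ 2 / 2 * W = 1 / 2 := by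
      rw [div_mul_eq_mul_div, hs2]
    have e7 : s ^ 2 * (∑ y, u y ^ 2) / (2 * t) + b * (s ^ 2 * ∑ e, j e ^ 2) =
        s ^ 2 / 2 * ((∑ y, u y ^ 2) / t + 2 * b * ∑ e, j e ^ 2) := by
      field_simp
    linarith
  obtain ⟨i1, l1⟩ := key s rfl
  obtain ⟨i2, l2⟩ := key (-s) (by ring)
  have hpt : ∀ F : V N → ℝ, (∑ x, u x * F x) ^ (2 * m) ≤ W ^ m * ((2 * m).factorial : ℝ) *
      (Real.exp (∑ x, (s • u) x * F x) + Real.exp (∑ x, (-s • u) x * F x)) := by
    intro F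
    have e1 : ∑ x, (s • u) x * F x = s * ∑ x, u x * F x := by
      rw [Finset.mul_sum]
      refine Finset.sum_congr rfl fun x _ => ?_
      rw [Pi.smul_apply, smul_eq_mul, mul_assoc]
    have e2 : ∑ x, (-s • u) x * F x = -(s * ∑ x, u x * F x) := by
      rw [Finset.mul_sum, ← Finset.sum_neg_distrib]
      refine Finset.sum_congr rfl fun x _ => ?_
      rw [Pi.smul_apply, smul_eq_mul]
      ring
    rw [e1, e2]
    have h3 := pow_le_exp_pair (s * ∑ x, u x * F x) m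
    have h4 : (∑ x, u x * F x) ^ (2 * m) = W ^ m * (s * ∑ x, u x * F x) ^ (2 * m) := by
      rw [mul_pow, pow_mul s, ← mul_assoc, ← mul_pow, mul_comm W, hs2, one_pow, one_mul]
    rw [h4, mul_assoc]
    exact mul_le_mul_of_nonneg_left h3 (by positivity)
  have hI := ((i1.add i2).const_mul (W ^ m * ((2 * m).factorial : ℝ)))
  have hm : Measurable fun F : V N → ℝ => (∑ x, u x * F x) ^ (2 * m) := (meas_lin u).pow_const _
  have h0 : ∀ F : V N → ℝ, 0 ≤ (∑ x, u x * F x) ^ (2 * m) := fun F =>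
    Even.pow_nonneg (even_two_mul m) _
  have hi : Integrable (fun F : V N → ℝ => (∑ x, u x * F x) ^ (2 * m)) ν :=
    hI.mono' hm.aestronglyMeasurable (Filter.Eventually.of_forall fun F => by
      rw [Real.norm_eq_abs, abs_of_nonneg (h0 F)]
      exact hpt F)
  refine ⟨hi, (integral_mono hi hI hpt).trans ?_⟩
  have e : ∫ F, W ^ m * ((2 * m).factorial : ℝ) *
      ((fun F : V N → ℝ => Real.exp (∑ x, (s • u) x * F x)) +
        fun F : V N → ℝ => Real.exp (∑ x, (-s • u) x * F x)) F ∂ν =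
      W ^ m * ((2 * m).factorial : ℝ) * (∫ F, Real.exp (∑ x, (s • u) x * F x) ∂ν +
        ∫ F, Real.exp (∑ x, (-s • u) x * F x) ∂ν) := by
    rw [integral_const_mul]
    congr 1
    exact integral_add i1 i2
  rw [e]
  have h5 : 0 ≤ W ^ m * ((2 * m).factorial : ℝ) := by positivity
  nlinarith

/-! ### the kernel of the double average -/

lemma tT_nonneg {f : V N → ℝ} (hf : ∀ x, 0 ≤ f x) (x : V N) : 0 ≤ tT N q f x := by
  unfold tT bxT
  refine mul_nonneg (by positivity) (sum_nonneg fun i _ => sum_nonneg fun j _ =>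
    mul_nonneg (by positivity) (sum_nonneg fun i _ => sum_nonneg fun j _ => hf _))

lemma tT_le (hq : 0 < q) {f : V N → ℝ} {c : ℝ} (hf : ∀ x, f x ≤ c) (x : V N) : tT N q f x ≤ c := by
  have h1 := tT_nonneg (N := N) (q := q) (f := (fun _ => c) - f) (fun x => by
    rw [Pi.sub_apply]
    exact sub_nonneg.2 (hf x)) x
  rw [tT_sub, tT_const hq, Pi.sub_apply] at h1
  exact sub_nonneg.1 h1

/-- the kernel at `y` -/
def kq (N q h : ℕ) [NeZero N] (y : V N) : V N → ℝ := tT N q (tT N h (dl y))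

lemma kq_val (F : V N → ℝ) (y : V N) :
    tT N h (tT N q F) y = ∑ x, kq N q h y x * F x := by
  rw [← sum_dl y (tT N h (tT N q F)), tT_dot, tT_dot]
  rfl

lemma kq_nonneg (y x : V N) : 0 ≤ kq N q h y x := by
  refine tT_nonneg (fun z => tT_nonneg (fun w => ?_) z) x
  unfold dl
  split_ifs <;> norm_num

lemma tT_dl_le (hh : 0 < h) (hhN : h ≤ N) (y x : V N) : tT N h (dl y) x ≤ ((h : ℝ) ^ 2)⁻¹ := by
  have h1 : (h : ℝ) ≠ 0 := by
    have : (0 : ℝ) < h := by exact_mod_cast hh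
    exact this.ne'
  unfold tT
  refine (mul_le_mul_of_nonneg_left (Finset.sum_le_sum fun i _ => Finset.sum_le_sum fun j _ =>
    bxT_dl_le hhN y _) (by positivity)).trans (le_of_eq ?_)
  rw [sum_const, sum_const, card_range, nsmul_eq_mul, nsmul_eq_mul]
  field_simp

lemma kq_le (hq : 0 < q) (hh : 0 < h) (hhN : h ≤ N) (y x : V N) :
    kq N q h y x ≤ ((h : ℝ) ^ 2)⁻¹ := tT_le hq (fun z => tT_dl_le hh hhN y z) x

lemma sum_kq (hq : 0 < q) (hh : 0 < h) (y : V N) : ∑ x, kq N q h y x = 1 := by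
  unfold kq
  rw [sum_tT hq, sum_tT hh]
  have := sum_dl y fun _ => (1 : ℝ)
  simpa using this

lemma sq_kq (hq : 0 < q) (hh : 0 < h) (hhN : h ≤ N) (y : V N) :
    ∑ x, kq N q h y x ^ 2 ≤ ((h : ℝ) ^ 2)⁻¹ := by
  calc ∑ x, kq N q h y x ^ 2 ≤ ∑ x, ((h : ℝ) ^ 2)⁻¹ * kq N q h y x := by
        refine Finset.sum_le_sum fun x _ => ?_
        rw [pow_two]
        exact mul_le_mul_of_nonneg_right (kq_le hq hh hhN y x) (kq_nonneg y x)
    _ = ((h : ℝ) ^ 2)⁻¹ := by rw [← mul_sum, sum_kq hq hh, mul_one]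

lemma sq_bxT (hq : 0 < q) (g : V N → ℝ) : ∑ x, bxT N q g x ^ 2 ≤ ∑ x, g x ^ 2 := by
  unfold bxT
  refine sum_sq_avg hq (fun (x : V N) i j => g (x + ((i : ZMod N), (j : ZMod N)))) fun i _ j _ => ?_
  exact le_of_eq (Equiv.sum_comp (Equiv.addRight (((i : ZMod N), (j : ZMod N)) : V N))
    fun x => g x ^ 2)

lemma sq_tT' (hq : 0 < q) (g : V N → ℝ) : ∑ x, tT N q g x ^ 2 ≤ ∑ x, g x ^ 2 := by
  rw [tT_eq]
  exact (sq_bxA hq _).trans (sq_bxT hq g)

lemma tT_trs (g : V N → ℝ) (a : V N) : tT N q (fun x => g (x - a)) = fun x => tT N q g (x - a) := by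
  have h1 := tT_tr (N := N) (q := q) g (-a)
  simpa only [← sub_eq_add_neg] using h1

lemma kq_shift (y : V N) (d : V N) :
    (fun x => kq N q h y (x - d)) = tT N q (tT N h fun x => dl y (x - d)) := by
  unfold kq
  rw [tT_trs (N := N) (q := h), tT_trs (N := N) (q := q)]

/-- gradient of the kernel -/
lemma sq_dkq (hq : 0 < q) (hh : 0 < h) (hhN : h ≤ N) (y : V N) {d : V N}
    (hd : d = (1, 0) ∨ d = (0, 1)) :
    ∑ x, (kq N q h y (x - d) - kq N q h y x) ^ 2 ≤ 8 * ((h : ℝ) ^ 4)⁻¹ := by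
  have e1 : ∀ x, kq N q h y (x - d) - kq N q h y x =
      tT N q (fun x => tT N h (dl y) (x - d) - tT N h (dl y) x) x := by
    intro x
    have h1 := congrFun (tT_sub (N := N) (q := q) (fun x => tT N h (dl y) (x - d)) (tT N h (dl y))) x
    have h2 : (fun x => tT N h (dl y) (x - d) - tT N h (dl y) x) =
        (fun x => tT N h (dl y) (x - d)) - tT N h (dl y) := rfl
    rw [h2, h1, Pi.sub_apply]
    unfold kq
    rw [tT_trs (N := N) (q := q)]
  simp only [e1]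
  refine (sq_tT' hq _).trans ?_
  have e2 : ∑ x, (tT N h (dl y) (x - d) - tT N h (dl y) x) ^ 2 = Q (tT N h (dl y)) d := by
    unfold TM.H764.Q
    rw [← Equiv.sum_comp (Equiv.addRight d) fun x =>
      (tT N h (dl y) (x - d) - tT N h (dl y) x) ^ 2]
    refine Finset.sum_congr rfl fun x _ => ?_
    simp only [Equiv.coe_addRight, add_sub_cancel_right]
    ring
  rw [e2]
  have hQ : ∀ f : V N → ℝ, ∀ a : V N, 0 ≤ Q f a := fun f a => by
    unfold TM.H764.Q
    exact Finset.sum_nonneg fun _ _ => sq_nonneg _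
  have h3 : Q (tT N h (dl y)) d ≤ grd (tT N h (dl y)) := by
    unfold TM.H764.grd
    rcases hd with hd | hd
    · rw [hd]
      have := hQ (tT N h (dl y)) (0, 1)
      linarith
    · rw [hd]
      have := hQ (tT N h (dl y)) (1, 0)
      linarith
  refine h3.trans ((grd_tT hh _).trans ?_)
  refine (mul_le_mul_of_nonneg_left (sq_bxT_dl hh hhN y) (by positivity)).trans (le_of_eq ?_)
  rw [mul_assoc, ← mul_inv]
  ring

/-- the flow of one edge, spread -/
def je (N q h : ℕ) [NeZero N] (y : V N) (c : Bool) (e : Ed N) : ℝ :=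
  if e.2 = c then kq N q h y e.1 else 0

/-- the unit vector -/
def ub (c : Bool) : V N := if c then (0, 1) else (1, 0)

/-- summation by parts along one shift -/
lemma sum_byparts (A F : V N → ℝ) (d : V N) :
    ∑ x, (A (x - d) - A x) * F x = ∑ x, A x * (F (x + d) - F x) := by
  have h1 : ∑ x, A (x - d) * F x = ∑ x, A x * F (x + d) := by
    rw [← Equiv.sum_comp (Equiv.addRight d) fun x => A (x - d) * F x]
    refine Finset.sum_congr rfl fun x _ => ?_
    simp only [Equiv.coe_addRight, add_sub_cancel_right]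
  have h2 : ∑ x, (A (x - d) - A x) * F x = ∑ x, A (x - d) * F x - ∑ x, A x * F x := by
    rw [← Finset.sum_sub_distrib]
    exact Finset.sum_congr rfl fun x _ => sub_mul _ _ _
  have h3 : ∑ x, A x * (F (x + d) - F x) = ∑ x, A x * F (x + d) - ∑ x, A x * F x := by
    rw [← Finset.sum_sub_distrib]
    exact Finset.sum_congr rfl fun x _ => mul_sub _ _ _
  rw [h2, h3, h1]

/-- the flow of a kernel along one direction -/
lemma fl_dir (A : V N → ℝ) (c : Bool) :
    FlJ (fun x => A (x - ub c) - A x) (fun e : Ed N => if e.2 = c then A e.1 else 0) := by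
  intro g
  have e2 : ∑ e : Ed N, (if e.2 = c then A e.1 else 0) * (g (eT N e) - g (eS N e)) =
      ∑ x : V N, ∑ c' : Bool, (if c' = c then A x else 0) *
        (g (eT N (x, c')) - g (eS N (x, c'))) := Fintype.sum_prod_type _
  rw [sum_byparts A g (ub c), e2]
  refine Finset.sum_congr rfl fun x _ => ?_
  rw [Fintype.sum_bool]
  unfold ub eT eS
  cases c <;> simp

lemma fl_kq (y : V N) (c : Bool) :
    FlJ (fun x => kq N q h y (x - ub c) - kq N q h y x) (je N q h y c) :=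
  fl_dir (kq N q h y) c

lemma sum_je (hq : 0 < q) (hh : 0 < h) (hhN : h ≤ N) (y : V N) (c : Bool) :
    ∑ e, je N q h y c e ^ 2 ≤ ((h : ℝ) ^ 2)⁻¹ := by
  refine le_trans (le_of_eq ?_) (sq_kq hq hh hhN y)
  rw [Fintype.sum_prod_type]
  refine Finset.sum_congr rfl fun x _ => ?_
  rw [Fintype.sum_bool]
  unfold je
  cases c <;> simp

lemma kq_grad (F : V N → ℝ) (y d : V N) :
    tT N h (tT N q F) (y + d) - tT N h (tT N q F) y =
      ∑ x, (kq N q h y (x - d) - kq N q h y x) * F x := by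
  have e1 : tT N h (tT N q F) (y + d) = ∑ x, kq N q h y x * F (x + d) := by
    have h1 : tT N h (tT N q fun x => F (x + d)) = fun x => tT N h (tT N q F) (x + d) := by
      rw [tT_tr, tT_tr]
    rw [← kq_val (h := h) (q := q) (fun x => F (x + d)) y, h1]
  rw [e1, kq_val F y, sum_byparts, ← Finset.sum_sub_distrib]
  exact Finset.sum_congr rfl fun x _ => (mul_sub _ _ _).symm

/-! ### the sup norm of the gradient -/

/-- three averages at the scale `h` -/
def Sv (N h : ℕ) [NeZero N] (f : V N → ℝ) : V N → ℝ := bxT N h (tT N h f)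

lemma bx_pow (hh : 0 < h) (hhN : h ≤ N) (g : V N → ℝ) (m : ℕ) (x : V N) :
    bxT N h g x ^ (2 * m) ≤ ((h : ℝ) ^ 2)⁻¹ * ∑ y, g y ^ (2 * m) := by
  have h0 : (h : ℝ) ≠ 0 := by
    have : (0 : ℝ) < h := by exact_mod_cast hh
    exact this.ne'
  have e1 : bxT N h g x = ∑ p ∈ range h ×ˢ range h,
      ((h : ℝ) ^ 2)⁻¹ * g (x + ((p.1 : ZMod N), (p.2 : ZMod N))) := by
    unfold bxT
    rw [← Finset.mul_sum, Finset.sum_product]
  rw [e1]
  have h1 := Real.pow_arith_mean_le_arith_mean_pow_of_even (range h ×ˢ range h)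
    (fun _ => ((h : ℝ) ^ 2)⁻¹) (fun p => g (x + ((p.1 : ZMod N), (p.2 : ZMod N))))
    (fun _ _ => by positivity) (by
      rw [sum_const, card_product, card_range, nsmul_eq_mul]
      push_cast
      field_simp) (n := 2 * m) (even_two_mul m)
  refine h1.trans ?_
  rw [← Finset.mul_sum]
  refine mul_le_mul_of_nonneg_left ?_ (by positivity)
  have hinj : Set.InjOn (fun p : ℕ × ℕ => x + ((p.1 : ZMod N), (p.2 : ZMod N)))
      ((range h ×ˢ range h : Finset (ℕ × ℕ)) : Set (ℕ × ℕ)) := by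
    intro p hp p' hp' he
    rw [Finset.coe_product, Set.mem_prod, Finset.coe_range, Set.mem_Iio, Set.mem_Iio] at hp hp'
    have h2 := add_left_cancel he
    have h3 := congrArg (fun z : V N => z.1.val) h2
    have h4 := congrArg (fun z : V N => z.2.val) h2
    simp only at h3 h4
    rw [ZMod.val_cast_of_lt (hp.1.trans_le hhN), ZMod.val_cast_of_lt (hp'.1.trans_le hhN)] at h3
    rw [ZMod.val_cast_of_lt (hp.2.trans_le hhN), ZMod.val_cast_of_lt (hp'.2.trans_le hhN)] at h4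
    exact Prod.ext h3 h4
  rw [← Finset.sum_image (f := fun y => g y ^ (2 * m)) fun p hp p' hp' he => hinj hp hp' he]
  exact Finset.sum_le_univ_sum_of_nonneg fun y => Even.pow_nonneg (even_two_mul m) _

lemma bxT_sh (g : V N → ℝ) (a x : V N) : bxT N h (fun y => g (y + a)) x = bxT N h g (x + a) := by
  have h1 := bxT_shift (N := N) (q := h) g (-a) x
  simpa only [sub_neg_eq_add] using h1

lemma Sv_grad (f : V N → ℝ) (x d : V N) : Sv N h f (x + d) - Sv N h f x =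
    bxT N h (fun y => tT N h f (y + d) - tT N h f y) x := by
  have h1 := congrFun (bxT_sub h (fun y => tT N h f (y + d)) (tT N h f)) x
  rw [Pi.sub_apply, bxT_sh] at h1
  exact h1.symm

/-- **one direction of the gradient, all the sites** -/
theorem sup_dir (hb : 0 < b) (ht : 0 < t) (x₀ : V N) (hq : 0 < q) (hh : 0 < h) (hhN : h ≤ N)
    (c : Bool) {Λ : ℝ} (hΛ : 0 < Λ)
    (hm : 16 * (m : ℝ) ^ 2 * (8 / (t * (h : ℝ) ^ 2) + 2 * b + 1) ≤ Λ ^ 2) :
    (nuM (wT b N) (t • (1 : Matrix (V N) (V N) ℝ)) x₀).real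
      {F | ∃ x, Λ / h < |Sv N h (tT N q F) (x + ub c) - Sv N h (tT N q F) x|} ≤
      4 * ((N : ℝ) / h) ^ 2 * (1 / 4) ^ m := by
  have hp := prob_nuM (H963.gw_wT (N := N) hb.le) (bw_wT hb) (mf_scalar ht) x₀
  obtain ⟨ν, hν⟩ : ∃ ν, ν = nuM (wT b N) (t • (1 : Matrix (V N) (V N) ℝ)) x₀ := ⟨_, rfl⟩
  rw [← hν] at hp ⊢
  have hh0 : (0 : ℝ) < h := by exact_mod_cast hh
  have hh1 : (1 : ℝ) ≤ h := by exact_mod_cast hh
  have hN0 : (0 : ℝ) < N := by exact_mod_cast NeZero.pos N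
  obtain ⟨V0, hV0⟩ : ∃ V0 : ℝ, V0 = 8 / (t * (h : ℝ) ^ 2) + 2 * b + 1 := ⟨_, rfl⟩
  rw [← hV0] at hm
  have h8 : 0 < 8 / (t * (h : ℝ) ^ 2) := by positivity
  have hV1 : 1 ≤ V0 := by rw [hV0]; linarith
  have hV00 : 0 < V0 := by linarith
  obtain ⟨W, hW⟩ : ∃ W : ℝ, W = V0 / (h : ℝ) ^ 2 := ⟨_, rfl⟩
  have hW0 : 0 < W := by rw [hW]; positivity
  obtain ⟨g, hg⟩ : ∃ g : (V N → ℝ) → V N → ℝ, g = fun F y =>
    ∑ x, (kq N q h y (x - ub c) - kq N q h y x) * F x := ⟨_, rfl⟩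
  have hmom : ∀ y, Integrable (fun F : V N → ℝ => g F y ^ (2 * m)) ν ∧
      ∫ F, g F y ^ (2 * m) ∂ν ≤ 4 * ((2 * m).factorial : ℝ) * W ^ m := by
    intro y
    have h1 := lin_mom hb ht x₀ (fl_kq (q := q) (h := h) y c) hW0 (by
      have e1 := sq_dkq hq hh hhN y (d := ub c) (by
        unfold ub
        cases c
        · left; rfl
        · right; rfl)
      have e2 := sum_je hq hh hhN y c
      have e3 := div_le_div_of_nonneg_right e1 ht.le
      have e4 := mul_le_mul_of_nonneg_left e2 (by positivity : (0 : ℝ) ≤ 2 * b)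
      have e5 : W = 8 * ((h : ℝ) ^ 4)⁻¹ / t + 2 * b * ((h : ℝ) ^ 2)⁻¹ + ((h : ℝ) ^ 2)⁻¹ := by
        rw [hW, hV0]
        field_simp
      have e6 : 0 < ((h : ℝ) ^ 2)⁻¹ := by positivity
      linarith) (fun e => by
      have e1 : je N q h y c e ^ 2 ≤ (((h : ℝ) ^ 2)⁻¹) ^ 2 := by
        unfold je
        split_ifs
        · exact pow_le_pow_left₀ (kq_nonneg _ _) (kq_le hq hh hhN _ _) 2
        · simp only [ne_eq, OfNat.ofNat_ne_zero, not_false_eq_true, zero_pow]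
          positivity
      refine e1.trans ?_
      have e2 : ((h : ℝ) ^ 2)⁻¹ ≤ 1 := inv_le_one_of_one_le₀ (one_le_pow₀ hh1)
      have e3 : (0 : ℝ) < ((h : ℝ) ^ 2)⁻¹ := by positivity
      have e4 : ((h : ℝ) ^ 2)⁻¹ ≤ W := by
        rw [hW, div_eq_mul_inv]
        exact le_mul_of_one_le_left e3.le hV1
      nlinarith) m
    rw [← hν] at h1
    rw [hg]
    exact h1
  obtain ⟨M, hM⟩ : ∃ M : (V N → ℝ) → ℝ, M = fun F => ((h : ℝ) ^ 2)⁻¹ * ∑ y, g F y ^ (2 * m) :=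
    ⟨_, rfl⟩
  have hMi : Integrable M ν := by
    rw [hM]
    exact (integrable_finsetSum _ fun y _ => (hmom y).1).const_mul _
  have hMle : ∫ F, M F ∂ν ≤ ((N : ℝ) / h) ^ 2 * (4 * ((2 * m).factorial : ℝ) * W ^ m) := by
    rw [hM, integral_const_mul, integral_finsetSum _ fun y _ => (hmom y).1]
    have h1 : ∑ y : V N, ∫ F, g F y ^ (2 * m) ∂ν ≤
        ∑ _y : V N, 4 * ((2 * m).factorial : ℝ) * W ^ m := Finset.sum_le_sum fun y _ => (hmom y).2
    rw [sum_const, card_univ, Fintype.card_prod, ZMod.card, nsmul_eq_mul] at h1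
    refine (mul_le_mul_of_nonneg_left h1 (by positivity)).trans (le_of_eq ?_)
    push_cast
    field_simp
  have hM0 : ∀ F, 0 ≤ M F := fun F => by
    rw [hM]
    exact mul_nonneg (by positivity) (Finset.sum_nonneg fun y _ =>
      Even.pow_nonneg (even_two_mul m) _)
  have hsub : {F : V N → ℝ | ∃ x, Λ / h < |Sv N h (tT N q F) (x + ub c) -
      Sv N h (tT N q F) x|} ⊆ {F | (Λ / h) ^ (2 * m) ≤ M F} := by
    intro F hF
    obtain ⟨x, hx⟩ := hF
    rw [Sv_grad] at hx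
    have e1 : (fun y => tT N h (tT N q F) (y + ub c) - tT N h (tT N q F) y) = g F := by
      rw [hg]
      funext y
      exact kq_grad F y (ub c)
    rw [e1] at hx
    have e2 := bx_pow hh hhN (g F) m x
    show (Λ / h) ^ (2 * m) ≤ M F
    rw [hM]
    refine le_trans ?_ e2
    calc (Λ / h) ^ (2 * m) ≤ |bxT N h (g F) x| ^ (2 * m) :=
          pow_le_pow_left₀ (by positivity) hx.le _
      _ = bxT N h (g F) x ^ (2 * m) := Even.pow_abs (even_two_mul m) _
  have hmk := mul_meas_ge_le_integral_of_nonneg (μ := ν) (Filter.Eventually.of_forall hM0) hMi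
    ((Λ / h) ^ (2 * m))
  have hLp : 0 < (Λ / h) ^ (2 * m) := by positivity
  have h5 : ν.real {F | (Λ / h) ^ (2 * m) ≤ M F} ≤
      ((N : ℝ) / h) ^ 2 * (4 * ((2 * m).factorial : ℝ) * W ^ m) / (Λ / h) ^ (2 * m) := by
    rw [le_div_iff₀ hLp, mul_comm]
    exact hmk.trans hMle
  refine (measureReal_mono hsub (measure_ne_top _ _)).trans (h5.trans ?_)
  have hfac : ((2 * m).factorial : ℝ) ≤ (4 * (m : ℝ) ^ 2) ^ m := by
    have h6 : (2 * m).factorial ≤ (2 * m) ^ (2 * m) := Nat.factorial_le_pow _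
    have h7 : ((2 * m).factorial : ℝ) ≤ ((2 * m : ℕ) : ℝ) ^ (2 * m) := by exact_mod_cast h6
    refine h7.trans (le_of_eq ?_)
    rw [pow_mul]
    push_cast
    ring
  have e1 : W ^ m / (Λ / h) ^ (2 * m) = (V0 / Λ ^ 2) ^ m := by
    rw [pow_mul (Λ / h), ← div_pow, hW]
    congr 1
    field_simp
  calc ((N : ℝ) / h) ^ 2 * (4 * ((2 * m).factorial : ℝ) * W ^ m) / (Λ / h) ^ (2 * m)
      = 4 * ((N : ℝ) / h) ^ 2 * (((2 * m).factorial : ℝ) * (W ^ m / (Λ / h) ^ (2 * m))) := by ring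
    _ = 4 * ((N : ℝ) / h) ^ 2 * (((2 * m).factorial : ℝ) * (V0 / Λ ^ 2) ^ m) := by rw [e1]
    _ ≤ 4 * ((N : ℝ) / h) ^ 2 * ((4 * (m : ℝ) ^ 2) ^ m * (V0 / Λ ^ 2) ^ m) := by
        refine mul_le_mul_of_nonneg_left ?_ (by positivity)
        exact mul_le_mul_of_nonneg_right hfac (by positivity)
    _ = 4 * ((N : ℝ) / h) ^ 2 * (4 * (m : ℝ) ^ 2 * (V0 / Λ ^ 2)) ^ m := by rw [← mul_pow]
    _ ≤ 4 * ((N : ℝ) / h) ^ 2 * (1 / 4) ^ m := by
        refine mul_le_mul_of_nonneg_left (pow_le_pow_left₀ (by positivity) ?_ m) (by positivity)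
        rw [mul_div_assoc', div_le_div_iff₀ (by positivity) (by norm_num)]
        linarith

end

end Vale.Agent.P159.H789
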