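import Vale.Agent.P159.H789.StI
import Vale.Agent.P159.H817.St1

/-!
P159 (helper789), **strong R numbers**, part K: **the sup event**.

`S_h f = bxT N h (tT N h f)` (three averages).
* `sh4` : the mean over four points; `Sv_two` : `S_(2h) f` is a mean of shifts of `S_h f`;
* `osc_chain` : `GB (Λ / (2^k h)) (S_(2^k h) f)` for all `k < K`, `N = 2^K h` ⟹ `|S_h f x - mean f| ≤ 3 K Λ`;
* `supE` : the event; **`supE_prob`** : `ν (supEᶜ) ≤ 11 (N/h)² (1/4)^m`, `f = tT N q F`.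
-/

set_option linter.unusedSectionVars false

open Finset Matrix MeasureTheory

namespace Vale.Agent.P159.H789

open Vale.Agent.P159.TM.Spec (V)
open Vale.Agent.P159.TM.SpecC (Tor wT)
open Vale.Agent.P159.H276 (bxT bxT_add bxT_smul bxT_neg bxT_sub bxT_const bxT_addc sum_bxT)
open Vale.Agent.P159.H883 (nuM prob_nuM bw_wT mf_scalar)
open Vale.Agent.P159.H663.Dr
open Vale.Agent.P159.H817 (gr GB gr_eq eb)

noncomputable section

variable {N q h m : ℕ} [NeZero N] {b t : ℝ}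

/-- mean over four points -/
def sh4 (v w : V N) (g : V N → ℝ) (x : V N) : ℝ := (g x + g (x + v) + g (x + w) + g (x + v + w)) / 4

lemma bxT_sh4 (v w : V N) (g : V N → ℝ) : bxT N h (sh4 v w g) = sh4 v w (bxT N h g) := by
  funext x
  have e : sh4 v w g = (4 : ℝ)⁻¹ • (g + (fun y => g (y + v)) + (fun y => g (y + w)) +
      fun y => g (y + (v + w))) := by
    funext y
    unfold sh4
    simp only [Pi.smul_apply, Pi.add_apply, smul_eq_mul, add_assoc]
    ring
  rw [e, bxT_smul, bxT_add, bxT_add, bxT_add]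
  simp only [Pi.smul_apply, Pi.add_apply, smul_eq_mul, bxT_sh]
  unfold sh4
  simp only [add_assoc]
  ring

lemma bxA_lin (g g' : V N → ℝ) : bxA N h (g + g') = bxA N h g + bxA N h g' := by
  funext x
  unfold bxA
  simp only [Pi.add_apply, sum_add_distrib, mul_add]

lemma bxA_smul (s : ℝ) (g : V N → ℝ) : bxA N h (s • g) = s • bxA N h g := by
  funext x
  unfold bxA
  simp only [Pi.smul_apply, smul_eq_mul, ← mul_sum]
  ring

lemma bxA_sh (g : V N → ℝ) (a x : V N) : bxA N h (fun y => g (y + a)) x = bxA N h g (x + a) := by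
  unfold bxA
  congr 1
  refine Finset.sum_congr rfl fun i _ => Finset.sum_congr rfl fun j _ => ?_
  show g (x - ((i : ZMod N), (j : ZMod N)) + a) = g (x + a - ((i : ZMod N), (j : ZMod N)))
  rw [sub_add_eq_add_sub]

lemma bxA_sh4 (v w : V N) (g : V N → ℝ) : bxA N h (sh4 v w g) = sh4 v w (bxA N h g) := by
  funext x
  have e : sh4 v w g = (4 : ℝ)⁻¹ • (g + (fun y => g (y + v)) + (fun y => g (y + w)) +
      fun y => g (y + (v + w))) := by
    funext y
    unfold sh4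
    simp only [Pi.smul_apply, Pi.add_apply, smul_eq_mul, add_assoc]
    ring
  rw [e, bxA_smul, bxA_lin, bxA_lin, bxA_lin]
  simp only [Pi.smul_apply, Pi.add_apply, smul_eq_mul, bxA_sh]
  unfold sh4
  simp only [add_assoc]
  ring

/-- the two steps of the doubling -/
def hv (h : ℕ) (c : Bool) : V N := h • (ub c : V N)

lemma sum_double (f : ℕ → ℕ → ℝ) : ∑ i ∈ range (2 * h), ∑ j ∈ range (2 * h), f i j =
    ∑ i ∈ range h, ∑ j ∈ range h, (f i j + f (h + i) j + f i (h + j) + f (h + i) (h + j)) := by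
  rw [two_mul, Finset.sum_range_add]
  have e : ∀ i, ∑ j ∈ range (h + h), f i j = ∑ j ∈ range h, f i j + ∑ j ∈ range h, f i (h + j) :=
    fun i => Finset.sum_range_add _ _ _
  simp only [e, Finset.sum_add_distrib]
  ring

lemma hv_false : (hv h false : V N) = ((h : ZMod N), 0) := by
  unfold hv ub
  ext <;> simp

lemma hv_true : (hv h true : V N) = (0, (h : ZMod N)) := by
  unfold hv ub
  ext <;> simp

lemma bxT_two (g : V N → ℝ) : bxT N (2 * h) g = sh4 (hv h false) (hv h true) (bxT N h g) := by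
  funext x
  unfold sh4
  rw [hv_false, hv_true]
  unfold bxT
  rw [sum_double]
  have e : ∀ i j : ℕ, g (x + ((i : ZMod N), (j : ZMod N))) +
      g (x + (((h + i : ℕ) : ZMod N), (j : ZMod N))) +
      g (x + ((i : ZMod N), ((h + j : ℕ) : ZMod N))) +
      g (x + (((h + i : ℕ) : ZMod N), ((h + j : ℕ) : ZMod N))) =
      g (x + ((i : ZMod N), (j : ZMod N))) +
      g (x + ((h : ZMod N), 0) + ((i : ZMod N), (j : ZMod N))) +
      g (x + (0, (h : ZMod N)) + ((i : ZMod N), (j : ZMod N))) +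
      g (x + ((h : ZMod N), 0) + (0, (h : ZMod N)) + ((i : ZMod N), (j : ZMod N))) := by
    intro i j
    have e1 : x + (((h + i : ℕ) : ZMod N), (j : ZMod N)) =
        x + ((h : ZMod N), 0) + ((i : ZMod N), (j : ZMod N)) := by
      rw [add_assoc]
      congr 1
      ext <;> simp
    have e2 : x + ((i : ZMod N), ((h + j : ℕ) : ZMod N)) =
        x + (0, (h : ZMod N)) + ((i : ZMod N), (j : ZMod N)) := by
      rw [add_assoc]
      congr 1
      ext <;> simp
    have e3 : x + (((h + i : ℕ) : ZMod N), ((h + j : ℕ) : ZMod N)) =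
        x + ((h : ZMod N), 0) + (0, (h : ZMod N)) + ((i : ZMod N), (j : ZMod N)) := by
      rw [add_assoc, add_assoc]
      congr 1
      ext <;> simp
    rw [e1, e2, e3]
  simp only [e, Finset.sum_add_distrib]
  push_cast
  rw [mul_pow]
  rcases Nat.eq_zero_or_pos h with h0 | h0
  · subst h0
    simp
  · have : (h : ℝ) ≠ 0 := by
      have : (0 : ℝ) < h := by exact_mod_cast h0
      exact this.ne'
    field_simp
    ring

lemma bxA_two (g : V N → ℝ) : bxA N (2 * h) g = sh4 (-hv h false) (-hv h true) (bxA N h g) := by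
  funext x
  unfold sh4
  rw [hv_false, hv_true]
  unfold bxA
  rw [sum_double]
  have e : ∀ i j : ℕ, g (x - ((i : ZMod N), (j : ZMod N))) +
      g (x - (((h + i : ℕ) : ZMod N), (j : ZMod N))) +
      g (x - ((i : ZMod N), ((h + j : ℕ) : ZMod N))) +
      g (x - (((h + i : ℕ) : ZMod N), ((h + j : ℕ) : ZMod N))) =
      g (x - ((i : ZMod N), (j : ZMod N))) +
      g (x + -((h : ZMod N), 0) - ((i : ZMod N), (j : ZMod N))) +
      g (x + -(0, (h : ZMod N)) - ((i : ZMod N), (j : ZMod N))) +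
      g (x + -((h : ZMod N), 0) + -(0, (h : ZMod N)) - ((i : ZMod N), (j : ZMod N))) := by
    intro i j
    have e1 : x - (((h + i : ℕ) : ZMod N), (j : ZMod N)) =
        x + -((h : ZMod N), 0) - ((i : ZMod N), (j : ZMod N)) := by
      ext <;> simp <;> ring
    have e2 : x - ((i : ZMod N), ((h + j : ℕ) : ZMod N)) =
        x + -(0, (h : ZMod N)) - ((i : ZMod N), (j : ZMod N)) := by
      ext <;> simp <;> ring
    have e3 : x - (((h + i : ℕ) : ZMod N), ((h + j : ℕ) : ZMod N)) =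
        x + -((h : ZMod N), 0) + -(0, (h : ZMod N)) - ((i : ZMod N), (j : ZMod N)) := by
      ext <;> simp <;> ring
    rw [e1, e2, e3]
  simp only [e, Finset.sum_add_distrib]
  push_cast
  rw [mul_pow]
  rcases Nat.eq_zero_or_pos h with h0 | h0
  · subst h0
    simp
  · have : (h : ℝ) ≠ 0 := by
      have : (0 : ℝ) < h := by exact_mod_cast h0
      exact this.ne'
    field_simp
    ring

/-- **doubling** -/
theorem Sv_two (f : V N → ℝ) : Sv N (2 * h) f = sh4 (hv h false) (hv h true)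
    (sh4 (-hv h false) (-hv h true) (sh4 (hv h false) (hv h true) (Sv N h f))) := by
  unfold Sv
  rw [tT_eq, tT_eq, bxT_two, bxA_two, bxT_two, bxA_sh4, bxT_sh4, bxT_sh4]

/-! ### walks -/

lemma eb_ub (c : Bool) : (eb c : V N) = ub c := by cases c <;> rfl

lemma walk {g : V N → ℝ} {L : ℝ} {d : V N} (hL : ∀ x, |g (x + d) - g x| ≤ L) (k : ℕ) (x : V N) :
    |g (x + k • d) - g x| ≤ k * L := by
  induction k with
  | zero => simp
  | succ k ih =>
    have e1 : x + (k + 1) • d = x + k • d + d := by rw [add_smul, one_smul, add_assoc]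
    rw [e1]
    have h1 := hL (x + k • d)
    have h2 := abs_sub_le (g (x + k • d + d)) (g (x + k • d)) (g x)
    push_cast
    linarith

lemma walk_hv {g : V N → ℝ} {L : ℝ} (hL : GB L g) (c : Bool) (x : V N) :
    |g (x + hv h c) - g x| ≤ h * L := by
  unfold hv
  refine walk (fun y => ?_) h x
  have h1 := hL (y, c)
  rwa [gr_eq, eb_ub] at h1

lemma walk_hv' {g : V N → ℝ} {L : ℝ} (hL : GB L g) (c : Bool) (x : V N) :
    |g (x + -hv h c) - g x| ≤ h * L := by
  have h1 := walk_hv (h := h) hL c (x + -hv h c)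
  rw [neg_add_cancel_right, abs_sub_comm] at h1
  exact h1

lemma sh4_near {g : V N → ℝ} {A : ℝ} {v w : V N} (hv : ∀ x, |g (x + v) - g x| ≤ A)
    (hw : ∀ x, |g (x + w) - g x| ≤ A) (x : V N) : |sh4 v w g x - g x| ≤ A := by
  have h1 := abs_le.1 (hv x)
  have h2 := abs_le.1 (hw x)
  have h3 := abs_le.1 (hw (x + v))
  unfold sh4
  rw [abs_le]
  constructor <;> linarith [h1.1, h1.2, h2.1, h2.2, h3.1, h3.2]

lemma sh4_GB {g : V N → ℝ} {L : ℝ} (hL : GB L g) (v w : V N) : GB L (sh4 v w g) := by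
  rintro ⟨x, c⟩
  rw [gr_eq]
  have k : ∀ y, |g (y + eb c) - g y| ≤ L := fun y => by
    have := hL (y, c)
    rwa [gr_eq] at this
  have h1 := abs_le.1 (k x)
  have h2 := abs_le.1 (k (x + v))
  have h3 := abs_le.1 (k (x + w))
  have h4 := abs_le.1 (k (x + v + w))
  have e1 : x + eb c + v = x + v + eb c := add_right_comm _ _ _
  have e2 : x + eb c + w = x + w + eb c := add_right_comm _ _ _
  have e3 : x + v + eb c + w = x + v + w + eb c := add_right_comm _ _ _
  unfold sh4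
  rw [e1, e2, e3, abs_le]
  constructor <;> linarith [h1.1, h1.2, h2.1, h2.2, h3.1, h3.2, h4.1, h4.2]

/-- one doubling moves the value by at most `3 h L` -/
lemma Sv_step {f : V N → ℝ} {L : ℝ} (hL : GB L (Sv N h f)) (x : V N) :
    |Sv N (2 * h) f x - Sv N h f x| ≤ 3 * (h * L) := by
  rw [Sv_two]
  obtain ⟨g0, hg0⟩ : ∃ g0, g0 = Sv N h f := ⟨_, rfl⟩
  obtain ⟨g1, hg1⟩ : ∃ g1 : V N → ℝ, g1 = sh4 (hv h false) (hv h true) g0 := ⟨_, rfl⟩
  obtain ⟨g2, hg2⟩ : ∃ g2 : V N → ℝ, g2 = sh4 (-hv h false) (-hv h true) g1 := ⟨_, rfl⟩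
  rw [← hg0] at hL ⊢
  rw [← hg1, ← hg2]
  have b1 : GB L g1 := by rw [hg1]; exact sh4_GB hL _ _
  have b2 : GB L g2 := by rw [hg2]; exact sh4_GB b1 _ _
  have s1 : |g1 x - g0 x| ≤ h * L := by
    rw [hg1]
    exact sh4_near (walk_hv hL false) (walk_hv hL true) x
  have s2 : |g2 x - g1 x| ≤ h * L := by
    rw [hg2]
    exact sh4_near (walk_hv' b1 false) (walk_hv' b1 true) x
  have s3 := sh4_near (walk_hv (h := h) b2 false) (walk_hv b2 true) x
  have h1 := abs_le.1 s1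
  have h2 := abs_le.1 s2
  have h3 := abs_le.1 s3
  rw [abs_le]
  constructor <;> linarith [h1.1, h1.2, h2.1, h2.2, h3.1, h3.2]

/-- the top scale -/
lemma Sv_full (f : V N → ℝ) (x : V N) : Sv N N f x = ((N : ℝ) ^ 2)⁻¹ * ∑ y, f y := by
  have hN : 0 < N := NeZero.pos N
  have hN0 : (N : ℝ) ≠ 0 := by
    have : (0 : ℝ) < N := by exact_mod_cast hN
    exact this.ne'
  unfold Sv
  rw [bxT_full, sum_tT hN]

/-- the smooth event at all the scales -/
def supD (N h K : ℕ) [NeZero N] (Λ : ℝ) : Set (V N → ℝ) :=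
  {f | ∀ k ≤ K, GB (Λ / ((2 ^ k * h : ℕ) : ℝ)) (Sv N (2 ^ k * h) f)}

/-- **oscillation** -/
theorem osc_chain (hh : 0 < h) {K : ℕ} (hN : N = 2 ^ K * h) {Λ : ℝ} {f : V N → ℝ}
    (hf : f ∈ supD N h K Λ) (x : V N) :
    |Sv N h f x - ((N : ℝ) ^ 2)⁻¹ * ∑ y, f y| ≤ 3 * K * Λ := by
  have hh0 : (0 : ℝ) < h := by exact_mod_cast hh
  have key : ∀ k ≤ K, |Sv N (2 ^ k * h) f x - Sv N h f x| ≤ 3 * k * Λ := by
    intro k
    induction k with
    | zero =>
      intro _
      simp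
    | succ k ih =>
      intro hk
      have h1 := ih (by omega)
      have h2 := Sv_step (hf k (by omega)) x
      have e1 : 2 * (2 ^ k * h) = 2 ^ (k + 1) * h := by ring
      rw [e1] at h2
      have h3 : (((2 ^ k * h : ℕ) : ℝ)) ≠ 0 := by
        have : (0 : ℝ) < ((2 ^ k * h : ℕ) : ℝ) := by
          push_cast
          positivity
        exact this.ne'
      rw [mul_div_cancel₀ _ h3] at h2
      have h4 := abs_sub_le (Sv N (2 ^ (k + 1) * h) f x) (Sv N (2 ^ k * h) f x) (Sv N h f x)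
      push_cast
      linarith
  have h1 := key K le_rfl
  have e : Sv N (2 ^ K * h) f x = ((N : ℝ) ^ 2)⁻¹ * ∑ y, f y := by
    rw [← hN]
    exact Sv_full f x
  rw [e, abs_sub_comm] at h1
  exact h1

lemma osc_pair (hh : 0 < h) {K : ℕ} (hN : N = 2 ^ K * h) {Λ : ℝ} {f : V N → ℝ}
    (hf : f ∈ supD N h K Λ) (x y : V N) : |Sv N h f x - Sv N h f y| ≤ 6 * K * Λ := by
  have h1 := abs_le.1 (osc_chain hh hN hf x)
  have h2 := abs_le.1 (osc_chain hh hN hf y)
  rw [abs_le]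
  constructor <;> linarith [h1.1, h1.2, h2.1, h2.2]

lemma supD_GB {K : ℕ} {Λ : ℝ} {f : V N → ℝ} (hf : f ∈ supD N h K Λ) :
    GB (Λ / h) (Sv N h f) := by
  have h1 := hf 0 (Nat.zero_le _)
  simpa using h1

/-- the event of the fields -/
def supE (N q h K : ℕ) [NeZero N] (Λ : ℝ) : Set (V N → ℝ) := {F | tT N q F ∈ supD N h K Λ}

lemma cont_Sv (q h : ℕ) : Continuous fun F : V N → ℝ => Sv N h (tT N q F) := by
  unfold Sv tT bxT
  fun_prop

lemma meas_supE (K : ℕ) (Λ : ℝ) : MeasurableSet (supE N q h K Λ) := by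
  have e : supE N q h K Λ = ⋂ k, ⋂ (_ : k ≤ K), ⋂ e : V N × Bool,
      {F | |gr (Sv N (2 ^ k * h) (tT N q F)) e| ≤ Λ / ((2 ^ k * h : ℕ) : ℝ)} := by
    ext F
    simp only [supE, supD, GB, Set.mem_iInter, Set.mem_ofPred_eq]
  rw [e]
  refine MeasurableSet.iInter fun k => MeasurableSet.iInter fun _ => MeasurableSet.iInter fun e => ?_
  refine measurableSet_le (Continuous.measurable ?_) measurable_const
  have h1 : (fun F : V N → ℝ => |gr (Sv N (2 ^ k * h) (tT N q F)) e|) = fun F =>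
      |Sv N (2 ^ k * h) (tT N q F) (e.1 + eb e.2) - Sv N (2 ^ k * h) (tT N q F) e.1| := by
    funext F
    obtain ⟨x, c⟩ := e
    rw [gr_eq]
  rw [h1]
  have h2 := cont_Sv (N := N) q (2 ^ k * h)
  exact (((continuous_apply _).comp h2).sub ((continuous_apply _).comp h2)).abs

lemma geo4 (K : ℕ) : ∑ k ∈ range K, (1 / 4 : ℝ) ^ k ≤ 4 / 3 := by
  have h1 : ∑ k ∈ range K, (1 / 4 : ℝ) ^ k = 4 / 3 - 4 / 3 * (1 / 4) ^ K := by
    induction K with
    | zero => simp
    | succ K ih =>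
      rw [Finset.sum_range_succ, ih, pow_succ]
      ring
  rw [h1]
  have : (0 : ℝ) ≤ 4 / 3 * (1 / 4) ^ K := by positivity
  linarith

/-- **probability of the sup event** -/
theorem supE_prob (hb : 0 < b) (ht : 0 < t) (x₀ : V N) (hq : 0 < q) (hh : 0 < h) {K : ℕ}
    (hN : N = 2 ^ K * h) {Λ : ℝ} (hΛ : 0 < Λ)
    (hm : 16 * (m : ℝ) ^ 2 * (8 / (t * (h : ℝ) ^ 2) + 2 * b + 1) ≤ Λ ^ 2) :
    (nuM (wT b N) (t • (1 : Matrix (V N) (V N) ℝ)) x₀).real (supE N q h K Λ)ᶜ ≤
      11 * ((N : ℝ) / h) ^ 2 * (1 / 4) ^ m := by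
  have hp := prob_nuM (H963.gw_wT (N := N) hb.le) (bw_wT hb) (mf_scalar ht) x₀
  obtain ⟨ν, hν⟩ : ∃ ν, ν = nuM (wT b N) (t • (1 : Matrix (V N) (V N) ℝ)) x₀ := ⟨_, rfl⟩
  have hh0 : (0 : ℝ) < h := by exact_mod_cast hh
  have step : ∀ k ∈ range (K + 1), ∀ c : Bool, ν.real {F | ∃ x, Λ / ((2 ^ k * h : ℕ) : ℝ) <
      |Sv N (2 ^ k * h) (tT N q F) (x + ub c) - Sv N (2 ^ k * h) (tT N q F) x|} ≤
      4 * ((N : ℝ) / h) ^ 2 * (1 / 4) ^ m * (1 / 4) ^ k := by
    intro k hk c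
    rw [mem_range] at hk
    have hk1 : 1 ≤ 2 ^ k := Nat.one_le_two_pow
    have hkh : 0 < 2 ^ k * h := by positivity
    have hle : 2 ^ k * h ≤ N := by
      rw [hN]
      exact Nat.mul_le_mul_right _ (Nat.pow_le_pow_right two_pos (by omega))
    have h2k : (1 : ℝ) ≤ (2 : ℝ) ^ k := one_le_pow₀ one_le_two
    have h1 := sup_dir (m := m) hb ht x₀ hq hkh hle c hΛ (by
      refine le_trans ?_ hm
      refine mul_le_mul_of_nonneg_left ?_ (by positivity)
      have h3 : 8 / (t * ((2 ^ k * h : ℕ) : ℝ) ^ 2) ≤ 8 / (t * (h : ℝ) ^ 2) := by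
        refine div_le_div_of_nonneg_left (by norm_num) (by positivity) ?_
        refine mul_le_mul_of_nonneg_left (pow_le_pow_left₀ hh0.le ?_ 2) ht.le
        push_cast
        exact le_mul_of_one_le_left hh0.le h2k
      linarith)
    rw [← hν] at h1
    refine h1.trans (le_of_eq ?_)
    have e1 : ((N : ℝ) / ((2 ^ k * h : ℕ) : ℝ)) ^ 2 = ((N : ℝ) / h) ^ 2 * (1 / 4) ^ k := by
      push_cast
      have e2 : (1 / 4 : ℝ) ^ k = ((2 : ℝ) ^ k)⁻¹ ^ 2 := by
        rw [← inv_pow, ← pow_mul, mul_comm k 2, pow_mul]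
        norm_num
      rw [e2]
      field_simp
    rw [e1]
    ring
  have hsub : (supE N q h K Λ)ᶜ ⊆ ⋃ k ∈ range (K + 1),
      ({F | ∃ x, Λ / ((2 ^ k * h : ℕ) : ℝ) < |Sv N (2 ^ k * h) (tT N q F) (x + ub false) -
        Sv N (2 ^ k * h) (tT N q F) x|} ∪
      {F | ∃ x, Λ / ((2 ^ k * h : ℕ) : ℝ) < |Sv N (2 ^ k * h) (tT N q F) (x + ub true) -
        Sv N (2 ^ k * h) (tT N q F) x|}) := by
    intro F hF
    have h1 : ¬ ∀ k ≤ K, GB (Λ / ((2 ^ k * h : ℕ) : ℝ)) (Sv N (2 ^ k * h) (tT N q F)) := hF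
    push Not at h1
    obtain ⟨k, hk, h2⟩ := h1
    unfold GB at h2
    push Not at h2
    obtain ⟨⟨x, c⟩, h3⟩ := h2
    rw [gr_eq, eb_ub] at h3
    rw [Set.mem_iUnion₂]
    refine ⟨k, mem_range.2 (by omega), ?_⟩
    cases c
    · left; exact ⟨x, h3⟩
    · right; exact ⟨x, h3⟩
  rw [← hν] at hp ⊢
  refine (measureReal_mono hsub (measure_ne_top _ _)).trans
    ((measureReal_biUnion_finset_le _ _).trans ?_)
  refine (Finset.sum_le_sum (g := fun k => 8 * ((N : ℝ) / h) ^ 2 * (1 / 4) ^ m * (1 / 4) ^ k)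
    fun k hk => ?_).trans ?_
  · refine (measureReal_union_le _ _).trans ?_
    have h1 := step k hk false
    have h2 := step k hk true
    show _ ≤ 8 * ((N : ℝ) / h) ^ 2 * (1 / 4) ^ m * (1 / 4) ^ k
    linarith
  calc ∑ k ∈ range (K + 1), 8 * ((N : ℝ) / h) ^ 2 * (1 / 4) ^ m * (1 / 4) ^ k = 8 * ((N : ℝ) / h) ^ 2 * (1 / 4) ^ m * ∑ k ∈ range (K + 1), (1 / 4 : ℝ) ^ k := by
        rw [Finset.mul_sum]
    _ ≤ 8 * ((N : ℝ) / h) ^ 2 * (1 / 4) ^ m * (4 / 3) :=
        mul_le_mul_of_nonneg_left (geo4 _) (by positivity)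
    _ ≤ 11 * ((N : ℝ) / h) ^ 2 * (1 / 4) ^ m := by
        have : 0 ≤ ((N : ℝ) / h) ^ 2 * (1 / 4 : ℝ) ^ m := by positivity
        linarith

end

end Vale.Agent.P159.H789
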