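import Vale.Agent.P159.H789.StG
import Vale.Agent.P159.H663.Drl4

/-!
P159 (helper789), **strong R numbers**, part L: a site map behind the tent average, seen from the cells.

`T` = the tent average (`T *ᵥ F = tT N q F`), cells of side `l`, `l ∣ q`, `D = M T`:
* `tent_cell` : `grd (tT N q (cobVᵀ f)) ≤ l⁻² grd f`;
* `cell_en`   : `dirE (M H) ≤ K dirE H` ⟹ `dirE (cobV D cobVᵀ f) ≤ K dirE f`;
* `cell_op`, `cell_en2` : the same for the sum of squares and for maps from `L²` to the energy;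
* `dlt_tent`  : the off diagonal norm; `src_map` : field letters.
-/

set_option linter.unusedSectionVars false

namespace Vale.Agent.P159.H789

open Finset Matrix MeasureTheory Filter Topology
open Vale.Agent.P159.TM.H764 (EE Q grd)
open Vale.Agent.P159.H37
open Vale.Agent.P159.TM.Spec (V)
open Vale.Agent.P159.H864 (TI sym lapM ti_lapM cobV l_pos cl up cl1)
open Vale.Agent.P159.H963 (Neu pin Pn nwt nMC obsN Gnc PinC)
open Vale.Agent.P159.H447
open Vale.Agent.P159.H276 (bxT)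
open Vale.Agent.P159.H663.Dr (tT bxA tT_eq sq_bxA grd_tT tT_dot)

noncomputable section

variable {N l q : ℕ} [NeZero N]

/-! ### box averages of cell functions -/

lemma natCast_up1 (hl : l ∣ N) [NeZero (N / l)] :
    (H864.up1 (1 : ZMod (N / l)) : ZMod N) = (l : ZMod N) := by
  unfold H864.up1
  rcases Nat.lt_or_ge 1 (N / l) with h | h
  · have h1 : (1 : ZMod (N / l)).val = 1 := by
      have h2 : ((1 : ℕ) : ZMod (N / l)).val = 1 % (N / l) := ZMod.val_natCast _ 1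
      rw [Nat.cast_one] at h2
      rw [h2, Nat.mod_eq_of_lt h]
    rw [h1, mul_one]
  · have h0 : N / l ≠ 0 := NeZero.ne _
    have h1 : N / l = 1 := le_antisymm h (Nat.pos_of_ne_zero h0)
    have h2 : l = N := by
      have := Nat.div_mul_cancel hl
      rw [h1, one_mul] at this
      exact this
    have h3 : (l : ZMod N) = 0 := by rw [h2]; exact ZMod.natCast_self N
    push_cast
    rw [h3, zero_mul]

lemma up_e1 (hl : l ∣ N) [NeZero (N / l)] : (up ((1, 0) : V (N / l)) : V N) = ((l : ZMod N), 0) := by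
  unfold H864.up
  rw [natCast_up1 hl, H864.up1_zero]

lemma up_e2 (hl : l ∣ N) [NeZero (N / l)] : (up ((0, 1) : V (N / l)) : V N) = (0, (l : ZMod N)) := by
  unfold H864.up
  rw [natCast_up1 hl, H864.up1_zero]

/-- telescoping of a box average in the first direction -/
lemma bx_step1 (u : V N → ℝ) (x : V N) : bxT N l u (x + (1, 0)) - bxT N l u x =
    ((l : ℝ) ^ 2)⁻¹ * ∑ j ∈ range l, (u (x + (0, (j : ZMod N)) + ((l : ZMod N), 0)) -
      u (x + (0, (j : ZMod N)))) := by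
  have c1 : ∀ y : V N, ∑ i ∈ range l, ∑ j ∈ range l, u (y + ((i : ZMod N), (j : ZMod N))) =
      ∑ j ∈ range l, ∑ i ∈ range l, u (y + ((i : ZMod N), (j : ZMod N))) := fun y =>
    Finset.sum_comm
  unfold bxT
  rw [← mul_sub, c1, c1]
  congr 1
  rw [← Finset.sum_sub_distrib]
  refine Finset.sum_congr rfl fun j _ => ?_
  rw [← Finset.sum_sub_distrib]
  have e1 : ∀ i : ℕ, u (x + (1, 0) + ((i : ZMod N), (j : ZMod N))) =
      u (x + (((i + 1 : ℕ) : ZMod N), (j : ZMod N))) := by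
    intro i
    congr 1
    rw [add_assoc]
    congr 1
    ext
    · push_cast
      simp [add_comm]
    · simp
  simp only [e1]
  rw [Finset.sum_range_sub (fun i => u (x + ((i : ZMod N), (j : ZMod N))))]
  congr 2
  · rw [add_assoc]
    congr 1
    ext <;> simp
  · congr 1
    ext <;> simp

/-- telescoping of a box average in the second direction -/
lemma bx_step2 (u : V N → ℝ) (x : V N) : bxT N l u (x + (0, 1)) - bxT N l u x =
    ((l : ℝ) ^ 2)⁻¹ * ∑ i ∈ range l, (u (x + ((i : ZMod N), 0) + (0, (l : ZMod N))) -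
      u (x + ((i : ZMod N), 0))) := by
  unfold bxT
  rw [← mul_sub]
  congr 1
  rw [← Finset.sum_sub_distrib]
  refine Finset.sum_congr rfl fun i _ => ?_
  rw [← Finset.sum_sub_distrib]
  have e1 : ∀ j : ℕ, u (x + (0, 1) + ((i : ZMod N), (j : ZMod N))) =
      u (x + ((i : ZMod N), ((j + 1 : ℕ) : ZMod N))) := by
    intro j
    congr 1
    rw [add_assoc]
    congr 1
    ext
    · simp
    · push_cast
      simp [add_comm]
  simp only [e1]
  rw [Finset.sum_range_sub (fun j => u (x + ((i : ZMod N), (j : ZMod N))))]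
  congr 2
  · rw [add_assoc]
    congr 1
    ext <;> simp
  · congr 1
    ext <;> simp

/-- sum over the sites of the square of a mean of `l` shifted values, divided by `l` -/
lemma sq_line (hl0 : 0 < l) (g : V N → ℝ) (v : ℕ → V N) :
    ∑ x, (((l : ℝ) ^ 2)⁻¹ * ∑ j ∈ range l, g (x + v j)) ^ 2 ≤
      ((l : ℝ) ^ 2)⁻¹ * ∑ x, g x ^ 2 := by
  have hl' : (0 : ℝ) < l := by exact_mod_cast hl0
  have h1 : ∀ x, (((l : ℝ) ^ 2)⁻¹ * ∑ j ∈ range l, g (x + v j)) ^ 2 ≤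
      ((l : ℝ) ^ 3)⁻¹ * ∑ j ∈ range l, g (x + v j) ^ 2 := by
    intro x
    have h2 := sq_sum_le_card_mul_sum_sq (s := range l) (f := fun j => g (x + v j))
    rw [card_range] at h2
    rw [mul_pow]
    refine (mul_le_mul_of_nonneg_left h2 (by positivity)).trans (le_of_eq ?_)
    field_simp
  refine (Finset.sum_le_sum fun x _ => h1 x).trans (le_of_eq ?_)
  rw [← Finset.mul_sum, Finset.sum_comm]
  have h3 : ∀ j ∈ range l, ∑ x, g (x + v j) ^ 2 = ∑ x, g x ^ 2 := fun j _ =>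
    Equiv.sum_comp (Equiv.addRight (v j)) fun x => g x ^ 2
  rw [Finset.sum_congr rfl h3, sum_const, card_range, nsmul_eq_mul]
  field_simp

/-- a box average of the side of the cells -/
lemma grd_bx_cell (hl : l ∣ N) [NeZero (N / l)] (f : V (N / l) → ℝ) :
    grd (bxT N l ((cobV N l)ᵀ *ᵥ f)) ≤ ((l : ℝ) ^ 2)⁻¹ * grd f := by
  have hl0 := l_pos hl
  obtain ⟨u, hu⟩ : ∃ u, u = (cobV N l)ᵀ *ᵥ f := ⟨_, rfl⟩
  have k1 : Q (bxT N l u) (1, 0) ≤ ((l : ℝ) ^ 2)⁻¹ * Q f (1, 0) := by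
    have h1 := sq_line hl0 (fun y => u (y + ((l : ZMod N), 0)) - u y) fun j => (0, (j : ZMod N))
    rw [← Q_up_cell hl f (1, 0), up_e1 hl, ← hu]
    unfold Q
    refine le_trans (le_of_eq ?_) h1
    exact Finset.sum_congr rfl fun x _ => by rw [bx_step1]
  have k2 : Q (bxT N l u) (0, 1) ≤ ((l : ℝ) ^ 2)⁻¹ * Q f (0, 1) := by
    have h1 := sq_line hl0 (fun y => u (y + (0, (l : ZMod N))) - u y) fun j => ((j : ZMod N), 0)
    rw [← Q_up_cell hl f (0, 1), up_e2 hl, ← hu]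
    unfold Q
    refine le_trans (le_of_eq ?_) h1
    exact Finset.sum_congr rfl fun x _ => by rw [bx_step2]
  rw [← hu]
  unfold grd
  rw [mul_add]
  exact add_le_add k1 k2

lemma sum_range_mul (l k : ℕ) (f : ℕ → ℝ) :
    ∑ i ∈ range (l * k), f i = ∑ a ∈ range k, ∑ i ∈ range l, f (l * a + i) := by
  induction k with
  | zero => simp
  | succ k ih => rw [Nat.mul_succ, Finset.sum_range_add, ih, Finset.sum_range_succ]

/-- a large box average is a mean of shifts of a small one -/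
lemma bxT_mul (l k : ℕ) (u : V N → ℝ) (x : V N) : bxT N (l * k) u x = ((k : ℝ) ^ 2)⁻¹ *
    ∑ a ∈ range k, ∑ c ∈ range k, bxT N l u (x + (((l * a : ℕ) : ZMod N), ((l * c : ℕ) : ZMod N))) := by
  unfold bxT
  rw [sum_range_mul]
  simp only [sum_range_mul l k]
  have e1 : ∀ a c i j : ℕ, u (x + (((l * a + i : ℕ) : ZMod N), ((l * c + j : ℕ) : ZMod N))) =
      u (x + (((l * a : ℕ) : ZMod N), ((l * c : ℕ) : ZMod N)) + ((i : ZMod N), (j : ZMod N))) := by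
    intro a c i j
    congr 1
    rw [add_assoc]
    congr 1
    ext <;> push_cast <;> simp
  simp only [e1, ← Finset.mul_sum]
  rw [← mul_assoc]
  congr 1
  · push_cast
    rw [mul_pow, mul_inv, mul_comm]
  · refine Finset.sum_congr rfl fun a _ => ?_
    rw [Finset.sum_comm]

lemma Q_bx_mul {k : ℕ} (hk : 0 < k) (u : V N → ℝ) (e : V N) :
    Q (bxT N (l * k) u) e ≤ Q (bxT N l u) e := by
  unfold Q
  have e1 : ∀ x, bxT N (l * k) u (x + e) - bxT N (l * k) u x = ((k : ℝ) ^ 2)⁻¹ *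
      ∑ a ∈ range k, ∑ c ∈ range k, (bxT N l u (x + (((l * a : ℕ) : ZMod N),
        ((l * c : ℕ) : ZMod N)) + e) - bxT N l u (x + (((l * a : ℕ) : ZMod N),
        ((l * c : ℕ) : ZMod N)))) := by
    intro x
    rw [bxT_mul, bxT_mul, ← mul_sub]
    congr 1
    rw [← Finset.sum_sub_distrib]
    refine Finset.sum_congr rfl fun a _ => ?_
    rw [← Finset.sum_sub_distrib]
    refine Finset.sum_congr rfl fun c _ => ?_
    rw [add_right_comm]
  simp only [e1]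
  refine H663.Dr.sum_sq_avg hk (fun (x : V N) a c => bxT N l u (x + (((l * a : ℕ) : ZMod N),
    ((l * c : ℕ) : ZMod N)) + e) - bxT N l u (x + (((l * a : ℕ) : ZMod N),
    ((l * c : ℕ) : ZMod N)))) fun a _ c _ => ?_
  exact le_of_eq (Equiv.sum_comp (Equiv.addRight ((((l * a : ℕ) : ZMod N),
    ((l * c : ℕ) : ZMod N)) : V N)) fun x => (bxT N l u (x + e) - bxT N l u x) ^ 2)

lemma Q_bxA (hq : 0 < q) (u : V N → ℝ) (e : V N) : Q (bxA N q u) e ≤ Q u e := by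
  unfold Q
  have e1 : ∀ x, bxA N q u (x + e) - bxA N q u x = bxA N q (fun y => u (y + e) - u y) x := by
    intro x
    unfold H663.Dr.bxA
    rw [← mul_sub]
    congr 1
    rw [← Finset.sum_sub_distrib]
    refine Finset.sum_congr rfl fun a _ => ?_
    rw [← Finset.sum_sub_distrib]
    refine Finset.sum_congr rfl fun c _ => ?_
    show u (x + e - ((a : ZMod N), (c : ZMod N))) - u (x - ((a : ZMod N), (c : ZMod N))) =
      u (x - ((a : ZMod N), (c : ZMod N)) + e) - u (x - ((a : ZMod N), (c : ZMod N)))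
    rw [sub_add_eq_add_sub]
  simp only [e1]
  exact sq_bxA hq _

/-- **the tent average of a cell function** -/
theorem tent_cell (hl : l ∣ N) [NeZero (N / l)] (hlq : l ∣ q) (hq : 0 < q) (f : V (N / l) → ℝ) :
    grd (tT N q ((cobV N l)ᵀ *ᵥ f)) ≤ ((l : ℝ) ^ 2)⁻¹ * grd f := by
  obtain ⟨k, rfl⟩ := hlq
  have hk : 0 < k := Nat.pos_of_ne_zero fun h => by
    rw [h, mul_zero] at hq
    exact lt_irrefl _ hq
  refine le_trans ?_ (grd_bx_cell hl f)
  rw [tT_eq]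
  unfold grd
  exact add_le_add ((Q_bxA hq _ _).trans (Q_bx_mul hk _ _)) ((Q_bxA hq _ _).trans (Q_bx_mul hk _ _))

/-! ### the cell form of `D = M T` -/

variable {T M : Matrix (V N) (V N) ℝ}

lemma sum_cob_le (hl : l ∣ N) [NeZero (N / l)] (g : V N → ℝ) :
    ∑ c, (cobV N l *ᵥ g) c ^ 2 ≤ ∑ x, g x ^ 2 := by
  rw [← H864.qf_cellP hl]
  exact H864.qf_cellP_le hl _

lemma cell_map [NeZero (N / l)] (f : V (N / l) → ℝ) (hT : ∀ F, T *ᵥ F = tT N q F) :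
    (cobV N l * (M * T) * (cobV N l)ᵀ) *ᵥ f =
      cobV N l *ᵥ (M *ᵥ tT N q ((cobV N l)ᵀ *ᵥ f)) := by
  rw [← hT]
  simp only [mulVec_mulVec, Matrix.mul_assoc]

/-- **energy** -/
theorem cell_en (hl : l ∣ N) [NeZero (N / l)] (hlq : l ∣ q) (hq : 0 < q)
    (hT : ∀ F, T *ᵥ F = tT N q F) {K : ℝ} (hK : 0 ≤ K)
    (hM : ∀ H : V N → ℝ, qf lapM (M *ᵥ H) ≤ K * qf lapM H) (f : V (N / l) → ℝ) :
    qf lapM ((cobV N l * (M * T) * (cobV N l)ᵀ) *ᵥ f) ≤ K * qf lapM f := by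
  have hl0 : (0 : ℝ) < l := by exact_mod_cast l_pos hl
  rw [cell_map f hT]
  have h1 := lap_cob hl (M *ᵥ tT N q ((cobV N l)ᵀ *ᵥ f))
  have h2 := hM (tT N q ((cobV N l)ᵀ *ᵥ f))
  have h3 := tent_cell hl hlq hq f
  rw [H864.qf_lapM (tT N q _)] at h2
  have h4 : grd f = qf lapM f := (H864.qf_lapM f).symm
  rw [h4] at h3
  refine h1.trans ((mul_le_mul_of_nonneg_left (h2.trans (mul_le_mul_of_nonneg_left h3 hK))
    (by positivity)).trans (le_of_eq ?_))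
  field_simp

/-- **sum of squares** -/
theorem cell_op (hl : l ∣ N) [NeZero (N / l)] (hq : 0 < q)
    (hT : ∀ F, T *ᵥ F = tT N q F) {k : ℝ} (hk : 0 ≤ k)
    (hM : ∀ H : V N → ℝ, ∑ x, (M *ᵥ H) x ^ 2 ≤ k * ∑ x, H x ^ 2) (f : V (N / l) → ℝ) :
    ∑ c, ((cobV N l * (M * T) * (cobV N l)ᵀ) *ᵥ f) c ^ 2 ≤ k * ∑ c, f c ^ 2 := by
  rw [cell_map f hT]
  refine (sum_cob_le hl _).trans ((hM _).trans (mul_le_mul_of_nonneg_left ?_ hk))
  rw [← sum_cobT hl f, tT_eq]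
  refine (sq_bxA hq _).trans ?_
  unfold bxT
  refine H663.Dr.sum_sq_avg hq (fun (x : V N) i j => ((cobV N l)ᵀ *ᵥ f)
    (x + ((i : ZMod N), (j : ZMod N)))) fun i _ j _ => ?_
  exact le_of_eq (Equiv.sum_comp (Equiv.addRight (((i : ZMod N), (j : ZMod N)) : V N))
    fun x => ((cobV N l)ᵀ *ᵥ f) x ^ 2)

/-- **from the sum of squares to the energy** -/
theorem cell_en2 (hl : l ∣ N) [NeZero (N / l)] (hq : 0 < q)
    (hT : ∀ F, T *ᵥ F = tT N q F) {k : ℝ} (hk : 0 ≤ k)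
    (hM : ∀ H : V N → ℝ, qf lapM (M *ᵥ H) ≤ k * ∑ x, H x ^ 2) (f : V (N / l) → ℝ) :
    qf lapM ((cobV N l * (M * T) * (cobV N l)ᵀ) *ᵥ f) ≤ k * (l : ℝ) ^ 2 * ∑ c, f c ^ 2 := by
  rw [cell_map f hT]
  have h1 := lap_cob hl (M *ᵥ tT N q ((cobV N l)ᵀ *ᵥ f))
  have h2 := hM (tT N q ((cobV N l)ᵀ *ᵥ f))
  have h3 : ∑ x, tT N q ((cobV N l)ᵀ *ᵥ f) x ^ 2 ≤ ∑ c, f c ^ 2 := by
    rw [← sum_cobT hl f, tT_eq]
    refine (sq_bxA hq _).trans ?_
    unfold bxT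
    refine H663.Dr.sum_sq_avg hq (fun (x : V N) i j => ((cobV N l)ᵀ *ᵥ f)
      (x + ((i : ZMod N), (j : ZMod N)))) fun i _ j _ => ?_
    exact le_of_eq (Equiv.sum_comp (Equiv.addRight (((i : ZMod N), (j : ZMod N)) : V N))
      fun x => ((cobV N l)ᵀ *ᵥ f) x ^ 2)
  refine h1.trans ((mul_le_mul_of_nonneg_left (h2.trans (mul_le_mul_of_nonneg_left h3 hk))
    (by positivity)).trans (le_of_eq ?_))
  ring

/-! ### the adjoint -/

lemma tent_sym (hT : ∀ F, T *ᵥ F = tT N q F) : Tᵀ = T := by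
  have h1 : ∀ u h : V N → ℝ, u ⬝ᵥ (T *ᵥ h) = (T *ᵥ u) ⬝ᵥ h := by
    intro u h
    rw [hT, hT]
    exact tT_dot u h
  ext x y
  have h2 := h1 (Pi.single y 1) (Pi.single x 1)
  rw [Matrix.mulVec_single_one, Matrix.mulVec_single_one, single_one_dotProduct,
    dotProduct_single_one] at h2
  rw [Matrix.transpose_apply]
  exact h2

/-- **the off diagonal norm** -/
theorem dlt_tent (hl : l ∣ N) [NeZero (N / l)] (hq : 0 < q) (hT : ∀ F, T *ᵥ F = tT N q F)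
    {kM : ℝ}
    (hM : ∀ v : V N → ℝ, ∑ x, (Mᵀ *ᵥ v) x ^ 2 ≤ kM * ∑ x, v x ^ 2) (v : V N → ℝ) :
    ∑ x, ((1 - cellP N l) *ᵥ ((M * T)ᵀ *ᵥ v)) x ^ 2 ≤
      128 * kM * ((l : ℝ) / q) ^ 2 * ∑ x, v x ^ 2 := by
  have hq0 : (0 : ℝ) < q := by exact_mod_cast hq
  obtain ⟨w, hw⟩ : ∃ w, w = Mᵀ *ᵥ v := ⟨_, rfl⟩
  have e1 : (M * T)ᵀ *ᵥ v = tT N q w := by
    rw [transpose_mul, tent_sym hT, ← mulVec_mulVec, ← hw, hT]
  rw [e1]
  have h1 : ∑ x, ((1 - cellP N l) *ᵥ tT N q w) x ^ 2 ≤ 16 * (l : ℝ) ^ 2 * grd (tT N q w) := by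
    refine le_trans (le_of_eq ?_) (H859.poin_cellP hl (tT N q w))
    refine Finset.sum_congr rfl fun x _ => ?_
    rw [Matrix.sub_mulVec, Matrix.one_mulVec]
    rfl
  have h2 := grd_tT hq w
  have h3 : ∑ x, bxT N q w x ^ 2 ≤ ∑ x, w x ^ 2 := by
    unfold bxT
    refine H663.Dr.sum_sq_avg hq (fun (x : V N) i j => w (x + ((i : ZMod N), (j : ZMod N))))
      fun i _ j _ => ?_
    exact le_of_eq (Equiv.sum_comp (Equiv.addRight (((i : ZMod N), (j : ZMod N)) : V N))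
      fun x => w x ^ 2)
  have h4 := hM v
  rw [← hw] at h4
  calc ∑ x, ((1 - cellP N l) *ᵥ tT N q w) x ^ 2 ≤ 16 * (l : ℝ) ^ 2 * grd (tT N q w) := h1
    _ ≤ 16 * (l : ℝ) ^ 2 * (8 * ((q : ℝ) ^ 2)⁻¹ * (kM * ∑ x, v x ^ 2)) := by
        refine mul_le_mul_of_nonneg_left (h2.trans ?_) (by positivity)
        exact mul_le_mul_of_nonneg_left (h3.trans h4) (by positivity)
    _ = _ := by
        rw [div_pow]
        field_simp
        ring

lemma adj_tent (hq : 0 < q) (hT : ∀ F, T *ᵥ F = tT N q F) {kM : ℝ}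
    (hM : ∀ v : V N → ℝ, ∑ x, (Mᵀ *ᵥ v) x ^ 2 ≤ kM * ∑ x, v x ^ 2) (v : V N → ℝ) :
    ∑ x, ((M * T)ᵀ *ᵥ v) x ^ 2 ≤ kM * ∑ x, v x ^ 2 := by
  rw [transpose_mul, tent_sym hT, ← mulVec_mulVec, hT]
  refine le_trans ?_ (hM v)
  rw [tT_eq]
  refine (sq_bxA hq _).trans ?_
  unfold bxT
  refine H663.Dr.sum_sq_avg hq (fun (x : V N) i j => (Mᵀ *ᵥ v)
    (x + ((i : ZMod N), (j : ZMod N)))) fun i _ j _ => ?_
  exact le_of_eq (Equiv.sum_comp (Equiv.addRight (((i : ZMod N), (j : ZMod N)) : V N))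
    fun x => (Mᵀ *ᵥ v) x ^ 2)

/-- the norm of the adjoint from the norm -/
lemma norm_adj {A : Matrix (V N) (V N) ℝ} {k : ℝ} (hk : 0 ≤ k)
    (h : ∀ v : V N → ℝ, ∑ x, (A *ᵥ v) x ^ 2 ≤ k * ∑ x, v x ^ 2) (v : V N → ℝ) :
    ∑ x, (Aᵀ *ᵥ v) x ^ 2 ≤ k * ∑ x, v x ^ 2 := by
  obtain ⟨w, hw⟩ : ∃ w, w = Aᵀ *ᵥ v := ⟨_, rfl⟩
  rw [← hw]
  have e1 : ∑ x, w x ^ 2 = v ⬝ᵥ (A *ᵥ w) := by
    have h1 : ∑ x, w x ^ 2 = w ⬝ᵥ w := by
      unfold dotProduct
      exact Finset.sum_congr rfl fun x _ => by ring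
    rw [h1]
    nth_rw 1 [hw]
    rw [Matrix.mulVec_transpose, ← dotProduct_mulVec]
  have h2 : (v ⬝ᵥ (A *ᵥ w)) ^ 2 ≤ (∑ x, v x ^ 2) * ∑ x, (A *ᵥ w) x ^ 2 :=
    Finset.sum_mul_sq_le_sq_mul_sq _ _ _
  rw [← e1] at h2
  have h3 := h w
  have h4 : 0 ≤ ∑ x, v x ^ 2 := Finset.sum_nonneg fun _ _ => sq_nonneg _
  have h5 : 0 ≤ ∑ x, w x ^ 2 := Finset.sum_nonneg fun _ _ => sq_nonneg _
  have h6 : (∑ x, w x ^ 2) ^ 2 ≤ (k * ∑ x, v x ^ 2) * ∑ x, w x ^ 2 := by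
    refine h2.trans ((mul_le_mul_of_nonneg_left h3 h4).trans (le_of_eq ?_))
    ring
  rcases h5.eq_or_lt with h7 | h7
  · rw [← h7]
    positivity
  · nlinarith

/-! ### field letters -/

lemma kill_Pn {D : Matrix (V N) (V N) ℝ} (hD : D *ᵥ (fun _ => (1 : ℝ)) = 0) (F : V N → ℝ) :
    D *ᵥ ((Pn : Matrix (V N) (V N) ℝ) *ᵥ F) = D *ᵥ F := by
  rw [H963.Pn_mulVec]
  have e : (fun x => F x - (∑ y, F y) / (Fintype.card (V N) : ℝ)) =
      F - ((∑ y, F y) / (Fintype.card (V N) : ℝ)) • fun _ => (1 : ℝ) := by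
    funext x
    simp
  rw [e, Matrix.mulVec_sub, Matrix.mulVec_smul, hD, smul_zero, sub_zero]

/-- `(z (Pn D)) src F = Pt (z D F)` -/
theorem src_map {t z : ℝ} {D : Matrix (V N) (V N) ℝ} (hD : D *ᵥ (fun _ => (1 : ℝ)) = 0)
    (F : V N → ℝ) : (z • ((Pn : Matrix (V N) (V N) ℝ) * D)) *ᵥ src N t F =
      H817.Pt t (z • (D *ᵥ F)) := by
  rw [src_eq, Matrix.mulVec_smul, smul_mulVec, ← mulVec_mulVec, kill_Pn hD]
  unfold H817.Pt
  rw [← Matrix.mulVec_smul, ← Matrix.mulVec_smul]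

end

end Vale.Agent.P159.H789
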