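import Vale.Agent.P159.H789.Psd
import Vale.Agent.P159.TM.H104.Calc

/-!
P159, helper789: the STAR inequality.  `μ` an even weight on `V → ℤ` of the duplication class with
all exponential moments, `J` a real tilt.  Then for all directions `u`, `x`
`(Cov_J(u,x) - Cov_0(u,x))^2 ≤ (1/2) (e^{T(J)} - 1) κ₄(u,u,x,x)`,
`e^{T(J)} = Z(2J) Z(0)^3 / Z(J)^4`, `κ₄` the fourth joint cumulant at tilt `0`.
-/

open scoped ENNReal Topology
open Finset Filter

namespace Vale.Agent.P159.H789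

open TM.H104 (nh nh_nonneg li abs_li li_add li_smul li_neg li_sub li_zero Gr EM T Ex Cv)

variable {V : Type*} [Fintype V] {μ : (V → ℤ) → ℝ}

/-- tilted weight -/
noncomputable def tw (μ : (V → ℤ) → ℝ) (J : V → ℝ) (h : V → ℤ) : ℝ := μ h * Real.exp (li J h)

theorem em_tw (hμ : EM μ) (J : V → ℝ) : EM (tw μ J) := by
  refine ⟨fun h => mul_nonneg (hμ.nn h) (Real.exp_pos _).le, ?_, fun C => ?_⟩
  · obtain ⟨h, hh⟩ := hμ.pos
    exact ⟨h, mul_pos hh (Real.exp_pos _)⟩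
  · refine Summable.of_nonneg_of_le
      (fun h => mul_nonneg (mul_nonneg (hμ.nn h) (Real.exp_pos _).le) (Real.exp_pos _).le)
      (fun h => ?_) (hμ.sum (‖J‖ + C))
    unfold tw
    rw [mul_assoc, ← Real.exp_add]
    refine mul_le_mul_of_nonneg_left (Real.exp_le_exp.2 ?_) (hμ.nn h)
    have := (le_abs_self _).trans (abs_li J h)
    linarith

theorem T_tw (μ : (V → ℤ) → ℝ) (J u : V → ℝ) (F : (V → ℤ) → ℝ) :
    T (tw μ J) u F = T μ (J + u) F := by
  unfold T tw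
  refine tsum_congr fun h => ?_
  rw [li_add, Real.exp_add]
  ring

theorem exp_abs_bound (z : ℝ) (n : ℕ) :
    |Real.exp z - ∑ m ∈ range n, z ^ m / m.factorial| ≤ |z| ^ n * Real.exp |z| := by
  have h := Complex.norm_exp_sub_sum_le_norm_mul_exp (z : ℂ) n
  have e : Complex.exp (z : ℂ) - ∑ m ∈ range n, (z : ℂ) ^ m / (m.factorial : ℂ) =
      ((Real.exp z - ∑ m ∈ range n, z ^ m / m.factorial : ℝ) : ℂ) := by
    push_cast
    rfl
  rw [e, Complex.norm_real, Real.norm_eq_abs, Complex.norm_real, Real.norm_eq_abs] at h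
  exact h

theorem Gr.pow' {F : (V → ℤ) → ℝ} (hF : Gr F) (n : ℕ) : Gr fun h => F h ^ n := by
  induction n with
  | zero => simpa using Gr.const (V := V) 1
  | succ n ih =>
    have := ih.mul hF
    simpa only [pow_succ] using this

/-- Taylor expansion of the tilted sum at tilt `0` -/
theorem T_taylor (hμ : EM μ) (p : V → ℝ) (n : ℕ) : ∃ C : ℝ, 0 ≤ C ∧ ∀ e : ℝ, |e| ≤ 1 →
    |T μ (e • p) (fun _ => 1) - ∑ m ∈ range n, e ^ m / m.factorial * T μ 0 fun h => li p h ^ m| ≤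
      C * |e| ^ n := by
  have hs := hμ.summ' ((Gr.pow' (Gr.li p) n).mul (Gr.const 1)) ‖p‖
  refine ⟨∑' h, |li p h ^ n * 1| * μ h * Real.exp (‖p‖ * nh h), tsum_nonneg fun h =>
    mul_nonneg (mul_nonneg (abs_nonneg _) (hμ.nn h)) (Real.exp_pos _).le, fun e he => ?_⟩
  have h1 : T μ (e • p) (fun _ => 1) - ∑ m ∈ range n, e ^ m / m.factorial *
      (T μ 0 fun h => li p h ^ m) =
      ∑' h, (Real.exp (e * li p h) - ∑ m ∈ range n, (e * li p h) ^ m / m.factorial) * μ h := by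
    have a1 : HasSum (fun h => 1 * μ h * Real.exp (li (e • p) h)) (T μ (e • p) fun _ => 1) :=
      (hμ.summ (Gr.const 1) (e • p)).hasSum
    have a2 : ∀ m ∈ range n, HasSum (fun h => e ^ m / m.factorial *
        (li p h ^ m * μ h * Real.exp (li (0 : V → ℝ) h)))
        (e ^ m / m.factorial * T μ 0 fun h => li p h ^ m) := fun m _ =>
      (hμ.summ (Gr.pow' (Gr.li p) m) 0).hasSum.mul_left _
    have a3 := a1.sub (hasSum_sum a2)
    rw [← a3.tsum_eq]
    refine tsum_congr fun h => ?_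
    rw [li_smul, sub_mul, one_mul, mul_comm (μ h), Finset.sum_mul]
    congr 1
    refine Finset.sum_congr rfl fun m _ => ?_
    rw [li_zero, Real.exp_zero, mul_pow]
    ring
  rw [h1, ← Real.norm_eq_abs]
  have hb : ∀ h, ‖(Real.exp (e * li p h) - ∑ m ∈ range n, (e * li p h) ^ m / m.factorial) * μ h‖ ≤
      (|li p h ^ n * 1| * μ h * Real.exp (‖p‖ * nh h)) * |e| ^ n := by
    intro h
    rw [norm_mul, Real.norm_eq_abs, Real.norm_eq_abs, abs_of_nonneg (hμ.nn h)]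
    have b1 := exp_abs_bound (e * li p h) n
    have b2 : |e * li p h| ≤ ‖p‖ * nh h := by
      rw [abs_mul]
      calc |e| * |li p h| ≤ 1 * |li p h| := mul_le_mul_of_nonneg_right he (abs_nonneg _)
        _ = |li p h| := one_mul _
        _ ≤ _ := abs_li p h
    calc |Real.exp (e * li p h) - ∑ m ∈ range n, (e * li p h) ^ m / m.factorial| * μ h
        ≤ (|e * li p h| ^ n * Real.exp |e * li p h|) * μ h :=
          mul_le_mul_of_nonneg_right b1 (hμ.nn h)
      _ ≤ (|e * li p h| ^ n * Real.exp (‖p‖ * nh h)) * μ h :=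
          mul_le_mul_of_nonneg_right (mul_le_mul_of_nonneg_left (Real.exp_le_exp.2 b2)
            (by positivity)) (hμ.nn h)
      _ = _ := by
          rw [abs_mul, mul_pow, mul_one, abs_pow]
          ring
  refine (norm_tsum_le_tsum_norm (Summable.of_nonneg_of_le (fun _ => norm_nonneg _) hb
    (hs.mul_right _))).trans ?_
  rw [← tsum_mul_right]
  exact (Summable.of_nonneg_of_le (fun _ => norm_nonneg _) hb (hs.mul_right _)).tsum_le_tsum hb
    (hs.mul_right _)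

/-- partition function of the tilt `J` -/
noncomputable def yy (μ : (V → ℤ) → ℝ) (J : V → ℝ) : ℝ := T μ J fun _ => 1

open Asymptotics

theorem yy_taylor (hμ : EM μ) (J p : V → ℝ) (n : ℕ) :
    (fun e : ℝ => yy μ (J + e • p) - ∑ m ∈ range n, e ^ m / m.factorial *
      T μ J fun h => li p h ^ m) =O[𝓝 0] fun e : ℝ => e ^ n := by
  obtain ⟨C, hC, h⟩ := T_taylor (em_tw hμ J) p n
  refine IsBigO.of_bound C ?_
  have h1 : ∀ᶠ e : ℝ in 𝓝 0, |e| ≤ 1 := by
    filter_upwards [Metric.ball_mem_nhds (0 : ℝ) one_pos] with e he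
    rw [Metric.mem_ball, Real.dist_eq, sub_zero] at he
    exact he.le
  filter_upwards [h1] with e he
  have h2 := h e he
  simp only [T_tw, add_zero] at h2
  rw [Real.norm_eq_abs, Real.norm_eq_abs, abs_pow]
  exact h2

theorem bigO_le {f : ℝ → ℝ} {m n : ℕ} (h : f =O[𝓝 0] fun e : ℝ => e ^ n) (hmn : m ≤ n) :
    f =O[𝓝 0] fun e : ℝ => e ^ m := by
  refine h.trans ?_
  refine IsBigO.of_bound 1 ?_
  have h1 : ∀ᶠ e : ℝ in 𝓝 0, |e| ≤ 1 := by
    filter_upwards [Metric.ball_mem_nhds (0 : ℝ) one_pos] with e he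
    rw [Metric.mem_ball, Real.dist_eq, sub_zero] at he
    exact he.le
  filter_upwards [h1] with e he
  rw [one_mul, Real.norm_eq_abs, Real.norm_eq_abs, abs_pow, abs_pow]
  exact pow_le_pow_of_le_one (abs_nonneg _) he hmn

theorem bigO_const_mul_pow (c : ℝ) (n : ℕ) :
    (fun e : ℝ => c * e ^ n) =O[𝓝 0] fun e : ℝ => e ^ n :=
  (isBigO_refl _ _).const_mul_left c

/-- the kernel at `(J, e p)` to second order -/
theorem kk_taylor (hμ : EM μ) (J p : V → ℝ) :
    (fun e : ℝ => kk (yy μ) J (e • p) - (yy μ J ^ 2 + e ^ 2 * (yy μ J * (T μ J fun h => li p h ^ 2)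
      - T μ J (li p) ^ 2))) =O[𝓝 0] fun e : ℝ => e ^ 3 := by
  set M0 : ℝ := yy μ J with hM0
  set M1 : ℝ := T μ J (li p) with hM1
  set M2 : ℝ := T μ J fun h => li p h ^ 2 with hM2
  have h1 := yy_taylor hμ J p 3
  have h2 := yy_taylor hμ J (-p) 3
  simp only [Finset.sum_range_succ, Finset.sum_range_zero, pow_zero, Nat.factorial, pow_one,
    Nat.cast_one, div_one, zero_add, one_mul, li_neg, Nat.cast_mul] at h1 h2
  have e1 : (T μ J fun h => -li p h) = -M1 := by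
    have := TM.H104.T_cmul (μ := μ) (-1) (li p) J
    simpa only [neg_mul, one_mul] using this
  have e2 : (T μ J fun h => (-li p h) ^ 2) = M2 := by
    simp only [neg_sq, hM2]
  rw [e1, e2] at h2
  change (fun e : ℝ => yy μ (J + e • p) - (M0 + e * M1 + e ^ 2 / (2 * 1) * M2)) =O[𝓝 0] _ at h1
  change (fun e : ℝ => yy μ (J + e • -p) - (M0 + e * -M1 + e ^ 2 / (2 * 1) * M2)) =O[𝓝 0] _ at h2
  have hP : (fun e : ℝ => M0 + e * M1 + e ^ 2 / (2 * 1) * M2) =O[𝓝 0] fun _ : ℝ => (1 : ℝ) := by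
    refine (Continuous.tendsto (by fun_prop) 0).isBigO_one ℝ
  have hP' : (fun e : ℝ => yy μ (J + e • -p)) =O[𝓝 0] fun _ : ℝ => (1 : ℝ) := by
    refine (Continuous.tendsto ?_ 0).isBigO_one ℝ
    exact (TM.H104.continuous_T hμ (Gr.const 1)).comp (by fun_prop)
  have h3 := ((hP.mul h2).congr_right fun e => one_mul _).add
    ((h1.mul hP').congr_right fun e => mul_one _)
  have h4 := bigO_const_mul_pow (M2 ^ 2 / 4) 4
  have h5 := (bigO_le h4 (show 3 ≤ 4 by norm_num))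
  refine (h3.add h5).congr_left fun e => ?_
  unfold kk
  rw [sub_eq_add_neg J, ← smul_neg]
  ring

theorem T_mul_add (hμ : EM μ) (J u x : V → ℝ) :
    (T μ J fun h => li (u + x) h ^ 2) = (T μ J fun h => li u h ^ 2) +
      2 * (T μ J fun h => li u h * li x h) + T μ J fun h => li x h ^ 2 := by
  have h1 := Gr.pow' (Gr.li u) 2
  have h2 := Gr.pow' (Gr.li x) 2
  have h3 := (Gr.li u).mul (Gr.li x)
  rw [← TM.H104.T_cmul, ← TM.H104.T_add hμ h1 (h3.cmul 2), ← TM.H104.T_add hμ (h1.add (h3.cmul 2)) h2]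
  congr 1
  funext h
  rw [li_add]
  ring

theorem T_li_add (hμ : EM μ) (J u x : V → ℝ) : T μ J (li (u + x)) = T μ J (li u) + T μ J (li x) := by
  rw [← TM.H104.T_add hμ (Gr.li u) (Gr.li x)]
  congr 1
  funext h
  rw [li_add]

theorem T_li_neg (J x : V → ℝ) : T μ J (li (-x)) = -T μ J (li x) := by
  have := TM.H104.T_cmul (μ := μ) (-1) (li x) J
  rw [neg_one_mul] at this
  rw [← this]
  congr 1
  funext h
  rw [li_neg]
  ring

theorem T_mul_neg (J u x : V → ℝ) :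
    (T μ J fun h => li u h * li (-x) h) = -T μ J fun h => li u h * li x h := by
  have := TM.H104.T_cmul (μ := μ) (-1) (fun h => li u h * li x h) J
  rw [neg_one_mul] at this
  rw [← this]
  congr 1
  funext h
  rw [li_neg]
  ring

theorem T_sq_neg (J x : V → ℝ) :
    (T μ J fun h => li (-x) h ^ 2) = T μ J fun h => li x h ^ 2 := by
  congr 1
  funext h
  rw [li_neg, neg_sq]

/-- difference of the kernels in the directions `u + x`, `u - x` -/
theorem kk_diff (hμ : EM μ) (J u x : V → ℝ) :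
    (fun e : ℝ => kk (yy μ) J (e • (u + x)) - kk (yy μ) J (e • (u - x)) -
      e ^ 2 * (4 * (yy μ J ^ 2 * Cv μ J (li u) (li x)))) =O[𝓝 0] fun e : ℝ => e ^ 3 := by
  have h1 := kk_taylor hμ J (u + x)
  have h2 := kk_taylor hμ J (u + -x)
  refine (h1.sub h2).congr_left fun e => ?_
  rw [T_mul_add hμ, T_mul_add hμ, T_li_add hμ, T_li_add hμ, T_li_neg, T_mul_neg, T_sq_neg,
    ← sub_eq_add_neg u x]
  have hp : yy μ J ≠ 0 := (TM.H104.T_one_pos hμ J).ne'
  unfold Cv Ex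
  change _ = kk (yy μ) J (e • (u + x)) - kk (yy μ) J (e • (u - x)) -
      e ^ 2 * (4 * (yy μ J ^ 2 * ((T μ J fun h => li u h * li x h) / yy μ J -
        T μ J (li u) / yy μ J * (T μ J (li x) / yy μ J))))
  field_simp
  ring

/-- evenness of the weight: odd moments vanish -/
theorem T_odd (he : ∀ h, μ (-h) = μ h) {F : (V → ℤ) → ℝ} (hF : ∀ h, F (-h) = -F h) :
    T μ 0 F = 0 := by
  have h1 : T μ 0 F = T μ 0 fun h => -F h := by
    unfold T
    rw [← (Equiv.neg (V → ℤ)).tsum_eq]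
    refine tsum_congr fun h => ?_
    simp only [Equiv.neg_apply, he, hF, li_zero]
  have h2 := TM.H104.T_cmul (μ := μ) (-1) F 0
  simp only [neg_one_mul] at h2
  linarith

theorem li_negh (u : V → ℝ) (h : V → ℤ) : li u (-h) = -li u h := by
  unfold li
  rw [← Finset.sum_neg_distrib]
  refine Finset.sum_congr rfl fun x _ => ?_
  simp

theorem yy_even (he : ∀ h, μ (-h) = μ h) (J : V → ℝ) : yy μ (-J) = yy μ J := by
  unfold yy T
  rw [← (Equiv.neg (V → ℤ)).tsum_eq]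
  refine tsum_congr fun h => ?_
  simp only [Equiv.neg_apply, he, li_negh, li_neg, neg_neg]

/-- the partition function at `2 e p` to fourth order -/
theorem yy_four (hμ : EM μ) (he : ∀ h, μ (-h) = μ h) (p : V → ℝ) :
    (fun e : ℝ => yy μ ((2 * e) • p) - (yy μ 0 + 2 * e ^ 2 * (T μ 0 fun h => li p h ^ 2) +
      2 / 3 * e ^ 4 * T μ 0 fun h => li p h ^ 4)) =O[𝓝 0] fun e : ℝ => e ^ 5 := by
  have h1 := yy_taylor hμ 0 ((2 : ℝ) • p) 5
  refine h1.congr_left fun e => ?_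
  have e1 : T μ 0 (fun h => li ((2 : ℝ) • p) h ^ 1) = 0 :=
    T_odd he fun h => by rw [li_negh]; ring
  have e3 : T μ 0 (fun h => li ((2 : ℝ) • p) h ^ 3) = 0 :=
    T_odd he fun h => by rw [li_negh]; ring
  have e2 : T μ 0 (fun h => li ((2 : ℝ) • p) h ^ 2) = 4 * T μ 0 fun h => li p h ^ 2 := by
    rw [← TM.H104.T_cmul]
    congr 1
    funext h
    rw [li_smul]
    ring
  have e4 : T μ 0 (fun h => li ((2 : ℝ) • p) h ^ 4) = 16 * T μ 0 fun h => li p h ^ 4 := by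
    rw [← TM.H104.T_cmul]
    congr 1
    funext h
    rw [li_smul]
    ring
  have e0 : T μ 0 (fun h => li ((2 : ℝ) • p) h ^ 0) = yy μ 0 := by
    simp only [pow_zero, yy]
  simp only [Finset.sum_range_succ, Finset.sum_range_zero, e0, e1, e2, e3, e4, zero_add, smul_smul]
  norm_num [Nat.factorial]
  rw [mul_comm e 2]
  ring

/-- fourth cumulant at tilt `0` -/
noncomputable def K4 (μ : (V → ℤ) → ℝ) (u x : V → ℝ) : ℝ :=
  Ex μ 0 (fun h => li u h ^ 2 * li x h ^ 2) - Ex μ 0 (fun h => li u h ^ 2) *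
    Ex μ 0 (fun h => li x h ^ 2) - 2 * Ex μ 0 (fun h => li u h * li x h) ^ 2

theorem T_four (hμ : EM μ) (J u x : V → ℝ) :
    (T μ J fun h => li (u + x) h ^ 4) + (T μ J fun h => li (u - x) h ^ 4) =
      2 * (T μ J fun h => li u h ^ 4) + 2 * (T μ J fun h => li x h ^ 4) +
        12 * T μ J fun h => li u h ^ 2 * li x h ^ 2 := by
  have g1 := Gr.pow' (Gr.li u) 4
  have g2 := Gr.pow' (Gr.li x) 4
  have g3 := (Gr.pow' (Gr.li u) 2).mul (Gr.pow' (Gr.li x) 2)
  have g4 := Gr.pow' (Gr.li (u + x)) 4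
  have g5 := Gr.pow' (Gr.li (u - x)) 4
  rw [← TM.H104.T_add hμ g4 g5, ← TM.H104.T_cmul, ← TM.H104.T_cmul, ← TM.H104.T_cmul,
    ← TM.H104.T_add hμ (g1.cmul 2) (g2.cmul 2),
    ← TM.H104.T_add hμ ((g1.cmul 2).add (g2.cmul 2)) (g3.cmul 12)]
  congr 1
  funext h
  rw [li_add, li_sub]
  ring

theorem T_two (hμ : EM μ) (J u x : V → ℝ) :
    (T μ J fun h => li (u + x) h ^ 2) + (T μ J fun h => li (u - x) h ^ 2) =
      2 * (T μ J fun h => li u h ^ 2) + 2 * (T μ J fun h => li x h ^ 2) := by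
  rw [sub_eq_add_neg, T_mul_add hμ, T_mul_add hμ, T_mul_neg, T_sq_neg]
  ring

theorem kk_quad (hμ : EM μ) (he : ∀ h, μ (-h) = μ h) (u x : V → ℝ) :
    (fun e : ℝ => kk (yy μ) (e • (u + x)) (e • (u + x)) + kk (yy μ) (e • (u - x)) (e • (u - x)) -
      2 * kk (yy μ) (e • (u + x)) (e • (u - x)) - e ^ 4 * (8 * (yy μ 0 ^ 2 *
        (Ex μ 0 (fun h => li u h ^ 2 * li x h ^ 2) - Ex μ 0 (fun h => li u h ^ 2) *
    Ex μ 0 (fun h => li x h ^ 2))))) =O[𝓝 0] fun e : ℝ => e ^ 5 := by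
  set M0 : ℝ := yy μ 0 with hM0
  have hM0p : M0 ≠ 0 := (TM.H104.T_one_pos hμ 0).ne'
  have a1 := yy_four hμ he (u + x)
  have a2 := yy_four hμ he (u - x)
  have a3 := yy_four hμ he u
  have a4 := yy_four hμ he x
  set A2 := T μ 0 fun h => li u h ^ 2 with hA2
  set B2 := T μ 0 fun h => li x h ^ 2 with hB2
  set A4 := T μ 0 fun h => li u h ^ 4 with hA4
  set B4 := T μ 0 fun h => li x h ^ 4 with hB4
  have hP : (fun e : ℝ => M0 + 2 * e ^ 2 * A2 + 2 / 3 * e ^ 4 * A4) =O[𝓝 0]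
      fun _ : ℝ => (1 : ℝ) := by
    refine (Continuous.tendsto (by fun_prop) 0).isBigO_one ℝ
  have hP' : (fun e : ℝ => yy μ ((2 * e) • x)) =O[𝓝 0] fun _ : ℝ => (1 : ℝ) := by
    refine (Continuous.tendsto ?_ 0).isBigO_one ℝ
    exact (TM.H104.continuous_T hμ (Gr.const 1)).comp (by fun_prop)
  have h3 := ((hP.mul a4).congr_right fun e => one_mul _).add
    ((a3.mul hP').congr_right fun e => mul_one _)
  have b6 := bigO_le (bigO_const_mul_pow (-2 * (2 * A2 * (2 / 3 * B4) + 2 * B2 * (2 / 3 * A4))) 6)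
    (show 5 ≤ 6 by norm_num)
  have b8 := bigO_le (bigO_const_mul_pow (-2 * (2 / 3 * A4 * (2 / 3 * B4))) 8)
    (show 5 ≤ 8 by norm_num)
  have h4 := (((a1.const_mul_left M0).add (a2.const_mul_left M0)).add
    (h3.const_mul_left (-2))).add (b6.add b8)
  refine h4.congr_left fun e => ?_
  have c1 := T_two hμ 0 u x
  have c2 := T_four hμ 0 u x
  have k1 : kk (yy μ) (e • (u + x)) (e • (u + x)) = yy μ ((2 * e) • (u + x)) * M0 := by
    unfold kk
    rw [sub_self, ← two_smul ℝ (e • (u + x)), smul_smul]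
  have k2 : kk (yy μ) (e • (u - x)) (e • (u - x)) = yy μ ((2 * e) • (u - x)) * M0 := by
    unfold kk
    rw [sub_self, ← two_smul ℝ (e • (u - x)), smul_smul]
  have k3 : kk (yy μ) (e • (u + x)) (e • (u - x)) = yy μ ((2 * e) • u) * yy μ ((2 * e) • x) := by
    unfold kk
    congr 2
    · rw [← smul_add, two_mul, add_smul, ← smul_add]
      congr 1
      abel
    · rw [← smul_sub, two_mul, add_smul, ← smul_add]
      congr 1
      abel
  rw [k1, k2, k3]
  unfold Ex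
  change _ = _ - e ^ 4 * (8 * (M0 ^ 2 * ((T μ 0 fun h => li u h ^ 2 * li x h ^ 2) / M0 -
    A2 / M0 * (B2 / M0))))
  have c3 : M0 ^ 2 * ((T μ 0 fun h => li u h ^ 2 * li x h ^ 2) / M0 -
    A2 / M0 * (B2 / M0)) = M0 * (T μ 0 fun h => li u h ^ 2 * li x h ^ 2) - A2 * B2 := by
    field_simp
  rw [c3]
  linear_combination (-2 * e ^ 2 * M0) * c1 + (-2 / 3 * e ^ 4 * M0) * c2

theorem tendsto_div_pow {f : ℝ → ℝ} {a : ℝ} {n : ℕ}
    (h : (fun e : ℝ => f e - e ^ n * a) =O[𝓝 0] fun e : ℝ => e ^ (n + 1)) :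
    Tendsto (fun e : ℝ => f e / e ^ n) (𝓝[≠] 0) (𝓝 a) := by
  have h1 : (fun e : ℝ => f e - e ^ n * a) =o[𝓝[≠] 0] fun e : ℝ => e ^ n := by
    refine (h.mono nhdsWithin_le_nhds).trans_isLittleO ?_
    refine IsLittleO.mono ?_ nhdsWithin_le_nhds
    exact isLittleO_pow_pow n.lt_succ_self
  have h2 := h1.tendsto_div_nhds_zero
  have h3 := h2.add_const a
  rw [zero_add] at h3
  refine h3.congr' ?_
  filter_upwards [self_mem_nhdsWithin] with e he
  have : e ≠ 0 := he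
  field_simp
  ring

/-- `cs0` for a difference of two feature vectors -/
theorem cs2 {A : Type*} [AddCommGroup A] {Z : A → ℝ} (hK : PSDK Z) (he : ∀ a, Z (-a) = Z a)
    (h0 : 0 < Z 0) (F p q : A) :
    ((kk Z F p - kk Z F q) * Z 0 ^ 2 - kk Z F 0 * (kk Z 0 p - kk Z 0 q)) ^ 2 ≤
      (kk Z F F * Z 0 ^ 2 - kk Z F 0 ^ 2) *
        ((kk Z p p + kk Z q q - 2 * kk Z p q) * Z 0 ^ 2 - (kk Z 0 p - kk Z 0 q) ^ 2) := by
  have h := cs0 hK he h0 F ![p, q] ![1, -1]
  simp only [Fin.sum_univ_two, Matrix.cons_val_zero, Matrix.cons_val_one, one_mul,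
    neg_mul, mul_one, neg_neg, mul_neg] at h
  have e1 : kk Z q p = kk Z p q := kk_symm he q p
  rw [e1] at h
  have e2 : kk Z F p + -kk Z F q = kk Z F p - kk Z F q := by ring
  have e3 : kk Z 0 p + -kk Z 0 q = kk Z 0 p - kk Z 0 q := by ring
  have e4 : kk Z p p + -kk Z p q + (-kk Z p q + kk Z q q) =
      kk Z p p + kk Z q q - 2 * kk Z p q := by ring
  rw [e2, e3, e4] at h
  exact h

/-- **STAR** (polarised).  `κ₄(u,u,x,x)` controls the change of the covariance by any real tilt. -/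
theorem star (hμ : EM μ) (he : ∀ h, μ (-h) = μ h) (hK : PSDK (yy μ)) (J u x : V → ℝ) :
    (Cv μ J (li u) (li x) - Cv μ 0 (li u) (li x)) ^ 2 ≤
      1 / 2 * (yy μ (J + J) * yy μ 0 ^ 3 / yy μ J ^ 4 - 1) * K4 μ u x := by
  have hy0 : 0 < yy μ 0 := TM.H104.T_one_pos hμ 0
  have hyJ : 0 < yy μ J := TM.H104.T_one_pos hμ J
  have t1 := tendsto_div_pow (kk_diff hμ J u x)
  have t2 := tendsto_div_pow (kk_diff hμ 0 u x)
  have t3 := tendsto_div_pow (kk_quad hμ he u x)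
  set M0 := yy μ 0 with hM0
  set MJ := yy μ J with hMJ
  set a := 4 * (MJ ^ 2 * Cv μ J (li u) (li x)) with ha
  set b := 4 * (M0 ^ 2 * Cv μ 0 (li u) (li x)) with hb
  set c := 8 * (M0 ^ 2 *
        (Ex μ 0 (fun h => li u h ^ 2 * li x h ^ 2) - Ex μ 0 (fun h => li u h ^ 2) *
    Ex μ 0 (fun h => li x h ^ 2))) with hc
  have key : (a * M0 ^ 2 - MJ ^ 2 * b) ^ 2 ≤ (yy μ (J + J) * M0 * M0 ^ 2 - (MJ ^ 2) ^ 2) *
      (c * M0 ^ 2 - b ^ 2) := by
    refine le_of_tendsto_of_tendsto (((t1.mul_const (M0 ^ 2)).sub (t2.const_mul (MJ ^ 2))).pow 2)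
      (((t3.mul_const (M0 ^ 2)).sub (t2.pow 2)).const_mul
        (yy μ (J + J) * M0 * M0 ^ 2 - (MJ ^ 2) ^ 2)) ?_
    filter_upwards [self_mem_nhdsWithin] with e he'
    have he0 : e ≠ 0 := he'
    have h1 := cs2 hK (yy_even he) hy0 J (e • (u + x)) (e • (u - x))
    have e1 : kk (yy μ) J 0 = MJ ^ 2 := by simp [kk, sq, hMJ]
    have e2 : kk (yy μ) J J = yy μ (J + J) * M0 := by simp [kk, hM0]
    rw [e1, e2, ← hM0] at h1
    have h2 : 0 < (e ^ 2) ^ 2 := by positivity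
    have h3 := div_le_div_of_nonneg_right h1 h2.le
    refine (le_of_eq ?_).trans (h3.trans (le_of_eq ?_))
    · field_simp
    · field_simp
  have hC0 : Cv μ 0 (li u) (li x) = Ex μ 0 (fun h => li u h * li x h) := by
    have : Ex μ 0 (li u) = 0 := by
      unfold Ex
      rw [T_odd he fun h => li_negh u h, zero_div]
    unfold Cv
    rw [this, zero_mul, sub_zero]
  have hK4 : c * M0 ^ 2 - b ^ 2 = 8 * M0 ^ 4 * K4 μ u x := by
    rw [hc, hb, hC0]
    unfold K4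
    ring
  have hL : (a * M0 ^ 2 - MJ ^ 2 * b) ^ 2 = 16 * MJ ^ 4 * M0 ^ 4 *
      (Cv μ J (li u) (li x) - Cv μ 0 (li u) (li x)) ^ 2 := by
    rw [ha, hb]
    ring
  rw [hK4, hL] at key
  have h5 : 1 / 2 * (yy μ (J + J) * M0 ^ 3 / MJ ^ 4 - 1) * K4 μ u x =
      (yy μ (J + J) * M0 * M0 ^ 2 - (MJ ^ 2) ^ 2) * (8 * M0 ^ 4 * K4 μ u x) /
        (16 * MJ ^ 4 * M0 ^ 4) := by
    field_simp
    ring
  rw [h5, le_div_iff₀ (by positivity)]
  linarith

/-- the fourth cumulant is nonnegative -/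
theorem K4_nonneg (hμ : EM μ) (he : ∀ h, μ (-h) = μ h) (hK : PSDK (yy μ)) (u x : V → ℝ) :
    0 ≤ K4 μ u x := by
  have hy0 : 0 < yy μ 0 := TM.H104.T_one_pos hμ 0
  have t2 := tendsto_div_pow (kk_diff hμ 0 u x)
  have t3 := tendsto_div_pow (kk_quad hμ he u x)
  set M0 := yy μ 0 with hM0
  set b := 4 * (M0 ^ 2 * Cv μ 0 (li u) (li x)) with hb
  set c := 8 * (M0 ^ 2 *
        (Ex μ 0 (fun h => li u h ^ 2 * li x h ^ 2) - Ex μ 0 (fun h => li u h ^ 2) *
    Ex μ 0 (fun h => li x h ^ 2))) with hc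
  have key : 0 ≤ c * M0 ^ 2 - b ^ 2 := by
    refine ge_of_tendsto ((t3.mul_const (M0 ^ 2)).sub (t2.pow 2)) ?_
    filter_upwards [self_mem_nhdsWithin] with e he'
    have he0 : e ≠ 0 := he'
    have h1 : ∀ s t : ℝ, 0 ≤ s ^ 2 * M0 ^ 2 + 2 * (s * t * (kk (yy μ) 0 (e • (u + x)) -
        kk (yy μ) 0 (e • (u - x)))) + t ^ 2 * (kk (yy μ) (e • (u + x)) (e • (u + x)) +
          kk (yy μ) (e • (u - x)) (e • (u - x)) - 2 * kk (yy μ) (e • (u + x)) (e • (u - x))) := by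
      intro s t
      have h2 := hK 3 ![0, e • (u + x), e • (u - x)] ![s, t, -t]
      simp only [Fin.sum_univ_three, Matrix.cons_val_zero, Matrix.cons_val_one,
        Matrix.cons_val_two, Matrix.tail_cons, Matrix.head_cons] at h2
      rw [kk_symm (yy_even he) (e • (u + x)) 0, kk_symm (yy_even he) (e • (u - x)) 0,
        kk_symm (yy_even he) (e • (u - x)) (e • (u + x))] at h2
      have e1 : kk (yy μ) 0 0 = M0 ^ 2 := by simp [kk, sq, hM0]
      rw [e1] at h2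
      linarith
    have h3 := disc h1
    have h4 : 0 < (e ^ 2) ^ 2 := by positivity
    have h5 : 0 ≤ (M0 ^ 2 * (kk (yy μ) (e • (u + x)) (e • (u + x)) +
          kk (yy μ) (e • (u - x)) (e • (u - x)) - 2 * kk (yy μ) (e • (u + x)) (e • (u - x))) -
        (kk (yy μ) 0 (e • (u + x)) - kk (yy μ) 0 (e • (u - x))) ^ 2) / (e ^ 2) ^ 2 :=
      div_nonneg (by linarith) h4.le
    refine h5.trans (le_of_eq ?_)
    field_simp
  have hC0 : Cv μ 0 (li u) (li x) = Ex μ 0 (fun h => li u h * li x h) := by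
    have : Ex μ 0 (li u) = 0 := by
      unfold Ex
      rw [T_odd he fun h => li_negh u h, zero_div]
    unfold Cv
    rw [this, zero_mul, sub_zero]
  have hK4 : c * M0 ^ 2 - b ^ 2 = 8 * M0 ^ 4 * K4 μ u x := by
    rw [hc, hb, hC0]
    unfold K4
    ring
  rw [hK4] at key
  have : (0 : ℝ) < 8 * M0 ^ 4 := by positivity
  exact (mul_nonneg_iff_of_pos_left this).1 key

end Vale.Agent.P159.H789
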