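import Vale.Agent.P159.H358.Loc9q
import Vale.Agent.P159.H864.Fou2
import Vale.Agent.P159.H789.Bridge
import Vale.Agent.P159.H789.Tor

/-!
P159, module TORAP (helper789), part A: sources supported in one block on two tori.
`blkf N xi B u` = the profile `u` (natural coordinates modulo `xi`) on the block `B` of side `xi`.
Output `Rs_blk`: the remainders `Rs` of the same block source on two tori agree up to `err9q`.
-/

set_option linter.unusedSectionVars false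

namespace Vale.Agent.P159.H789

open Finset Matrix
open Vale.Agent.P159.H37
open Vale.Agent.P159.TM.H104 (EM Lg li Cv)
open Vale.Agent.P159.TM.Spec (V)
open Vale.Agent.P159.TM.SpecC (wT)
open Vale.Agent.P159.TM.H265 (HA)
open Vale.Agent.P159.TM.H705 (dB)
open Vale.Agent.P159.H358 (src Wd Two err9q eps8q)
open Vale.Agent.P159.H864 (tra tra_apply TInv tinv_wT tinv_wM Rs_perm Lg_perm)

noncomputable section

variable {N : ℕ} [NeZero N] {ξ : ℕ}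

/-- the profile `u` on the block `B` -/
def blkf (N ξ : ℕ) [NeZero N] (B : ℕ × ℕ) (u : ℕ → ℕ → ℝ) (x : V N) : ℝ :=
  if x.1.val / ξ = B.1 ∧ x.2.val / ξ = B.2 then u (x.1.val % ξ) (x.2.val % ξ) else 0

theorem blkf_smul (B : ℕ × ℕ) (u : ℕ → ℕ → ℝ) (s : ℝ) :
    s • blkf N ξ B u = blkf N ξ B fun i k => s * u i k := by
  funext x
  unfold blkf
  rw [Pi.smul_apply, smul_eq_mul]
  split_ifs
  · rfl
  · rw [mul_zero]

/-- one coordinate of the translation of a block -/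
theorem blk_shift (hξ : 0 < ξ) {B B' : ℕ} (hB : B * ξ + ξ ≤ N) {x : ZMod N}
    (hx : x.val / ξ = B') :
    (x + (((B * ξ : ℕ) : ZMod N) - ((B' * ξ : ℕ) : ZMod N))).val = B * ξ + x.val % ξ := by
  have h1 := Nat.div_add_mod x.val ξ
  have h2 := Nat.mod_lt x.val hξ
  rw [hx] at h1
  have h3 : x = ((ξ * B' + x.val % ξ : ℕ) : ZMod N) := by
    rw [h1]
    simp
  have h4 : x + (((B * ξ : ℕ) : ZMod N) - ((B' * ξ : ℕ) : ZMod N)) =
      ((B * ξ + x.val % ξ : ℕ) : ZMod N) := by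
    have h5 : x - ((B' * ξ : ℕ) : ZMod N) = ((x.val % ξ : ℕ) : ZMod N) := by
      rw [sub_eq_iff_eq_add]
      conv_lhs => rw [h3]
      push_cast
      ring
    rw [Nat.cast_add, ← h5]
    ring
  rw [h4, ZMod.val_cast_of_lt (by omega)]

theorem div_blk (hξ : 0 < ξ) (B v : ℕ) : (B * ξ + v % ξ) / ξ = B := by
  have h3 := Nat.mod_lt v hξ
  rw [Nat.mul_comm, Nat.mul_add_div hξ, Nat.div_eq_of_lt h3, Nat.add_zero]

theorem blk_shift_iff (hξ : 0 < ξ) {B B' : ℕ} (hB : B * ξ + ξ ≤ N) (hB' : B' * ξ + ξ ≤ N)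
    (x : ZMod N) :
    (x + (((B * ξ : ℕ) : ZMod N) - ((B' * ξ : ℕ) : ZMod N))).val / ξ = B ↔ x.val / ξ = B' := by
  constructor
  · intro h
    have h1 := blk_shift hξ hB' (B := B') (B' := B) h
    have h2 : x + (((B * ξ : ℕ) : ZMod N) - ((B' * ξ : ℕ) : ZMod N)) +
        (((B' * ξ : ℕ) : ZMod N) - ((B * ξ : ℕ) : ZMod N)) = x := by ring
    rw [h2] at h1
    rw [h1]
    exact div_blk hξ _ _
  · intro h
    rw [blk_shift hξ hB h]
    exact div_blk hξ _ _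

theorem blkf_tra (hξ : 0 < ξ) {B B' : ℕ × ℕ} (h1 : B.1 * ξ + ξ ≤ N) (h2 : B.2 * ξ + ξ ≤ N)
    (h1' : B'.1 * ξ + ξ ≤ N) (h2' : B'.2 * ξ + ξ ≤ N) (u : ℕ → ℕ → ℝ) :
    blkf N ξ B u ∘ tra ((((B.1 * ξ : ℕ) : ZMod N) - ((B'.1 * ξ : ℕ) : ZMod N)),
      (((B.2 * ξ : ℕ) : ZMod N) - ((B'.2 * ξ : ℕ) : ZMod N))) = blkf N ξ B' u := by
  funext x
  have e : (blkf N ξ B u ∘ tra ((((B.1 * ξ : ℕ) : ZMod N) - ((B'.1 * ξ : ℕ) : ZMod N)),
      (((B.2 * ξ : ℕ) : ZMod N) - ((B'.2 * ξ : ℕ) : ZMod N)))) x =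
      blkf N ξ B u (x.1 + (((B.1 * ξ : ℕ) : ZMod N) - ((B'.1 * ξ : ℕ) : ZMod N)),
        x.2 + (((B.2 * ξ : ℕ) : ZMod N) - ((B'.2 * ξ : ℕ) : ZMod N))) := rfl
  rw [e]
  unfold blkf
  simp only [blk_shift_iff hξ h1 h1' x.1, blk_shift_iff hξ h2 h2' x.2]
  by_cases hx : x.1.val / ξ = B'.1 ∧ x.2.val / ξ = B'.2
  · rw [if_pos hx, if_pos hx, blk_shift hξ h1 hx.1, blk_shift hξ h2 hx.2]
    have e1 : ∀ a b : ℕ, (a * ξ + b % ξ) % ξ = b % ξ := by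
      intro a b
      rw [Nat.add_comm, Nat.add_mul_mod_self_right, Nat.mod_mod]
    rw [e1, e1]
  · rw [if_neg hx, if_neg hx]

/-- remainders and `log Z` of a block source do not depend on the block -/
theorem Rs_blk_eq (b t : ℝ) (hξ : 0 < ξ) {B B' : ℕ × ℕ} (h1 : B.1 * ξ + ξ ≤ N)
    (h2 : B.2 * ξ + ξ ≤ N) (h1' : B'.1 * ξ + ξ ≤ N) (h2' : B'.2 * ξ + ξ ≤ N) (u : ℕ → ℕ → ℝ) :
    Rs (wt N b t) (blkf N ξ B u) = Rs (wt N b t) (blkf N ξ B' u) := by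
  rw [← blkf_tra hξ h1 h2 h1' h2' u, Rs_perm (H864.tinv_wt (N := N) (b := b) t _)]

theorem Lg_blk_eq (b t : ℝ) (hξ : 0 < ξ) {B B' : ℕ × ℕ} (h1 : B.1 * ξ + ξ ≤ N)
    (h2 : B.2 * ξ + ξ ≤ N) (h1' : B'.1 * ξ + ξ ≤ N) (h2' : B'.2 * ξ + ξ ≤ N) (u : ℕ → ℕ → ℝ) :
    Lg (wt N b t) (blkf N ξ B u) = Lg (wt N b t) (blkf N ξ B' u) := by
  rw [← blkf_tra hξ h1 h2 h1' h2' u, Lg_perm (H864.tinv_wt (N := N) (b := b) t _)]

/-- the block `(p, p)` as a source in the open box of side `n` -/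
theorem blkf_src {p n : ℕ} (hξ : 0 < ξ) (hp : 1 ≤ p) (hn : p * ξ + ξ ≤ n) (u : ℕ → ℕ → ℝ) :
    blkf N ξ (p, p) u = src N n fun i k =>
      if i / ξ = p ∧ k / ξ = p then u (i % ξ) (k % ξ) else 0 := by
  funext x
  unfold blkf src
  by_cases hx : x.1.val / ξ = p ∧ x.2.val / ξ = p
  · have key : ∀ a : ℕ, a / ξ = p → 1 ≤ a ∧ a < n := by
      intro a ha
      have e1 := Nat.div_add_mod a ξ
      have e2 := Nat.mod_lt a hξ
      rw [ha] at e1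
      have e3 : ξ * p = p * ξ := Nat.mul_comm _ _
      have e4 : ξ ≤ p * ξ := Nat.le_mul_of_pos_left ξ hp
      omega
    have h1 := key _ hx.1
    have h2 := key _ hx.2
    rw [if_pos hx, if_pos ⟨h1.1, h1.2, h2.1, h2.2⟩]
    simp only
    rw [if_pos hx]
  · rw [if_neg hx]
    split_ifs
    · simp only
      rw [if_neg hx]
    · rfl

/-- **one block source on two tori** `N = a ξ`, `M = a' ξ`, `a, a' >= m >= 6` -/
theorem Rs_blk {M : ℕ} [NeZero M] {b : ℝ} (hb : 0 ≤ b) (hξ : 0 < ξ) {y y' c C : ℝ} (hC : 0 < C)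
    (hT : HA N b ξ hb y c C) (hT' : HA M b ξ hb y' c C) (hy : 0 ≤ y) (hy' : 0 ≤ y') {m : ℕ}
    (hm : 6 ≤ m) (hN : m * ξ ≤ N) (hM : m * ξ ≤ M) (hmy : (m : ℝ) * y ≤ c)
    (hmy' : (m : ℝ) * y' ≤ c) {B B' : ℕ × ℕ} (h1 : B.1 * ξ + ξ ≤ N) (h2 : B.2 * ξ + ξ ≤ N)
    (h1' : B'.1 * ξ + ξ ≤ M) (h2' : B'.2 * ξ + ξ ≤ M) {u : ℕ → ℕ → ℝ} {A Λ : ℝ}
    (hA : 0 ≤ A) (hu : ∀ i k, |u i k| ≤ A / (ξ : ℝ) ^ 2)
    (hΛ : ∀ s : ℝ, |s| ≤ 2 → Lg (wt N b (1 / (ξ : ℝ) ^ 2)) ((2 : ℝ) • (s • blkf N ξ B u)) -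
      Lg (wt N b (1 / (ξ : ℝ) ^ 2)) 0 ≤ Λ)
    (hΛ' : ∀ s : ℝ, |s| ≤ 2 → Lg (wt M b (1 / (ξ : ℝ) ^ 2)) ((2 : ℝ) • (s • blkf M ξ B' u)) -
      Lg (wt M b (1 / (ξ : ℝ) ^ 2)) 0 ≤ Λ) :
    |Rs (wt N b (1 / (ξ : ℝ) ^ 2)) (blkf N ξ B u) -
      Rs (wt M b (1 / (ξ : ℝ) ^ 2)) (blkf M ξ B' u)| ≤
      2 * err9q C c A Λ 1 ((m / 2 - 1) * ξ) ξ := by
  obtain ⟨p, hp⟩ : ∃ p, p = m / 2 := ⟨_, rfl⟩
  have hp3 : 3 ≤ p := by omega
  have hpm : 2 * p ≤ m := by omega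
  have hξR : (0 : ℝ) < ξ := by exact_mod_cast hξ
  have hbox : p * ξ + ξ ≤ m * ξ := by
    have : (p + 1) * ξ ≤ m * ξ := Nat.mul_le_mul_right ξ (by omega)
    linarith
  have eN := Rs_blk_eq (N := N) b (1 / (ξ : ℝ) ^ 2) hξ h1 h2 (B' := (p, p)) (hbox.trans hN)
    (hbox.trans hN) u
  have eM := Rs_blk_eq (N := M) b (1 / (ξ : ℝ) ^ 2) hξ h1' h2' (B' := (p, p)) (hbox.trans hM)
    (hbox.trans hM) u
  rw [eN, eM]
  set j : ℕ → ℕ → ℝ := fun i k => if i / ξ = p ∧ k / ξ = p then u (i % ξ) (k % ξ) else 0 with hj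
  have sN : blkf N ξ (p, p) u = src N (m * ξ) j := blkf_src hξ (by omega) hbox u
  have sM : blkf M ξ (p, p) u = src M (m * ξ) j := blkf_src hξ (by omega) hbox u
  have hA0 : 0 ≤ A / (ξ : ℝ) ^ 2 := by positivity
  have hjW : Wd ξ {(p * ξ, p * ξ)} A j := by
    refine ⟨fun i k => ?_, fun i k hne => ⟨(p * ξ, p * ξ), Finset.mem_singleton_self _, ?_⟩⟩
    · rw [hj]
      simp only
      split_ifs
      · exact hu _ _
      · rwa [abs_zero]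
    · have h3 : i / ξ = p ∧ k / ξ = p := by
        by_contra hcon
        refine hne ?_
        rw [hj]
        simp only
        rw [if_neg hcon]
      have key : ∀ a : ℕ, a / ξ = p → ((a : ℤ) - ((p * ξ : ℕ) : ℤ)).natAbs ≤ ξ := by
        intro a ha
        have e1 := Nat.div_add_mod a ξ
        have e2 := Nat.mod_lt a hξ
        rw [ha] at e1
        have e3 : ξ * p = p * ξ := Nat.mul_comm _ _
        omega
      unfold dB
      exact max_le (key i h3.1) (key k h3.2)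
  have h0W : Wd ξ {(p * ξ, p * ξ)} A (fun _ _ => (0 : ℝ)) :=
    ⟨fun i k => by rwa [abs_zero], fun i k hne => absurd rfl hne⟩
  obtain ⟨r, hr⟩ : ∃ r, r = (m / 2 - 1) * ξ := ⟨_, rfl⟩
  have hr1 : r = (p - 1) * ξ := by rw [hr, hp]
  have hrp : r + ξ = p * ξ := by
    rw [hr1]
    obtain ⟨q, hq⟩ : ∃ q, p = q + 1 := ⟨p - 1, by omega⟩
    rw [hq, Nat.add_sub_cancel]
    ring
  have hr2 : 2 * ξ ≤ r := by
    rw [hr1]
    exact Nat.mul_le_mul_right ξ (by omega)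
  have hrm : (r : ℝ) ≤ m * ξ := by
    have : r ≤ m * ξ := by
      have := hbox
      omega
    exact_mod_cast this
  have H : Two N M b hb ξ y y' c C {(p * ξ, p * ξ)} r (m * ξ) := by
    refine ⟨hξ, hC, hT, hT', by omega, ?_, ?_, ?_, hN, hM⟩
    · have := mul_le_mul_of_nonneg_right hrm hy
      nlinarith
    · have := mul_le_mul_of_nonneg_right hrm hy'
      nlinarith
    · intro q hq
      rw [Finset.mem_singleton] at hq
      subst hq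
      have h3 : 2 * p * ξ ≤ m * ξ := Nat.mul_le_mul_right ξ hpm
      have h4 : 2 * p * ξ = 2 * (p * ξ) := by ring
      have h5 : r < p * ξ ∧ p * ξ + r < m * ξ := by omega
      exact ⟨h5, h5⟩
  have hz : ∀ (K : ℕ) [NeZero K], src K (m * ξ) (fun _ _ => (0 : ℝ)) = 0 := by
    intro K _
    funext x
    unfold src
    rw [ite_self]
    rfl
  have lN : ∀ s : ℝ, |s| ≤ 2 → Lg (wt N b (1 / (ξ : ℝ) ^ 2))
      ((2 : ℝ) • (s • src N (m * ξ) j)) - Lg (wt N b (1 / (ξ : ℝ) ^ 2)) 0 ≤ Λ := by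
    intro s hs
    have h3 := hΛ s hs
    rw [blkf_smul, blkf_smul, Lg_blk_eq (N := N) b (1 / (ξ : ℝ) ^ 2) hξ h1 h2 (B' := (p, p))
      (hbox.trans hN) (hbox.trans hN), ← blkf_smul, ← blkf_smul, sN] at h3
    exact h3
  have lM : ∀ s : ℝ, |s| ≤ 2 → Lg (wt M b (1 / (ξ : ℝ) ^ 2))
      ((2 : ℝ) • (s • src M (m * ξ) j)) - Lg (wt M b (1 / (ξ : ℝ) ^ 2)) 0 ≤ Λ := by
    intro s hs
    have h3 := hΛ' s hs
    rw [blkf_smul, blkf_smul, Lg_blk_eq (N := M) b (1 / (ξ : ℝ) ^ 2) hξ h1' h2' (B' := (p, p))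
      (hbox.trans hM) (hbox.trans hM), ← blkf_smul, ← blkf_smul, sM] at h3
    exact h3
  have c1 := (H358.loc9q_diag H (j := fun _ _ => (0 : ℝ)) (u := j) (A := A) (Λ := Λ) hA h0W hjW
    (fun s hs => by rw [hz, zero_add]; exact lN s hs)
    (fun s hs => by rw [hz, zero_add]; exact lM s hs)).2
  rw [hz, hz, Finset.card_singleton] at c1
  have one2 : |(1 : ℝ)| ≤ 2 := by norm_num
  have c2 := H358.loc8q_two hb hξ hC hT hT' H.hr H.hny H.hny' H.hI hN hM (j := j) (A := A)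
    (Λ := Λ) hA hjW.bd hjW.sp (by have := lN 1 one2; rwa [one_smul] at this)
    (by have := lM 1 one2; rwa [one_smul] at this)
  rw [Finset.card_singleton] at c2
  have eμN : EM (wt N b (1 / (ξ : ℝ) ^ 2)) := em_wt (N := N) hb (by positivity)
  have eμM : EM (wt M b (1 / (ξ : ℝ) ^ 2)) := em_wt (N := M) hb (by positivity)
  have hΛ0 : 0 ≤ Λ := by
    have h3 := lN 0 (by norm_num)
    rw [zero_smul, smul_zero, sub_self] at h3
    exact h3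
  have c3 : eps8q C c A Λ 1 r ξ ≤ err9q C c A Λ 1 r ξ := by
    unfold eps8q err9q
    have hs0 : 0 ≤ Real.sqrt C := Real.sqrt_nonneg _
    have hs1 : 0 ≤ Real.sqrt C * A := mul_nonneg hs0 hA
    have e1 : Real.sqrt (Real.sqrt C * A * ((1 : ℕ) : ℝ)) ≤
        1 + 2 * Real.sqrt C * A * ((1 : ℕ) : ℝ) := by
      rw [Real.sqrt_le_left (by positivity)]
      push_cast
      nlinarith
    have e2 : Real.exp Λ ≤ Real.exp (3 * Λ) := Real.exp_le_exp.2 (by linarith)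
    have e3 : Real.exp (-(c * r / (4 * ξ))) ≤ Real.exp (-(c * r / (12 * ξ))) := by
      have hc : 0 ≤ c := (mul_nonneg (Nat.cast_nonneg m) hy).trans hmy
      refine Real.exp_le_exp.2 (neg_le_neg ?_)
      refine div_le_div_of_nonneg_left (by positivity) (by positivity) ?_
      nlinarith
    have e4 : 9 * Real.sqrt (Real.sqrt C * A * ((1 : ℕ) : ℝ)) ≤
        60 * (1 + 2 * Real.sqrt C * A * ((1 : ℕ) : ℝ)) := by
      have : 0 ≤ Real.sqrt (Real.sqrt C * A * ((1 : ℕ) : ℝ)) := Real.sqrt_nonneg _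
      linarith
    have e5 : 0 ≤ 60 * (1 + 2 * Real.sqrt C * A * ((1 : ℕ) : ℝ)) := by positivity
    exact mul_le_mul (mul_le_mul e4 e2 (Real.exp_pos _).le e5) e3 (Real.exp_pos _).le
      (by positivity)
  unfold Rs
  rw [sN, sM, qf_Gm eμN, qf_Gm eμM, ← hr]
  have d1 := abs_le.1 c1
  have d2 := abs_le.1 (c2.trans c3)
  have d0 := H358.err9q_nonneg C c hA Λ 1 r ξ
  rw [abs_le]
  constructor <;> linarith [d1.1, d1.2, d2.1, d2.2]

end

end Vale.Agent.P159.H789
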