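import Vale.Agent.P159.H789.TaA
import Vale.Agent.P159.H239.Ray1
import Vale.Agent.P159.H663.ChI
import Vale.Agent.P159.H972.Good
import Vale.Agent.P159.H816.HtFine

/-!
P159, module TORAP (helper789), part B: block noise `cobB g` as a random profile which does not
depend on the torus, its bare energy.
-/

set_option linter.unusedSectionVars false

namespace Vale.Agent.P159.H789

open Finset Matrix MeasureTheory ProbabilityTheory
open Vale.Agent.P159.H37
open Vale.Agent.P159.TM.H104 (EM Lg li Cv)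
open Vale.Agent.P159.TM.Spec (V)
open Vale.Agent.P159.TM.SpecC (wT)
open Vale.Agent.P159.H972 (cobB)
open Vale.Agent.P159.H859 (Rk gd gd_le qf_Rk_single pd_Rk)
open Vale.Agent.P159.H864 (cobV ce)

noncomputable section

variable {N l q : ℕ} [NeZero N]

/-- profile of the cell noise in one block -/
def prf (l q : ℕ) (h : Fin q × Fin q → ℝ) (i k : ℕ) : ℝ :=
  ∑ c : Fin q × Fin q, (if i / l = c.1.val ∧ k / l = c.2.val then (l : ℝ)⁻¹ else 0) * h c

/-- cell functions of the block `B` with the index set `Fin q × Fin q` -/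
def Cb (N l q : ℕ) [NeZero N] (B : ℕ × ℕ) : Matrix (V N) (Fin q × Fin q) ℝ :=
  Matrix.of fun x c => if (x.1.val / (l * q) = B.1 ∧ x.2.val / (l * q) = B.2) ∧
    (x.1.val % (l * q) / l = c.1.val ∧ x.2.val % (l * q) / l = c.2.val) then (l : ℝ)⁻¹ else 0

theorem Cb_mulVec (B : ℕ × ℕ) (h : Fin q × Fin q → ℝ) :
    Cb N l q B *ᵥ h = blkf N (l * q) B (prf l q h) := by
  funext x
  simp only [mulVec, dotProduct, Cb, Matrix.of_apply, blkf, prf]
  by_cases hx : x.1.val / (l * q) = B.1 ∧ x.2.val / (l * q) = B.2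
  · rw [if_pos hx]
    refine Finset.sum_congr rfl fun c _ => ?_
    simp only [hx, and_self, true_and]
  · rw [if_neg hx]
    refine Finset.sum_eq_zero fun c _ => ?_
    rw [if_neg fun h => hx h.1, zero_mul]

theorem prf_smul (s : ℝ) (h : Fin q × Fin q → ℝ) (i k : ℕ) :
    prf l q (s • h) i k = s * prf l q h i k := by
  unfold prf
  rw [Finset.mul_sum]
  refine Finset.sum_congr rfl fun c _ => ?_
  rw [Pi.smul_apply, smul_eq_mul]
  ring

theorem prf_abs (h : Fin q × Fin q → ℝ) (i k : ℕ) :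
    |prf l q h i k| ≤ (l : ℝ)⁻¹ * Real.sqrt (∑ c, h c ^ 2) := by
  classical
  have hl : 0 ≤ (l : ℝ)⁻¹ := by positivity
  by_cases hc : ∃ c : Fin q × Fin q, i / l = c.1.val ∧ k / l = c.2.val
  · obtain ⟨c, hc⟩ := hc
    have h1 : prf l q h i k = (l : ℝ)⁻¹ * h c := by
      unfold prf
      rw [Finset.sum_eq_single c]
      · rw [if_pos hc]
      · intro c' _ hne
        rw [if_neg, zero_mul]
        intro h2
        refine hne (Prod.ext (Fin.ext ?_) (Fin.ext ?_))
        · rw [← h2.1, hc.1]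
        · rw [← h2.2, hc.2]
      · intro h2
        exact absurd (Finset.mem_univ _) h2
    rw [h1, abs_mul, abs_of_nonneg hl]
    refine mul_le_mul_of_nonneg_left ?_ hl
    rw [← Real.sqrt_sq_eq_abs]
    refine Real.sqrt_le_sqrt ?_
    exact Finset.single_le_sum (f := fun c => h c ^ 2) (fun _ _ => sq_nonneg _)
      (Finset.mem_univ c)
  · have h1 : prf l q h i k = 0 := by
      unfold prf
      refine Finset.sum_eq_zero fun c _ => ?_
      rw [if_neg, zero_mul]
      exact fun h2 => hc ⟨c, h2⟩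
    rw [h1, abs_zero]
    positivity

theorem cell_iff {B a a' : ℕ} (ha : a / (l * q) = B) :
    a' / l = a / l ↔ a' / (l * q) = B ∧ a' % (l * q) / l = a % (l * q) / l := by
  have h1 : ∀ m : ℕ, m / (l * q) = m / l / q := fun m => (Nat.div_div_eq_div_mul m l q).symm
  have h2 : ∀ m : ℕ, m % (l * q) / l = m / l % q := fun m => Nat.mod_mul_right_div_self m l q
  rw [h1] at ha
  rw [h1, h2, h2]
  constructor
  · intro h
    rw [h]
    exact ⟨ha, rfl⟩
  · rintro ⟨h3, h4⟩
    have h5 := Nat.div_add_mod (a / l) q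
    have h6 := Nat.div_add_mod (a' / l) q
    rw [ha] at h5
    rw [h3, h4] at h6
    rw [← h5, ← h6]

theorem cobB_cov (hl : l ∣ N) (hl0 : 0 < l) (hq : 0 < q) (B : ℕ × ℕ) :
    cobB N l q B * (cobB N l q B)ᵀ = Cb N l q B * (Cb N l q B)ᵀ := by
  classical
  ext x y
  rw [mul_apply, mul_apply]
  simp only [transpose_apply]
  have hx1 : x.1.val / l < N / l := Nat.div_lt_div_of_lt_of_dvd hl (ZMod.val_lt _)
  have hx2 : x.2.val / l < N / l := Nat.div_lt_div_of_lt_of_dvd hl (ZMod.val_lt _)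
  have e1 : ∀ c : Fin (N / l) × Fin (N / l), cobB N l q B x c =
      if c = (⟨x.1.val / l, hx1⟩, ⟨x.2.val / l, hx2⟩) then
        (if x.1.val / (l * q) = B.1 ∧ x.2.val / (l * q) = B.2 then (l : ℝ)⁻¹ else 0) else 0 := by
    intro c
    unfold cobB cob
    simp only [Matrix.of_apply]
    by_cases hc : c = (⟨x.1.val / l, hx1⟩, ⟨x.2.val / l, hx2⟩)
    · rw [if_pos hc]
      subst hc
      simp only [and_self, if_true, Nat.div_div_eq_div_mul]
    · rw [if_neg hc]
      have : ¬ (x.1.val / l = c.1.val ∧ x.2.val / l = c.2.val) := by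
        rintro ⟨h1, h2⟩
        exact hc (Prod.ext (Fin.ext h1.symm) (Fin.ext h2.symm))
      rw [if_neg this, ite_self]
  have e2 : ∑ c, cobB N l q B x c * cobB N l q B y c =
      (if x.1.val / (l * q) = B.1 ∧ x.2.val / (l * q) = B.2 then (l : ℝ)⁻¹ else 0) *
        cobB N l q B y (⟨x.1.val / l, hx1⟩, ⟨x.2.val / l, hx2⟩) := by
    simp only [e1, ite_mul, zero_mul]
    rw [Finset.sum_ite_eq' Finset.univ, if_pos (Finset.mem_univ _)]
  rw [e2]
  by_cases hx : x.1.val / (l * q) = B.1 ∧ x.2.val / (l * q) = B.2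
  · rw [if_pos hx]
    have hm : ∀ a : ℕ, a % (l * q) / l < q := by
      intro a
      rw [Nat.div_lt_iff_lt_mul hl0, Nat.mul_comm q l]
      exact Nat.mod_lt _ (Nat.mul_pos hl0 hq)
    have e3 : ∑ c, Cb N l q B x c * Cb N l q B y c = (l : ℝ)⁻¹ *
        Cb N l q B y (⟨x.1.val % (l * q) / l, hm _⟩, ⟨x.2.val % (l * q) / l, hm _⟩) := by
      rw [Finset.sum_eq_single (⟨x.1.val % (l * q) / l, hm _⟩, ⟨x.2.val % (l * q) / l, hm _⟩)]
      · congr 1
        unfold Cb
        rw [Matrix.of_apply, if_pos ⟨hx, rfl, rfl⟩]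
      · intro c _ hne
        unfold Cb
        rw [Matrix.of_apply, if_neg, zero_mul]
        rintro ⟨_, h1, h2⟩
        exact hne (Prod.ext (Fin.ext h1.symm) (Fin.ext h2.symm))
      · intro h
        exact absurd (Finset.mem_univ _) h
    rw [e3]
    congr 1
    unfold cobB cob Cb
    simp only [Matrix.of_apply]
    have f1 := cell_iff (l := l) (q := q) (a' := y.1.val) hx.1
    have f2 := cell_iff (l := l) (q := q) (a' := y.2.val) hx.2
    have f3 : x.1.val / l / q = B.1 ∧ x.2.val / l / q = B.2 := by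
      rw [Nat.div_div_eq_div_mul, Nat.div_div_eq_div_mul]
      exact hx
    rw [if_pos f3]
    refine if_congr ?_ rfl rfl
    constructor
    · rintro ⟨h1, h2⟩
      exact ⟨⟨(f1.1 h1).1, (f2.1 h2).1⟩, (f1.1 h1).2, (f2.1 h2).2⟩
    · rintro ⟨⟨h1, h2⟩, h3, h4⟩
      exact ⟨f1.2 ⟨h1, h3⟩, f2.2 ⟨h2, h4⟩⟩
  · rw [if_neg hx, zero_mul]
    symm
    refine Finset.sum_eq_zero fun c _ => ?_
    unfold Cb
    rw [Matrix.of_apply, if_neg fun h => hx h.1, zero_mul]

/-- the law of the block noise -/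
theorem law_blk (hl : l ∣ N) (hl0 : 0 < l) (hq : 0 < q) (B : ℕ × ℕ) {S : Set (V N → ℝ)}
    (hS : MeasurableSet S) :
    (gau (Fin (N / l) × Fin (N / l))).real {g | cobB N l q B *ᵥ g ∈ S} =
      (gau (Fin q × Fin q)).real {h | Cb N l q B *ᵥ h ∈ S} := by
  have h := H239.gau_map_congr (cobB_cov hl hl0 hq B)
  have m1 : Measurable fun g : Fin (N / l) × Fin (N / l) → ℝ => cobB N l q B *ᵥ g := by fun_prop
  have m2 : Measurable fun g : Fin q × Fin q → ℝ => Cb N l q B *ᵥ g := by fun_prop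
  have h1 : ((gau (Fin (N / l) × Fin (N / l))).map (fun g => cobB N l q B *ᵥ g) S).toReal =
      ((gau (Fin q × Fin q)).map (fun g => Cb N l q B *ᵥ g) S).toReal := by rw [h]
  rw [Measure.map_apply m1 hS, Measure.map_apply m2 hS] at h1
  exact h1

/-! ### expectations -/

theorem int_qf {W I : Type*} [Fintype W] [Fintype I] (S : Matrix W W ℝ) (A : Matrix W I ℝ) :
    ∫ g, qf S (A *ᵥ g) ∂(gau I) = ∑ j, qf S fun x => A x j := by
  have hi : ∀ x y, Integrable (fun g : I → ℝ => (A *ᵥ g) x * S x y * (A *ᵥ g) y) (gau I) := by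
    intro x y
    have h3 := (H663.int_lin_mul (fun i => A x i) (fun i => A y i)).const_mul (S x y)
    refine h3.congr (Filter.Eventually.of_forall fun g => ?_)
    simp only [mulVec, dotProduct]
    ring
  unfold qf
  rw [integral_finsetSum _ fun x _ => integrable_finsetSum _ fun y _ => hi x y]
  have e : ∑ j, ∑ x, ∑ y, A x j * S x y * A y j =
      ∑ x, ∑ y, S x y * ∑ j, A x j * A y j := by
    rw [Finset.sum_comm]
    refine Finset.sum_congr rfl fun x _ => ?_
    rw [Finset.sum_comm]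
    refine Finset.sum_congr rfl fun y _ => ?_
    rw [Finset.mul_sum]
    exact Finset.sum_congr rfl fun j _ => by ring
  rw [e]
  refine Finset.sum_congr rfl fun x _ => ?_
  rw [integral_finsetSum _ fun y _ => hi x y]
  refine Finset.sum_congr rfl fun y _ => ?_
  have h := H663.gau_lin_mul (fun i => A x i) (fun i => A y i)
  rw [← h, ← integral_const_mul]
  refine integral_congr_ae (Filter.Eventually.of_forall fun g => ?_)
  simp only [mulVec, dotProduct]
  ring

end

end Vale.Agent.P159.H789
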