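import Vale.Agent.P159.H789.TaB
import Vale.Agent.P159.H586.Fern1

/-!
P159, module TORAP (helper789), part C: energy and size of the block noise, Markov's inequality,
torus change of AP.
-/

set_option linter.unusedSectionVars false

namespace Vale.Agent.P159.H789

open Finset Matrix MeasureTheory ProbabilityTheory
open Vale.Agent.P159.H37
open Vale.Agent.P159.TM.H104 (EM Lg li Cv)
open Vale.Agent.P159.TM.Spec (V)
open Vale.Agent.P159.TM.SpecC (wT)
open Vale.Agent.P159.TM.H265 (HA)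
open Vale.Agent.P159.H972 (cobB)
open Vale.Agent.P159.H859 (Rk gd gd_le qf_Rk_single pd_Rk)
open Vale.Agent.P159.H864 (cobV ce cl cl1 cl1_val cobV_tr_mulVec cobV_mul_tr)
open Vale.Agent.P159.H358 (err9q)
open Vale.Agent.P159.H816 (Gam Hb edge_le dom_int Hb_cell)

noncomputable section

section cells

variable {N l q : ℕ} [NeZero N] [NeZero (N / l)]

/-- the cell of the block `B` with the inner coordinates `c` -/
def ac (N l q : ℕ) (B : ℕ × ℕ) (c : Fin q × Fin q) : V (N / l) :=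
  (((B.1 * q + c.1.val : ℕ) : ZMod (N / l)), ((B.2 * q + c.2.val : ℕ) : ZMod (N / l)))

theorem ac_inj {B : ℕ × ℕ} (h1 : B.1 * q + q ≤ N / l) (h2 : B.2 * q + q ≤ N / l) :
    Function.Injective (ac N l q B) := by
  intro c c' h
  unfold ac at h
  rw [Prod.mk.injEq] at h
  have e1 := congrArg ZMod.val h.1
  have e2 := congrArg ZMod.val h.2
  rw [ZMod.val_cast_of_lt (by omega), ZMod.val_cast_of_lt (by omega)] at e1
  rw [ZMod.val_cast_of_lt (by omega), ZMod.val_cast_of_lt (by omega)] at e2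
  exact Prod.ext (Fin.ext (by omega)) (Fin.ext (by omega))

theorem Cb_col (hl : l ∣ N) (hq : 0 < q) {B : ℕ × ℕ} (h1 : B.1 * q + q ≤ N / l)
    (h2 : B.2 * q + q ≤ N / l) (c : Fin q × Fin q) :
    (fun x => Cb N l q B x c) = (cobV N l)ᵀ *ᵥ Pi.single (ac N l q B c) 1 := by
  classical
  funext x
  rw [cobV_tr_mulVec]
  unfold Cb
  rw [Matrix.of_apply]
  have key : ∀ (z : ZMod N) (B' : ℕ) (c' : Fin q), B' * q + q ≤ N / l →
      ((z.val / (l * q) = B' ∧ z.val % (l * q) / l = c'.val) ↔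
        (cl1 z : ZMod (N / l)) = ((B' * q + c'.val : ℕ) : ZMod (N / l))) := by
    intro z B' c' hB
    have e1 : z.val / (l * q) = z.val / l / q := (Nat.div_div_eq_div_mul _ l q).symm
    have e2 : z.val % (l * q) / l = z.val / l % q := Nat.mod_mul_right_div_self _ l q
    have e3 := Nat.div_add_mod (z.val / l) q
    have e5 : q * B' = B' * q := Nat.mul_comm _ _
    rw [e1, e2]
    constructor
    · rintro ⟨f1, f2⟩
      apply ZMod.val_injective
      rw [cl1_val hl, ZMod.val_cast_of_lt (by omega), ← e3, f1, f2, e5]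
    · intro f
      have f1 := congrArg ZMod.val f
      rw [cl1_val hl, ZMod.val_cast_of_lt (by omega)] at f1
      rw [f1]
      constructor
      · rw [Nat.mul_comm B' q, Nat.mul_add_div hq, Nat.div_eq_of_lt c'.2, Nat.add_zero]
      · rw [Nat.add_comm, Nat.add_mul_mod_self_right, Nat.mod_eq_of_lt c'.2]
  have k1 := key x.1 B.1 c.1 h1
  have k2 := key x.2 B.2 c.2 h2
  by_cases hx : (cl x : V (N / l)) = ac N l q B c
  · have hx' := hx
    unfold cl ac at hx'
    rw [Prod.mk.injEq] at hx'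
    rw [hx, Pi.single_eq_same, mul_one, if_pos]
    exact ⟨⟨(k1.2 hx'.1).1, (k2.2 hx'.2).1⟩, (k1.2 hx'.1).2, (k2.2 hx'.2).2⟩
  · rw [Pi.single_eq_of_ne hx, mul_zero, if_neg]
    rintro ⟨⟨f1, f2⟩, f3, f4⟩
    refine hx ?_
    unfold cl ac
    rw [k1.1 ⟨f1, f3⟩, k2.1 ⟨f2, f4⟩]

theorem Cb_sq (hl : l ∣ N) (hq : 0 < q) {B : ℕ × ℕ} (h1 : B.1 * q + q ≤ N / l)
    (h2 : B.2 * q + q ≤ N / l) (h : Fin q × Fin q → ℝ) :
    ∑ x, (Cb N l q B *ᵥ h) x ^ 2 = ∑ c, h c ^ 2 := by
  classical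
  have e1 : (Cb N l q B)ᵀ * Cb N l q B = 1 := by
    ext c c'
    have e2 : ((Cb N l q B)ᵀ * Cb N l q B) c c' =
        (fun x => Cb N l q B x c) ⬝ᵥ fun x => Cb N l q B x c' := by
      rw [mul_apply]
      rfl
    rw [e2, Cb_col hl hq h1 h2, Cb_col hl hq h1 h2, mulVec_transpose, ← dotProduct_mulVec,
      mulVec_mulVec, cobV_mul_tr hl, one_mulVec, single_one_dotProduct, Matrix.one_apply]
    by_cases hc : c = c'
    · rw [if_pos hc, hc, Pi.single_eq_same]
    · rw [if_neg hc, Pi.single_eq_of_ne]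
      exact fun hh => hc (ac_inj h1 h2 hh)
  have e3 : ∑ x, (Cb N l q B *ᵥ h) x ^ 2 = (Cb N l q B *ᵥ h) ⬝ᵥ (Cb N l q B *ᵥ h) := by
    unfold dotProduct
    exact Finset.sum_congr rfl fun x _ => pow_two _
  rw [e3, dotProduct_mulVec, vecMul_mulVec, e1, vecMul_one]
  unfold dotProduct
  exact Finset.sum_congr rfl fun x _ => (pow_two _).symm

/-- the bare energy of one cell -/
theorem Cb_en {t κ : ℝ} (ht : 0 < t) (hκ : 0 < κ) (hl : l ∣ N) (hq : 0 < q)
    {B : ℕ × ℕ} (h1 : B.1 * q + q ≤ N / l) (h2 : B.2 * q + q ≤ N / l) (c : Fin q × Fin q) :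
    qf (Rk t κ : Matrix (V N) (V N) ℝ) (fun x => Cb N l q B x c) ≤ gd (N / l) t (κ / (l : ℝ) ^ 2) := by
  rw [Cb_col hl hq h1 h2]
  have h3 := Hb_cell (N := N) hl ht le_rfl hκ (Pi.single (ac N l q B c) (1 : ℝ))
  unfold Hb at h3
  rw [H864.MC_self] at h3
  refine h3.trans (le_of_eq ?_)
  rw [qf_Rk_single]

end cells

/-- the normalised energy of unit block noise -/
def Ek (q : ℕ) (κ : ℝ) : ℝ := 13 + (1 + Real.log q) / κ

theorem Ek_pos (q : ℕ) {κ : ℝ} (hκ : 0 < κ) : 0 < Ek q κ := by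
  unfold Ek
  have : 0 ≤ Real.log q := Real.log_natCast_nonneg _
  positivity

lemma sum_inv_le {ν : ℕ} (hν : 1 ≤ ν) : ∀ n : ℕ, ν ≤ n →
    ∑ m ∈ range (n + 1), (if ν < m then (m : ℝ)⁻¹ else 0) ≤ Real.log n - Real.log ν := by
  intro n hn
  induction n, hn using Nat.le_induction with
  | base =>
    rw [sub_self]
    refine le_of_eq (Finset.sum_eq_zero fun m hm => ?_)
    rw [Finset.mem_range] at hm
    rw [if_neg (by omega)]
  | succ n hn ih =>
    rw [Finset.sum_range_succ, if_pos (by omega)]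
    have hn0 : (0 : ℝ) < n := by exact_mod_cast (by omega : 0 < n)
    have h1 := Real.one_sub_inv_le_log_of_pos (show 0 < ((n : ℝ) + 1) / n by positivity)
    have h2 : 1 - (((n : ℝ) + 1) / n)⁻¹ = ((n : ℝ) + 1)⁻¹ := by
      field_simp
      ring
    rw [h2, Real.log_div (by positivity) (by positivity)] at h1
    push_cast
    linarith

/-- **the diagonal value of the resolvent, window `ν`** -/
theorem gd_le_nu {n : ℕ} [NeZero n] {r κ : ℝ} (hr : 0 < r) (hκ : 0 < κ) {ν : ℕ} (hν : 1 ≤ ν)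
    (hνn : ν ≤ n) :
    gd n r κ ≤ 13 * (ν : ℝ) ^ 2 / (r * (n : ℝ) ^ 2) + (Real.log n - Real.log ν) / κ := by
  have hn : (0 : ℝ) < n := by exact_mod_cast Nat.pos_of_ne_zero (NeZero.ne n)
  rw [H859.gd_eq hr hκ.le]
  have h1 : ∀ k : V n, (r + κ * TM.H764.EE k)⁻¹ ≤ (if TM.H764.nrm k ≤ ν then r⁻¹ else 0) +
      (n : ℝ) ^ 2 / (16 * κ) * (if ν < TM.H764.nrm k then ((TM.H764.nrm k : ℝ) ^ 2)⁻¹ else 0) := by
    intro k
    by_cases hk : TM.H764.nrm k ≤ ν
    · rw [if_pos hk, if_neg (by omega), mul_zero, add_zero]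
      refine inv_anti₀ hr ?_
      have := mul_nonneg hκ.le (TM.H764.EE_nonneg k)
      linarith
    · rw [if_neg hk, if_pos (by omega), zero_add]
      have h2 : (0 : ℝ) < TM.H764.nrm k := by exact_mod_cast (by omega : 0 < TM.H764.nrm k)
      have h3 := H859.EE_low k
      have h4 : κ * (16 * (TM.H764.nrm k : ℝ) ^ 2 / (n : ℝ) ^ 2) ≤ r + κ * TM.H764.EE k := by
        have := mul_le_mul_of_nonneg_left h3 hκ.le
        linarith
      refine (inv_anti₀ (by positivity) h4).trans (le_of_eq ?_)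
      field_simp
  have hfib : ∀ F : ℕ → ℝ, ∑ k : V n, F (TM.H764.nrm k) =
      ∑ m ∈ range (n + 1), ((univ.filter fun k : V n => TM.H764.nrm k = m).card : ℝ) * F m := by
    intro F
    rw [← Finset.sum_fiberwise_of_maps_to (s := univ) (t := range (n + 1))
      (g := fun k : V n => TM.H764.nrm k)]
    · refine Finset.sum_congr rfl fun m _ => ?_
      rw [← nsmul_eq_mul, ← Finset.sum_const]
      exact Finset.sum_congr rfl fun k hk => by rw [(Finset.mem_filter.1 hk).2]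
    · intro k _
      rw [mem_range]
      have := H859.nrm_le k
      omega
  have hcard : ∀ m : ℕ, 1 ≤ m →
      ((univ.filter fun k : V n => TM.H764.nrm k = m).card : ℝ) ≤ 12 * m := fun m hm => by
    exact_mod_cast H859.card_nrm_eq hm
  have hcard0 : ((univ.filter fun k : V n => TM.H764.nrm k = 0).card : ℝ) ≤ 1 := by
    have h2 : (univ.filter fun k : V n => TM.H764.nrm k = 0) ⊆ {0} := by
      intro k hk
      rw [Finset.mem_singleton, ← H859.nrm_eq_zero]
      exact (Finset.mem_filter.1 hk).2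
    have h3 := Finset.card_le_card h2
    rw [Finset.card_singleton] at h3
    exact_mod_cast h3
  -- low modes
  have hlow : ∑ k : V n, (if TM.H764.nrm k ≤ ν then r⁻¹ else 0) ≤ 13 * (ν : ℝ) ^ 2 * r⁻¹ := by
    rw [hfib fun m => if m ≤ ν then r⁻¹ else 0]
    have h2 : ∀ m ∈ range (n + 1), ((univ.filter fun k : V n => TM.H764.nrm k = m).card : ℝ) *
        (if m ≤ ν then r⁻¹ else 0) ≤ (if m ≤ ν then (if m = 0 then 1 else 12 * (ν : ℝ)) else 0) *
          r⁻¹ := by
      intro m _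
      by_cases hm : m ≤ ν
      · rw [if_pos hm, if_pos hm]
        refine mul_le_mul_of_nonneg_right ?_ (inv_pos.2 hr).le
        by_cases h0 : m = 0
        · rw [if_pos h0, h0]
          exact hcard0
        · rw [if_neg h0]
          refine (hcard m (by omega)).trans ?_
          have : (m : ℝ) ≤ ν := by exact_mod_cast hm
          linarith
      · rw [if_neg hm, if_neg hm, mul_zero, zero_mul]
    refine (Finset.sum_le_sum h2).trans ?_
    rw [← Finset.sum_mul]
    refine mul_le_mul_of_nonneg_right ?_ (inv_pos.2 hr).le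
    have h3 : ∑ m ∈ range (n + 1), (if m ≤ ν then (if m = 0 then (1 : ℝ) else 12 * (ν : ℝ)) else 0) =
        ∑ m ∈ range (ν + 1), (if m = 0 then (1 : ℝ) else 12 * (ν : ℝ)) := by
      rw [← Finset.sum_filter]
      refine Finset.sum_congr ?_ fun _ _ => rfl
      ext m
      simp only [Finset.mem_filter, Finset.mem_range]
      omega
    rw [h3, Finset.sum_range_succ']
    simp only [Nat.add_eq_zero_iff, one_ne_zero, and_false, if_false, if_true,
      Finset.sum_const, Finset.card_range, nsmul_eq_mul]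
    have h4 : (1 : ℝ) ≤ ν := by exact_mod_cast hν
    nlinarith
  have hhigh : ∑ k : V n, (if ν < TM.H764.nrm k then ((TM.H764.nrm k : ℝ) ^ 2)⁻¹ else 0) ≤
      12 * (Real.log n - Real.log ν) := by
    rw [hfib fun m => if ν < m then ((m : ℝ) ^ 2)⁻¹ else 0]
    have h2 : ∀ m ∈ range (n + 1), ((univ.filter fun k : V n => TM.H764.nrm k = m).card : ℝ) *
        (if ν < m then ((m : ℝ) ^ 2)⁻¹ else 0) ≤ 12 * (if ν < m then (m : ℝ)⁻¹ else 0) := by
      intro m _
      by_cases hm : ν < m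
      · rw [if_pos hm, if_pos hm]
        have hm0 : (0 : ℝ) < m := by exact_mod_cast (by omega : 0 < m)
        calc ((univ.filter fun k : V n => TM.H764.nrm k = m).card : ℝ) * ((m : ℝ) ^ 2)⁻¹
            ≤ 12 * (m : ℝ) * ((m : ℝ) ^ 2)⁻¹ :=
              mul_le_mul_of_nonneg_right (hcard m (by omega)) (by positivity)
          _ = 12 * (m : ℝ)⁻¹ := by field_simp
      · rw [if_neg hm, if_neg hm, mul_zero, mul_zero]
    refine (Finset.sum_le_sum h2).trans ?_
    rw [← Finset.mul_sum]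
    exact mul_le_mul_of_nonneg_left (sum_inv_le hν n hνn) (by norm_num)
  have hlog : 0 ≤ Real.log n - Real.log ν := by
    have h2 : Real.log ν ≤ Real.log n := by
      refine Real.log_le_log (by exact_mod_cast hν) ?_
      exact_mod_cast hνn
    linarith
  calc ((n : ℝ) ^ 2)⁻¹ * ∑ k : V n, (r + κ * TM.H764.EE k)⁻¹
      ≤ ((n : ℝ) ^ 2)⁻¹ * ∑ k : V n, ((if TM.H764.nrm k ≤ ν then r⁻¹ else 0) +
        (n : ℝ) ^ 2 / (16 * κ) * (if ν < TM.H764.nrm k then ((TM.H764.nrm k : ℝ) ^ 2)⁻¹ else 0)) :=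
        mul_le_mul_of_nonneg_left (Finset.sum_le_sum fun k _ => h1 k) (by positivity)
    _ = ((n : ℝ) ^ 2)⁻¹ * (∑ k : V n, (if TM.H764.nrm k ≤ ν then r⁻¹ else 0) +
        (n : ℝ) ^ 2 / (16 * κ) *
          ∑ k : V n, (if ν < TM.H764.nrm k then ((TM.H764.nrm k : ℝ) ^ 2)⁻¹ else 0)) := by
        rw [Finset.sum_add_distrib, ← Finset.mul_sum]
    _ ≤ ((n : ℝ) ^ 2)⁻¹ * (13 * (ν : ℝ) ^ 2 * r⁻¹ +
        (n : ℝ) ^ 2 / (16 * κ) * (12 * (Real.log n - Real.log ν))) := by
        refine mul_le_mul_of_nonneg_left (add_le_add hlow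
          (mul_le_mul_of_nonneg_left hhigh (by positivity))) (by positivity)
    _ = 13 * (ν : ℝ) ^ 2 / (r * (n : ℝ) ^ 2) + (12 / 16) * ((Real.log n - Real.log ν) / κ) := by
        field_simp
    _ ≤ _ := by
        have h5 : 0 ≤ (Real.log n - Real.log ν) / κ := by positivity
        linarith

/-- **the diagonal value of the resolvent at the scale `q`** -/
theorem gd_le_q {n : ℕ} [NeZero n] {r κ : ℝ} (hr : 0 < r) (hκ : 0 < κ) {q : ℕ} (hq : 1 ≤ q)
    (hqn : q ≤ n) : gd n r κ ≤ 13 / (r * (q : ℝ) ^ 2) + (1 + Real.log q) / κ := by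
  have hn : (0 : ℝ) < n := by exact_mod_cast Nat.pos_of_ne_zero (NeZero.ne n)
  have hqR : (0 : ℝ) < q := by exact_mod_cast hq
  obtain ⟨ν, hν⟩ : ∃ ν : ℕ, ν = n / q := ⟨_, rfl⟩
  have hν1 : 1 ≤ ν := by
    rw [hν]
    exact (Nat.one_le_div_iff hq).2 hqn
  have hνn : ν ≤ n := by
    rw [hν]
    exact Nat.div_le_self _ _
  have hνR : (0 : ℝ) < ν := by exact_mod_cast hν1
  refine (gd_le_nu hr hκ hν1 hνn).trans (add_le_add ?_ ?_)
  · have h1 : (ν : ℝ) * q ≤ n := by
      have : ν * q ≤ n := by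
        rw [hν]
        exact Nat.div_mul_le_self n q
      exact_mod_cast this
    rw [div_le_div_iff₀ (by positivity) (by positivity)]
    have h2 : ((ν : ℝ) * q) ^ 2 ≤ (n : ℝ) ^ 2 := pow_le_pow_left₀ (by positivity) h1 2
    calc 13 * (ν : ℝ) ^ 2 * (r * (q : ℝ) ^ 2) = 13 * r * ((ν : ℝ) * q) ^ 2 := by ring
      _ ≤ 13 * r * (n : ℝ) ^ 2 := mul_le_mul_of_nonneg_left h2 (by positivity)
      _ = 13 * (r * (n : ℝ) ^ 2) := by ring
  · rw [div_le_div_iff_of_pos_right hκ]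
    have h1 : (n : ℝ) ≤ 2 * (ν * q) := by
      have h2 : n < q * (ν + 1) := by
        rw [hν]
        exact Nat.lt_mul_div_succ n (by omega)
      have h3 : q * (ν + 1) ≤ 2 * (ν * q) := by
        have h4 : q * 1 ≤ q * ν := Nat.mul_le_mul_left q hν1
        have h5 : q * (ν + 1) = q * ν + q * 1 := by ring
        have h6 : 2 * (ν * q) = q * ν + q * ν := by ring
        omega
      exact_mod_cast (h2.le.trans h3)
    have h2 := Real.log_le_log hn h1
    rw [Real.log_mul (by norm_num) (by positivity), Real.log_mul (by positivity) (by positivity)]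
      at h2
    have h3 := Real.log_two_lt_d9
    linarith

section energy

variable {N l q : ℕ} [NeZero N] [NeZero (N / l)]

theorem mean_en {κ Y : ℝ} (hκ : 0 < κ) (hl : l ∣ N) (hl0 : 0 < l) (hq : 0 < q)
    {B : ℕ × ℕ} (h1 : B.1 * q + q ≤ N / l) (h2 : B.2 * q + q ≤ N / l) :
    ∫ h, qf (Rk (1 / ((l * q : ℕ) : ℝ) ^ 2) κ : Matrix (V N) (V N) ℝ)
      (((Y * √(1 / ((l * q : ℕ) : ℝ) ^ 2)) • Cb N l q B) *ᵥ h) ∂(gau (Fin q × Fin q)) ≤
      Y ^ 2 * Ek q κ := by
  obtain ⟨t, ht⟩ : ∃ t : ℝ, t = 1 / ((l * q : ℕ) : ℝ) ^ 2 := ⟨_, rfl⟩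
  have hlR : (0 : ℝ) < l := by exact_mod_cast hl0
  have hqR : (0 : ℝ) < q := by exact_mod_cast hq
  have ht0 : 0 < t := by
    rw [ht]
    push_cast
    positivity
  rw [← ht, int_qf]
  have e1 : ∀ j : Fin q × Fin q, qf (Rk t κ : Matrix (V N) (V N) ℝ)
      (fun x => ((Y * √t) • Cb N l q B) x j) ≤ Y ^ 2 * t * gd (N / l) t (κ / (l : ℝ) ^ 2) := by
    intro j
    have e2 : (fun x => ((Y * √t) • Cb N l q B) x j) = (Y * √t) • fun x => Cb N l q B x j := rfl
    rw [e2, H37.qf_smul, mul_pow, Real.sq_sqrt ht0.le]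
    exact mul_le_mul_of_nonneg_left (Cb_en ht0 hκ hl hq h1 h2 j) (by positivity)
  refine (Finset.sum_le_sum fun j _ => e1 j).trans ?_
  rw [Finset.sum_const, Finset.card_univ, Fintype.card_prod, Fintype.card_fin, nsmul_eq_mul]
  have h3 := gd_le_q (n := N / l) ht0 (show 0 < κ / (l : ℝ) ^ 2 by positivity) hq
    (by omega : q ≤ N / l)
  have h4 : (q : ℝ) ^ 2 * (t * gd (N / l) t (κ / (l : ℝ) ^ 2)) ≤ Ek q κ := by
    refine (mul_le_mul_of_nonneg_left (mul_le_mul_of_nonneg_left h3 ht0.le)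
      (sq_nonneg (q : ℝ))).trans (le_of_eq ?_)
    unfold Ek
    rw [ht]
    push_cast
    field_simp
  have e5 : ((q * q : ℕ) : ℝ) * (Y ^ 2 * t * gd (N / l) t (κ / (l : ℝ) ^ 2)) =
      Y ^ 2 * ((q : ℝ) ^ 2 * (t * gd (N / l) t (κ / (l : ℝ) ^ 2))) := by
    push_cast
    ring
  rw [e5]
  exact mul_le_mul_of_nonneg_left h4 (sq_nonneg Y)

end energy

/-- Markov's inequality -/
theorem mkv {I : Type*} [Fintype I] {F : (I → ℝ) → ℝ} (hF : ∀ g, 0 ≤ F g)
    (hi : Integrable F (gau I)) {E ρ : ℝ} (hE : 0 < E) (hρ : 0 < ρ)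
    (h : ∫ g, F g ∂(gau I) ≤ E) : (gau I).real {g | ρ * E < F g} ≤ 1 / ρ := by
  have h1 := mul_meas_ge_le_integral_of_nonneg (μ := gau I) (Filter.Eventually.of_forall hF) hi
    (ρ * E)
  have h2 : (gau I).real {g | ρ * E < F g} ≤ (gau I).real {g | ρ * E ≤ F g} :=
    measureReal_mono fun g hg => le_of_lt (show ρ * E < F g from hg)
  rw [le_div_iff₀ hρ]
  have h3 : ρ * E * (gau I).real {g | ρ * E ≤ F g} ≤ E := h1.trans h
  have h4 : ρ * (gau I).real {g | ρ * E ≤ F g} ≤ 1 := by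
    by_contra hcon
    rw [not_le] at hcon
    nlinarith
  nlinarith [measureReal_nonneg (μ := gau I) (s := {g | ρ * E ≤ F g})]

end

end Vale.Agent.P159.H789
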