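import Vale.Agent.P159.H789.TaC

/-!
P159, module TORAP (helper789), part D: **torus change of AP** with explicit error.
-/

set_option linter.unusedSectionVars false

namespace Vale.Agent.P159.H789

open Finset Matrix MeasureTheory ProbabilityTheory
open Vale.Agent.P159.H37
open Vale.Agent.P159.TM.H104 (EM Lg li Cv)
open Vale.Agent.P159.TM.Spec (V)
open Vale.Agent.P159.TM.SpecC (wT)
open Vale.Agent.P159.TM.H265 (HA)
open Vale.Agent.P159.H972 (cobB)
open Vale.Agent.P159.H859 (Rk gd gd_le qf_Rk_single pd_Rk ge)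
open Vale.Agent.P159.H358 (err9q err9q_nonneg)
open Vale.Agent.P159.H816 (Gam edge_le dom_int Gam_nonneg)
open Vale.Agent.P159.H864 (lapM)

noncomputable section

section one

variable {N : ℕ} [NeZero N] {b κ t : ℝ}

lemma qf_Rk_nonneg (ht : 0 < t) (hκ : 0 < κ) (u : V N → ℝ) :
    0 ≤ qf (Rk t κ : Matrix (V N) (V N) ℝ) u := by
  rw [H37.qf_eq]
  exact H859.qd_nonneg (pd_Rk ht hκ.le).posSemidef u

/-- `log Z` at four times a source which is small per edge -/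
theorem Lg_dom (hb : 0 ≤ b) (hκ : 0 < κ) (hκb : κ * (b + 12 * max b 1 ^ 2 * 1 ^ 2) ≤ 1)
    (ht : 0 < t) {v : V N → ℝ} (hv : 16 * Gam N t t κ * ∑ x, v x ^ 2 ≤ 1) {s : ℝ}
    (hs : |s| ≤ 2) :
    Lg (wt N b t) ((2 : ℝ) • (s • v)) - Lg (wt N b t) 0 ≤
      8 * qf (Rk t κ : Matrix (V N) (V N) ℝ) v := by
  have hs2 : s ^ 2 ≤ 4 := by
    have := abs_le.1 hs
    nlinarith [this.1, this.2]
  have hM : ∀ u : V N → ℝ, qf (t • (1 : Matrix (V N) (V N) ℝ)) u = t * ∑ x, u x ^ 2 :=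
    fun u => H37.qf_smul_one t u
  have hMs : (t • (1 : Matrix (V N) (V N) ℝ))ᵀ = t • (1 : Matrix (V N) (V N) ℝ) := by
    rw [Matrix.transpose_smul, Matrix.transpose_one]
  have h1 := edge_le hMs ht le_rfl hκ (fun u => (hM u).ge) (fun u => (hM u).le)
    ((2 : ℝ) • (s • v))
  have hG : 0 ≤ Gam N t t κ := Gam_nonneg ht hκ
  have hS : 0 ≤ ∑ x, v x ^ 2 := Finset.sum_nonneg fun _ _ => sq_nonneg _
  have e1 : ∑ y, ((2 : ℝ) • (s • v)) y ^ 2 = 4 * s ^ 2 * ∑ x, v x ^ 2 := by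
    rw [Finset.mul_sum]
    refine Finset.sum_congr rfl fun x _ => ?_
    simp only [Pi.smul_apply, smul_eq_mul]
    ring
  have h2 := dom_int hb hMs ht (fun u => (hM u).ge) hκ hκb le_rfl ((2 : ℝ) • (s • v))
    (fun x s' => by
      have h3 := h1 x s'
      rw [e1] at h3
      have h4 : Gam N t t κ * (4 * s ^ 2 * ∑ x, v x ^ 2) ≤ 1 := by
        have h5 : Gam N t t κ * (4 * s ^ 2 * ∑ x, v x ^ 2) ≤
            16 * Gam N t t κ * ∑ x, v x ^ 2 := by
          have h6 : 4 * s ^ 2 * ∑ x, v x ^ 2 ≤ 16 * ∑ x, v x ^ 2 := by nlinarith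
          have := mul_le_mul_of_nonneg_left h6 hG
          linarith
        exact h5.trans hv
      have h7 := h3.trans h4
      rwa [sq_le_one_iff_abs_le_one] at h7)
  refine h2.trans ?_
  have e2 : qf (t • (1 : Matrix (V N) (V N) ℝ) + κ • lapM)⁻¹ ((2 : ℝ) • (s • v)) =
      4 * s ^ 2 * qf (Rk t κ : Matrix (V N) (V N) ℝ) v := by
    rw [H37.qf_smul, H37.qf_smul]
    unfold Rk
    ring
  rw [e2]
  have h3 := qf_Rk_nonneg (N := N) ht hκ v
  nlinarith

end one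

section main

variable {N M l q : ℕ} [NeZero N] [NeZero M] [NeZero (N / l)] [NeZero (M / l)]

/-- a block outside the torus -/
theorem Cb_zero {B : ℕ × ℕ} (hd : l * q ∣ M)
    (hB : ¬ (B.1 * (l * q) + l * q ≤ M ∧ B.2 * (l * q) + l * q ≤ M)) : Cb M l q B = 0 := by
  ext x c
  unfold Cb
  rw [Matrix.of_apply, Matrix.zero_apply, if_neg]
  rintro ⟨⟨h1, h2⟩, _⟩
  refine hB ?_
  have key : ∀ (z : ZMod M) (a : ℕ), z.val / (l * q) = a → a * (l * q) + l * q ≤ M := by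
    intro z a ha
    obtain ⟨k, hk⟩ := hd
    have h3 := ZMod.val_lt z
    have h0 : 0 < l * q := by
      rcases Nat.eq_zero_or_pos (l * q) with h | h
      · rw [h, zero_mul] at hk
        exact absurd hk (NeZero.ne M)
      · exact h
    have h4 : z.val / (l * q) < k := by
      rw [Nat.div_lt_iff_lt_mul h0, Nat.mul_comm, ← hk]
      exact h3
    rw [ha] at h4
    have h5 : (a + 1) * (l * q) ≤ k * (l * q) := Nat.mul_le_mul_right _ h4
    have h6 : (a + 1) * (l * q) = a * (l * q) + l * q := by ring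
    rw [hk, Nat.mul_comm (l * q) k]
    omega
  exact ⟨key _ _ h1, key _ _ h2⟩

theorem div_mul_add_le {N l q a : ℕ} (hl0 : 0 < l) (h : a * (l * q) + l * q ≤ N) :
    a * q + q ≤ N / l := by
  rw [Nat.le_div_iff_mul_le hl0]
  calc (a * q + q) * l = a * (l * q) + l * q := by ring
    _ ≤ N := h

theorem exp_small : Real.exp (-((6 : ℝ) ^ 2 / 7)) ≤ 1 / 100 := by
  have h2 : Real.exp (-((6 : ℝ) ^ 2 / 7)) ≤ Real.exp (-5) := Real.exp_le_exp.2 (by norm_num)
  refine h2.trans ?_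
  rw [Real.exp_neg, one_div]
  refine inv_anti₀ (by norm_num) ?_
  have h4 : (2.7182818283 : ℝ) < Real.exp 1 := Real.exp_one_gt_d9
  have h5 : Real.exp (5 : ℝ) = Real.exp 1 ^ 5 := by rw [← Real.exp_nat_mul]; norm_num
  rw [h5]
  have h6 : (2.7182818283 : ℝ) ^ 5 ≤ Real.exp 1 ^ 5 := pow_le_pow_left₀ (by norm_num) h4.le 5
  refine le_trans (by norm_num) h6

/-- the error of TORAP -/
def eTA (C c κ Y : ℝ) (l q m : ℕ) : ℝ :=
  2 * err9q C c (10 * Y * (q : ℝ) ^ 2) (1600 * Y ^ 2 * Ek q κ) 1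
    ((m / 2 - 1) * (l * q)) (l * q)

theorem eTA_nonneg (C c κ : ℝ) {Y : ℝ} (hY : 0 ≤ Y) (l q m : ℕ) :
    0 ≤ eTA C c κ Y l q m := by
  unfold eTA
  have := err9q_nonneg C c (A := 10 * Y * (q : ℝ) ^ 2) (by positivity)
    (1600 * Y ^ 2 * Ek q κ) 1 ((m / 2 - 1) * (l * q)) (l * q)
  linarith

set_option maxHeartbeats 400000 in
/-- **TORAP**, explicit error: block noise of amplitude `X` on the torus `N` ==> amplitude `X / 6`
on the torus `M` -/
theorem torap {b κ : ℝ} (hb : 0 ≤ b) (hκ : 0 < κ)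
    (hκb : κ * (b + 12 * max b 1 ^ 2 * 1 ^ 2) ≤ 1) (hl : l ∣ N) (hl' : l ∣ M) (hl0 : 0 < l)
    (hq : 0 < q) (hd' : l * q ∣ M) {y y' c C : ℝ} (hC : 0 < C)
    (hT : HA N b (l * q) hb y c C) (hT' : HA M b (l * q) hb y' c C) (hy : 0 ≤ y) (hy' : 0 ≤ y')
    {m : ℕ} (hm : 6 ≤ m) (hN : m * (l * q) ≤ N) (hM : m * (l * q) ≤ M) (hmy : (m : ℝ) * y ≤ c)
    (hmy' : (m : ℝ) * y' ≤ c) {X δ : ℝ} (hX : 0 < X) (hδ : 0 ≤ δ)
    (hG : 1600 * Gam N (1 / ((l * q : ℕ) : ℝ) ^ 2) (1 / ((l * q : ℕ) : ℝ) ^ 2) κ * (X / 6) ^ 2 ≤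
      (l : ℝ) ^ 2)
    (hG' : 1600 * Gam M (1 / ((l * q : ℕ) : ℝ) ^ 2) (1 / ((l * q : ℕ) : ℝ) ^ 2) κ * (X / 6) ^ 2 ≤
      (l : ℝ) ^ 2)
    {B₀ : ℕ × ℕ} (h1 : B₀.1 * (l * q) + l * q ≤ N) (h2 : B₀.2 * (l * q) + l * q ≤ N)
    (hAP : (gau (Fin (N / l) × Fin (N / l))).real {g | δ < Rs (wt N b (1 / ((l * q : ℕ) : ℝ) ^ 2))
      (((X * √(1 / ((l * q : ℕ) : ℝ) ^ 2)) • cobB N l q B₀) *ᵥ g)} ≤ 1 / 30) (B : ℕ × ℕ) :
    (gau (Fin (M / l) × Fin (M / l))).real {g | δ + eTA C c κ (X / 6) l q m <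
      Rs (wt M b (1 / ((l * q : ℕ) : ℝ) ^ 2))
        (((X / 6 * √(1 / ((l * q : ℕ) : ℝ) ^ 2)) • cobB M l q B) *ᵥ g)} ≤ 1 / 30 := by
  have hlR : (0 : ℝ) < l := by exact_mod_cast hl0
  have hqR : (0 : ℝ) < q := by exact_mod_cast hq
  have hξ : 0 < l * q := Nat.mul_pos hl0 hq
  have hξR : (0 : ℝ) < ((l * q : ℕ) : ℝ) := by exact_mod_cast hξ
  obtain ⟨t, ht⟩ : ∃ t : ℝ, t = 1 / ((l * q : ℕ) : ℝ) ^ 2 := ⟨_, rfl⟩
  have ht0 : 0 < t := by rw [ht]; positivity
  obtain ⟨Y, hYd⟩ : ∃ Y : ℝ, Y = X / 6 := ⟨_, rfl⟩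
  have hY0 : 0 < Y := by rw [hYd]; positivity
  obtain ⟨E, hE⟩ : ∃ E : ℝ, E = eTA C c κ Y l q m := ⟨_, rfl⟩
  have hE0 : 0 ≤ E := by rw [hE]; exact eTA_nonneg C c κ hY0.le l q m
  rw [← hYd] at hG hG' ⊢
  rw [← ht] at hG hG' hAP ⊢
  rw [← hE]
  have eμN : EM (wt N b t) := em_wt (N := N) hb ht0
  have evN : Ev (wt N b t) := ev_wt
  have pkN : PK (wt N b t) := pk_wt hb ht0
  have eμM : EM (wt M b t) := em_wt (N := M) hb ht0
  have mN : MeasurableSet {v : V N → ℝ | δ < Rs (wt N b t) ((Y * √t) • v)} :=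
    measurableSet_lt measurable_const ((H586.rs_meas eμN).comp (measurable_const_smul _))
  have mM : MeasurableSet {v : V M → ℝ | δ + E < Rs (wt M b t) ((Y * √t) • v)} :=
    measurableSet_lt measurable_const ((H586.rs_meas eμM).comp (measurable_const_smul _))
  -- transport to the profile
  have lM := law_blk (N := M) hl' hl0 hq B mM
  have e1 : {g : Fin (M / l) × Fin (M / l) → ℝ | δ + E <
      Rs (wt M b t) (((Y * √t) • cobB M l q B) *ᵥ g)} =
      {g | cobB M l q B *ᵥ g ∈ {v : V M → ℝ | δ + E < Rs (wt M b t) ((Y * √t) • v)}} := by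
    ext g
    simp only [Set.mem_ofPred_eq, Matrix.smul_mulVec]
  rw [e1, lM]
  -- the trivial case
  by_cases hB : B.1 * (l * q) + l * q ≤ M ∧ B.2 * (l * q) + l * q ≤ M
  swap
  · have e2 : {h : Fin q × Fin q → ℝ | Cb M l q B *ᵥ h ∈
        {v : V M → ℝ | δ + E < Rs (wt M b t) ((Y * √t) • v)}} = ∅ := by
      ext h
      simp only [Set.mem_ofPred_eq, Set.mem_empty_iff_false, iff_false, not_lt]
      rw [Cb_zero hd' hB, Matrix.zero_mulVec, smul_zero, Rs_zero]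
      positivity
    rw [e2, measureReal_empty]
    norm_num
  obtain ⟨hB1, hB2⟩ := hB
  have a1 := div_mul_add_le hl0 h1
  have a2 := div_mul_add_le hl0 h2
  have b1 := div_mul_add_le hl0 hB1
  have b2 := div_mul_add_le hl0 hB2
  -- the four bad sets
  set S1 : Set (Fin q × Fin q → ℝ) := {h | Cb N l q B₀ *ᵥ h ∈
    {v : V N → ℝ | δ < Rs (wt N b t) ((Y * √t) • v)}} with hS1
  set S2 : Set (Fin q × Fin q → ℝ) := {h | 100 * (q : ℝ) ^ 2 < ∑ c, h c ^ 2} with hS2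
  set S3 : Set (Fin q × Fin q → ℝ) := {h | 200 * (Y ^ 2 * Ek q κ) <
    qf (Rk t κ : Matrix (V N) (V N) ℝ) (((Y * √t) • Cb N l q B₀) *ᵥ h)} with hS3
  set S4 : Set (Fin q × Fin q → ℝ) := {h | 200 * (Y ^ 2 * Ek q κ) <
    qf (Rk t κ : Matrix (V M) (V M) ℝ) (((Y * √t) • Cb M l q B) *ᵥ h)} with hS4
  have hsub : {h : Fin q × Fin q → ℝ | Cb M l q B *ᵥ h ∈
      {v : V M → ℝ | δ + E < Rs (wt M b t) ((Y * √t) • v)}} ⊆ S1 ∪ (S2 ∪ (S3 ∪ S4)) := by
    intro h hh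
    by_contra hcon
    simp only [Set.mem_union, not_or] at hcon
    obtain ⟨c1, c2, c3, c4⟩ := hcon
    simp only [hS1, hS2, hS3, hS4, Set.mem_ofPred_eq, not_lt] at c1 c2 c3 c4 hh
    have hst : √t = 1 / ((l * q : ℕ) : ℝ) := by
      rw [ht, one_div, Real.sqrt_inv, Real.sqrt_sq hξR.le, one_div]
    -- the two sources
    have eN : (Y * √t) • (Cb N l q B₀ *ᵥ h) =
        blkf N (l * q) B₀ fun i k => Y * √t * prf l q h i k := by
      rw [Cb_mulVec, blkf_smul]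
    have eM : (Y * √t) • (Cb M l q B *ᵥ h) =
        blkf M (l * q) B fun i k => Y * √t * prf l q h i k := by
      rw [Cb_mulVec, blkf_smul]
    have hs0 : 0 ≤ √t := Real.sqrt_nonneg t
    have hu : ∀ i k, |Y * √t * prf l q h i k| ≤
        10 * Y * (q : ℝ) ^ 2 / ((l * q : ℕ) : ℝ) ^ 2 := by
      intro i k
      rw [abs_mul, abs_of_nonneg (mul_nonneg hY0.le hs0)]
      have h3 := prf_abs (l := l) h i k
      have h4 : Real.sqrt (∑ c, h c ^ 2) ≤ 10 * q := by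
        rw [Real.sqrt_le_left (by positivity)]
        calc ∑ c, h c ^ 2 ≤ 100 * (q : ℝ) ^ 2 := c2
          _ = (10 * q) ^ 2 := by ring
      have h5 : |prf l q h i k| ≤ (l : ℝ)⁻¹ * (10 * q) :=
        h3.trans (mul_le_mul_of_nonneg_left h4 (by positivity))
      refine (mul_le_mul_of_nonneg_left h5 (mul_nonneg hY0.le hs0)).trans (le_of_eq ?_)
      rw [hst]
      push_cast
      field_simp
    have hsz : ∀ (K : ℕ) [NeZero K] [NeZero (K / l)] (B' : ℕ × ℕ), l ∣ K →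
        B'.1 * q + q ≤ K / l → B'.2 * q + q ≤ K / l →
        1600 * Gam K t t κ * Y ^ 2 ≤ (l : ℝ) ^ 2 →
        16 * Gam K t t κ * ∑ x, ((Y * √t) • (Cb K l q B' *ᵥ h)) x ^ 2 ≤ 1 := by
      intro K _ _ B' hK k1 k2 hGK
      have h3 : ∑ x, ((Y * √t) • (Cb K l q B' *ᵥ h)) x ^ 2 = Y ^ 2 * t * ∑ c, h c ^ 2 := by
        rw [← Cb_sq hK hq k1 k2 h, Finset.mul_sum]
        refine Finset.sum_congr rfl fun x _ => ?_
        rw [Pi.smul_apply, smul_eq_mul, mul_pow, mul_pow, Real.sq_sqrt ht0.le]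
      have hGK0 : 0 ≤ Gam K t t κ := Gam_nonneg ht0 hκ
      rw [h3]
      have h4 : Y ^ 2 * t * ∑ c, h c ^ 2 ≤ 100 * Y ^ 2 / (l : ℝ) ^ 2 := by
        refine (mul_le_mul_of_nonneg_left c2 (by positivity)).trans (le_of_eq ?_)
        rw [ht]
        push_cast
        field_simp
      refine (mul_le_mul_of_nonneg_left h4 (by positivity)).trans ?_
      have h5 : 16 * Gam K t t κ * (100 * Y ^ 2 / (l : ℝ) ^ 2) =
          1600 * Gam K t t κ * Y ^ 2 / (l : ℝ) ^ 2 := by ring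
      rw [h5, div_le_one (by positivity)]
      exact hGK
    have dN : ∀ s : ℝ, |s| ≤ 2 → Lg (wt N b t) ((2 : ℝ) • (s • ((Y * √t) • (Cb N l q B₀ *ᵥ h)))) -
        Lg (wt N b t) 0 ≤ 1600 * Y ^ 2 * Ek q κ := by
      intro s hs
      refine (Lg_dom hb hκ hκb ht0 (hsz N B₀ hl a1 a2 hG) hs).trans ?_
      rw [Matrix.smul_mulVec] at c3
      linarith
    have dM : ∀ s : ℝ, |s| ≤ 2 → Lg (wt M b t) ((2 : ℝ) • (s • ((Y * √t) • (Cb M l q B *ᵥ h)))) -
        Lg (wt M b t) 0 ≤ 1600 * Y ^ 2 * Ek q κ := by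
      intro s hs
      refine (Lg_dom hb hκ hκb ht0 (hsz M B hl' b1 b2 hG') hs).trans ?_
      rw [Matrix.smul_mulVec] at c4
      linarith
    rw [eN] at dN c1
    rw [eM] at dM hh
    have key := Rs_blk hb hξ hC hT hT' hy hy' hm hN hM hmy hmy' h1 h2 hB1 hB2
      (by positivity : 0 ≤ 10 * Y * (q : ℝ) ^ 2) hu (by rw [← ht]; exact dN)
      (by rw [← ht]; exact dM)
    rw [← ht] at key
    have h3 := (abs_le.1 key).1
    have h4 : E = 2 * err9q C c (10 * Y * (q : ℝ) ^ 2)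
        (1600 * Y ^ 2 * Ek q κ) 1 ((m / 2 - 1) * (l * q)) (l * q) := hE
    linarith
  -- the four probabilities
  have p1 : (gau (Fin q × Fin q)).real S1 ≤ 1 / 100 := by
    have h3 := law_blk (N := N) hl hl0 hq B₀ mN
    rw [hS1, ← h3]
    have h4 := H586.fern_Rs eμN evN pkN ((X * √t) • cobB N l q B₀) hAP
      (show (1 : ℝ) ≤ 6 by norm_num)
    refine le_trans (le_of_eq ?_) (h4.trans exp_small)
    congr 1
    ext g
    simp only [Set.mem_ofPred_eq, Matrix.smul_mulVec, smul_smul]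
    rw [hYd]
    have e3 : (6 : ℝ)⁻¹ * (X * √t) = X / 6 * √t := by ring
    rw [e3]
  have p2 : (gau (Fin q × Fin q)).real S2 ≤ 1 / 100 := by
    have hint : ∀ c : Fin q × Fin q, Integrable (fun h : Fin q × Fin q → ℝ => h c ^ 2)
        (gau (Fin q × Fin q)) := by
      intro c
      have h3 := H663.int_lin_mul (Pi.single c (1 : ℝ)) (Pi.single c (1 : ℝ))
      have h5 : ∀ h : Fin q × Fin q → ℝ,
          ∑ j, (Pi.single c (1 : ℝ) : Fin q × Fin q → ℝ) j * h j = h c := by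
        intro h
        rw [Finset.sum_eq_single c]
        · simp
        · intro j _ hj
          simp [Pi.single_eq_of_ne hj]
        · simp
      simp only [h5] at h3
      refine h3.congr (Filter.Eventually.of_forall fun h => ?_)
      simp only
      ring
    refine mkv (F := fun h : Fin q × Fin q → ℝ => ∑ c, h c ^ 2)
      (fun h => Finset.sum_nonneg fun _ _ => sq_nonneg _)
      (integrable_finsetSum _ fun c _ => hint c) (by positivity) (by norm_num) ?_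
    rw [integral_finsetSum _ fun c _ => hint c]
    have h6 : ∀ c : Fin q × Fin q, ∫ h : Fin q × Fin q → ℝ, h c ^ 2 ∂(gau (Fin q × Fin q)) = 1 := by
      intro c
      have h7 := H663.gau_coord_mul c c
      rw [if_pos rfl] at h7
      rw [← h7]
      refine integral_congr_ae (Filter.Eventually.of_forall fun h => ?_)
      simp only
      ring
    rw [Finset.sum_congr rfl fun c _ => h6 c, Finset.sum_const, Finset.card_univ,
      Fintype.card_prod, Fintype.card_fin, nsmul_eq_mul]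
    push_cast
    nlinarith
  have p34 : ∀ (K : ℕ) [NeZero K] [NeZero (K / l)] (B' : ℕ × ℕ), l ∣ K →
      B'.1 * q + q ≤ K / l → B'.2 * q + q ≤ K / l →
      (gau (Fin q × Fin q)).real {h | 200 * (Y ^ 2 * Ek q κ) <
        qf (Rk t κ : Matrix (V K) (V K) ℝ) (((Y * √t) • Cb K l q B') *ᵥ h)} ≤ 1 / 200 := by
    intro K _ _ B' hK k1 k2
    have hEk := Ek_pos q hκ
    have h3 := mean_en (Y := Y) hκ hK hl0 hq k1 k2
    rw [← ht] at h3
    refine mkv (F := fun h : Fin q × Fin q → ℝ =>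
      qf (Rk t κ : Matrix (V K) (V K) ℝ) (((Y * √t) • Cb K l q B') *ᵥ h))
      (fun h => qf_Rk_nonneg ht0 hκ _) ?_ (by positivity) (by norm_num) h3
    unfold qf
    refine integrable_finsetSum _ fun x _ => integrable_finsetSum _ fun z _ => ?_
    have h4 := (H663.int_lin_mul (fun i => ((Y * √t) • Cb K l q B') x i)
      (fun i => ((Y * √t) • Cb K l q B') z i)).const_mul ((Rk t κ : Matrix (V K) (V K) ℝ) x z)
    refine h4.congr (Filter.Eventually.of_forall fun g => ?_)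
    simp only [mulVec, dotProduct]
    ring
  have p3 := p34 N B₀ hl a1 a2
  have p4 := p34 M B hl' b1 b2
  refine (measureReal_mono hsub).trans ?_
  refine (measureReal_union_le _ _).trans ?_
  have u1 := measureReal_union_le (μ := gau (Fin q × Fin q)) S2 (S3 ∪ S4)
  have u2 := measureReal_union_le (μ := gau (Fin q × Fin q)) S3 S4
  have p3' : (gau (Fin q × Fin q)).real S3 ≤ 1 / 200 := p3
  have p4' : (gau (Fin q × Fin q)).real S4 ≤ 1 / 200 := p4
  norm_num at p1 p2 p3' p4' ⊢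
  linarith

end main

end

end Vale.Agent.P159.H789
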