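import Vale.Agent.P159.H789.TaE

/-!
P159, module TORAP (helper789), part F: TORAP in the letters of `H972/Good.lean`, all numbers done.
-/

set_option linter.unusedSectionVars false

namespace Vale.Agent.P159.H789

open Finset Matrix MeasureTheory ProbabilityTheory
open Vale.Agent.P159.H37
open Vale.Agent.P159.TM.H104 (EM Lg li Cv)
open Vale.Agent.P159.TM.Spec (V Rng)
open Vale.Agent.P159.TM.H265 (HA)
open Vale.Agent.P159.H972 (cobB AP RNG Par tn lg)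

noncomputable section

/-- logarithms against powers -/
lemma small_log (A B : ℝ) {p : ℝ} (hp : 0 < p) :
    ∃ e₀ : ℝ, 0 < e₀ ∧ ∀ e, 0 < e → e ≤ e₀ → A + B * Real.log (1 / e) ≤ e ^ (-p) := by
  obtain ⟨G, hG⟩ : ∃ G : ℝ, G = |A| + |B| * (2 / p) := ⟨_, rfl⟩
  have hG0 : 0 ≤ G := by
    rw [hG]
    positivity
  obtain ⟨B₁, hB₁⟩ : ∃ B : ℝ, B = max G 1 := ⟨_, rfl⟩
  have hB1 : 1 ≤ B₁ := hB₁ ▸ le_max_right _ _
  refine ⟨min 1 (B₁⁻¹ ^ (2 / p)), by positivity, fun e he h => ?_⟩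
  have he1 : e ≤ 1 := h.trans (min_le_left _ _)
  have h1 : e ^ (p / 2) ≤ B₁⁻¹ := by
    have h2 := Real.rpow_le_rpow he.le (h.trans (min_le_right _ _)) (show 0 ≤ p / 2 by positivity)
    have h3 : 2 / p * (p / 2) = 1 := by field_simp
    rw [← Real.rpow_mul (by positivity), h3, Real.rpow_one] at h2
    exact h2
  have h2 : Real.log (1 / e) ≤ 2 / p * e ^ (-(p / 2)) := by
    have h3 := Real.log_le_rpow_div (x := 1 / e) (by positivity) (show 0 < p / 2 by positivity)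
    have h4 : (1 / e) ^ (p / 2) / (p / 2) = 2 / p * e ^ (-(p / 2)) := by
      rw [one_div, Real.inv_rpow he.le, Real.rpow_neg he.le]
      field_simp
    rw [h4] at h3
    exact h3
  have h0 : 0 ≤ Real.log (1 / e) := Real.log_nonneg (by rw [le_div_iff₀ he]; linarith)
  have h5 : 1 ≤ e ^ (-(p / 2)) := Real.one_le_rpow_of_pos_of_le_one_of_nonpos he he1 (by linarith)
  have h6 : A + B * Real.log (1 / e) ≤ G * e ^ (-(p / 2)) := by
    have h7 : A ≤ |A| * e ^ (-(p / 2)) :=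
      (le_abs_self A).trans (le_mul_of_one_le_right (abs_nonneg _) h5)
    have h8 : B * Real.log (1 / e) ≤ |B| * (2 / p * e ^ (-(p / 2))) :=
      mul_le_mul (le_abs_self B) h2 h0 (abs_nonneg _)
    rw [hG]
    linarith
  refine h6.trans ?_
  have h9 : e ^ (-p) = e ^ (-(p / 2)) * e ^ (-(p / 2)) := by
    rw [← Real.rpow_add he]
    ring_nf
  rw [h9]
  refine mul_le_mul_of_nonneg_right ?_ (by linarith)
  rw [Real.rpow_neg he.le]
  have h10 : 0 < e ^ (p / 2) := Real.rpow_pos_of_pos he _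
  refine (le_max_left G 1).trans ?_
  rw [← hB₁, le_inv_comm₀ (by linarith) h10]
  exact h1

/-- **TORAP in the letters of Good.lean, numbers done** -/
theorem torap_good {b1 b2 W ys : ℝ} {X0 : ℕ} (hb1 : 0 < b1) {c C : ℝ} (hc : 0 < c) (hC : 0 < C)
    (hHA : ∀ (N : ℕ) [NeZero N] (b : ℝ) (hb : 0 ≤ b) (ξ : ℕ) (y : ℝ),
      Rng b1 b2 (5 / 2) W ys X0 N b ξ y → HA N b ξ hb y c C) {ι : ℝ} (hι : 0 < ι)
    (hι2 : ι ≤ 1 / 80) :
    ∃ e₀ : ℝ, 0 < e₀ ∧ ∀ P : Par, P.b1 = b1 → P.b2 = b2 → P.W = W → P.ys ≤ ys → X0 ≤ P.X0 →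
      ∀ (b : ℝ) (n r r' s : ℕ) (e X δ : ℝ), 0 < e → e ≤ e₀ → RNG P b n r e → RNG P b n r' e →
      s ≤ n → n ≤ r → n ≤ r' → ((n - s : ℕ) : ℝ) ≤ e ^ (-(ι / 2)) →
      1 ≤ X → X ^ 2 ≤ e ^ (-(1 / 5) : ℝ) → X ^ 2 * e ^ (-ι) ≤ 2 ^ (r - n) →
      X ^ 2 * e ^ (-ι) ≤ 2 ^ (r' - n) → X ^ 2 * (1 + r + r') * e⁻¹ ≤ 4 ^ s → 0 ≤ δ →
      AP b n r s X (tn n) δ → AP b n r' s (X / 6) (tn n) (δ + e) := by
  obtain ⟨A₁, hA₁, hT⟩ := torap_AP' hb1 hc hC hHA
  have hA0 : 0 < A₁ := by linarith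
  obtain ⟨e1, he1, s1⟩ := small_log 7 0 (p := ι) hι
  obtain ⟨e2, he2, s2⟩ := small_log (4 * A₁) 0 (p := ι / 2) (by positivity)
  obtain ⟨e3, he3, s3⟩ := small_log A₁ 0 (p := 1) one_pos
  obtain ⟨e4, he4, s4⟩ := small_log 0 (2 * A₁) (p := ι) hι
  obtain ⟨e5, he5, s5⟩ := small_log (1 / c) 0 (p := 3 / 80) (by norm_num)
  refine ⟨min (1 / 2) (min e1 (min e2 (min e3 (min e4 e5)))), by positivity, ?_⟩
  intro P hP1 hP2 hPW hPy hPX b n r r' s e X δ he hee hR hR' hsn hnr hnr' hk1 hX hX2 hXr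
    hXr' hsz hδ hAP
  have l0 : e ≤ 1 / 2 := hee.trans (min_le_left _ _)
  have l1 : e ≤ e1 := hee.trans ((min_le_right _ _).trans (min_le_left _ _))
  have l2 : e ≤ e2 := hee.trans ((min_le_right _ _).trans ((min_le_right _ _).trans
    (min_le_left _ _)))
  have l3 : e ≤ e3 := hee.trans ((min_le_right _ _).trans ((min_le_right _ _).trans
    ((min_le_right _ _).trans (min_le_left _ _))))
  have l4 : e ≤ e4 := hee.trans ((min_le_right _ _).trans ((min_le_right _ _).trans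
    ((min_le_right _ _).trans ((min_le_right _ _).trans (min_le_left _ _)))))
  have l5 : e ≤ e5 := hee.trans ((min_le_right _ _).trans ((min_le_right _ _).trans
    ((min_le_right _ _).trans ((min_le_right _ _).trans (min_le_right _ _)))))
  have he1' : e ≤ 1 := by linarith
  obtain ⟨L, hL⟩ : ∃ L : ℝ, L = Real.log (1 / e) := ⟨_, rfl⟩
  have hL0 : 0 ≤ L := by
    rw [hL]
    exact Real.log_nonneg (by rw [le_div_iff₀ he]; linarith)
  have t1 := s1 e he l1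
  have t2 := s2 e he l2
  have t3 := s3 e he l3
  have t4 := s4 e he l4
  have t5 := s5 e he l5
  rw [← hL] at t1 t2 t3 t4 t5
  obtain ⟨Y, hY⟩ : ∃ Y : ℝ, Y = e ^ (-ι) := ⟨_, rfl⟩
  rw [← hY] at hXr hXr' t1 t4
  have hX1 : 1 ≤ X ^ 2 := one_le_pow₀ hX
  have hY7 : 7 ≤ Y := by linarith
  obtain ⟨m, hm⟩ : ∃ m : ℕ, m = ⌊X ^ 2 * Y⌋₊ := ⟨_, rfl⟩
  have hmle : (m : ℝ) ≤ X ^ 2 * Y := by
    rw [hm]
    exact Nat.floor_le (by positivity)
  have hmge : X ^ 2 * Y - 1 ≤ m := by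
    rw [hm]
    have := Nat.lt_floor_add_one (X ^ 2 * Y)
    linarith
  have hXY : Y ≤ X ^ 2 * Y := le_mul_of_one_le_left (by linarith) hX1
  have hm6 : 6 ≤ m := by
    have : (6 : ℝ) ≤ m := by linarith
    exact_mod_cast this
  have hmh : X ^ 2 * Y / 2 ≤ m := by linarith
  have hpow : ∀ k : ℕ, n ≤ k → X ^ 2 * Y ≤ 2 ^ (k - n) → m * 2 ^ n ≤ 2 ^ k := by
    intro k hk h
    have h1 : (m : ℝ) ≤ ((2 ^ (k - n) : ℕ) : ℝ) := by
      push_cast
      linarith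
    have h2 : m ≤ 2 ^ (k - n) := by exact_mod_cast h1
    calc m * 2 ^ n ≤ 2 ^ (k - n) * 2 ^ n := Nat.mul_le_mul_right _ h2
      _ = 2 ^ k := by rw [← pow_add]; congr 1; omega
  have hmy : (m : ℝ) * e ^ (1 / 4 : ℝ) ≤ c := by
    have h1 : (m : ℝ) ≤ e ^ (-(1 / 5) : ℝ) * e ^ (-(1 / 80) : ℝ) := by
      refine hmle.trans (mul_le_mul hX2 ?_ (by linarith) (Real.rpow_pos_of_pos he _).le)
      rw [hY]
      exact Real.rpow_le_rpow_of_exponent_ge he he1' (by linarith)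
    have h2 : e ^ (-(1 / 5) : ℝ) * e ^ (-(1 / 80) : ℝ) * e ^ (1 / 4 : ℝ) = e ^ (3 / 80 : ℝ) := by
      rw [← Real.rpow_add he, ← Real.rpow_add he]
      norm_num
    have h3 := mul_le_mul_of_nonneg_right h1 (Real.rpow_pos_of_pos he (1 / 4)).le
    rw [h2] at h3
    refine h3.trans ?_
    have h4 : 1 / c ≤ e ^ (-(3 / 80) : ℝ) := by linarith
    rw [Real.rpow_neg he.le, one_div, inv_le_inv₀ hc (Real.rpow_pos_of_pos he _)] at h4
    exact h4
  have hm1 : A₁ * (X ^ 2 * (1 + ((n - s : ℕ) : ℝ))) ≤ m := by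
    refine le_trans ?_ hmh
    have h1 : A₁ * (1 + ((n - s : ℕ) : ℝ)) ≤ Y / 2 := by
      have h3 : 1 ≤ e ^ (-(ι / 2)) :=
        Real.one_le_rpow_of_pos_of_le_one_of_nonpos he he1' (by linarith)
      have h2 : A₁ * (1 + ((n - s : ℕ) : ℝ)) ≤ A₁ * (2 * e ^ (-(ι / 2))) :=
        mul_le_mul_of_nonneg_left (by linarith) hA0.le
      have h4 : Y = e ^ (-(ι / 2)) * e ^ (-(ι / 2)) := by
        rw [hY, ← Real.rpow_add he]
        ring_nf
      have h5 := mul_le_mul_of_nonneg_right t2 (show 0 ≤ e ^ (-(ι / 2)) by linarith)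
      rw [← h4] at h5
      linarith
    have h2 := mul_le_mul_of_nonneg_left h1 (sq_nonneg X)
    linarith
  have hs1 : A₁ * (X ^ 2 * (1 + (r : ℝ) + r')) ≤ 4 ^ s := by
    refine le_trans ?_ hsz
    have h2 : A₁ ≤ e⁻¹ := by
      rw [← Real.rpow_neg_one]
      linarith
    have h3 := mul_le_mul_of_nonneg_right h2 (show 0 ≤ X ^ 2 * (1 + (r : ℝ) + r') by positivity)
    linarith
  have key := hT P hP1 hP2 hPW hPy hPX b n r r' s m e X δ he hR hR' hsn hX hδ hm6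
    (hpow r hnr hXr) (hpow r' hnr' hXr') hmy hm1 hs1 hAP
  intro B
  refine le_trans (measureReal_mono fun g hg => ?_) (key B)
  refine lt_of_le_of_lt (add_le_add_right ?_ δ) hg
  -- the exponential error
  have h1 : L ≤ m / A₁ := by
    rw [le_div_iff₀ hA0]
    have h2 : 2 * A₁ * L ≤ Y := by linarith
    linarith
  calc Real.exp (-((m : ℝ) / A₁)) ≤ Real.exp (-L) := Real.exp_le_exp.2 (by linarith)
    _ = e := by
      rw [hL, one_div, Real.log_inv, neg_neg, Real.exp_log he]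

/-! ### letters of `Par` -/

lemma lg_le {c : ℝ} (hc : 0 ≤ c) {e : ℝ} (he : 0 < e) (he1 : e ≤ 1 / 2) :
    (lg c e : ℝ) ≤ (c + 1) / Real.log 2 * Real.log (1 / e) := by
  have h1 := H972.one_le_logb he he1
  have h2 : (lg c e : ℝ) ≤ c * Real.logb 2 (1 / e) + 1 :=
    (Nat.ceil_lt_add_one (by positivity)).le
  have h3 : (c + 1) / Real.log 2 * Real.log (1 / e) = (c + 1) * Real.logb 2 (1 / e) := by
    unfold Real.logb
    ring
  rw [h3]
  linarith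

lemma rpow_le_two_lg {c : ℝ} {e : ℝ} (he : 0 < e) : e ^ (-c) ≤ 2 ^ lg c e := by
  have h1 : c * Real.logb 2 (1 / e) ≤ lg c e := Nat.le_ceil _
  have h2 : (2 : ℝ) ^ (c * Real.logb 2 (1 / e)) = e ^ (-c) := by
    rw [mul_comm, Real.rpow_mul (by norm_num), Real.rpow_logb (by norm_num) (by norm_num)
      (by positivity), one_div, Real.inv_rpow he.le, Real.rpow_neg he.le]
  rw [← h2, ← Real.rpow_natCast]
  exact Real.rpow_le_rpow_of_exponent_le (by norm_num) h1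

lemma two_lg_le {c : ℝ} (hc : 0 ≤ c) {e : ℝ} (he : 0 < e) (he1 : e ≤ 1) :
    (2 : ℝ) ^ lg c e ≤ 2 * e ^ (-c) := by
  have hlog : 0 ≤ Real.logb 2 (1 / e) :=
    Real.logb_nonneg (by norm_num) (by rw [le_div_iff₀ he]; linarith)
  have h1 : (lg c e : ℝ) ≤ c * Real.logb 2 (1 / e) + 1 :=
    (Nat.ceil_lt_add_one (by positivity)).le
  have h2 : (2 : ℝ) ^ (c * Real.logb 2 (1 / e)) = e ^ (-c) := by
    rw [mul_comm, Real.rpow_mul (by norm_num), Real.rpow_logb (by norm_num) (by norm_num)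
      (by positivity), one_div, Real.inv_rpow he.le, Real.rpow_neg he.le]
  rw [← h2, ← Real.rpow_natCast]
  refine (Real.rpow_le_rpow_of_exponent_le (by norm_num) h1).trans (le_of_eq ?_)
  rw [Real.rpow_add (by norm_num), Real.rpow_one]
  ring

/-- the size condition from `2 lg C0 e ≤ n` -/
lemma size_of {P : Par} (hC0 : 6 / 5 ≤ P.C0) {n r r' : ℕ} {e X : ℝ} (hn : 12 ≤ n) (he : 0 < e)
    (he1 : e ≤ 1) (hnE : 2 * lg P.C0 e ≤ n) (hX2 : X ^ 2 ≤ e ^ (-(1 / 5) : ℝ))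
    (hr : r ≤ 2 * n) (hr' : r' ≤ 2 * n) :
    X ^ 2 * (1 + r + r') * e⁻¹ ≤ 4 ^ (P.sE n e) := by
  have h1 : (4 : ℝ) ^ (P.sE n e) = 4 ^ (n - lg P.C0 e) := rfl
  rw [h1]
  have h2 : 1 + (r : ℝ) + r' ≤ 2 ^ (n - lg P.C0 e) := by
    have key : ∀ k : ℕ, 6 ≤ k → 8 * k + 1 ≤ 2 ^ k := by
      intro k hk
      induction k, hk using Nat.le_induction with
      | base => norm_num
      | succ k hk ih => rw [pow_succ]; omega
    have h4 : 6 ≤ n - lg P.C0 e := by omega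
    have h5 := key _ h4
    have h6 : 1 + r + r' ≤ 8 * (n - lg P.C0 e) + 1 := by omega
    exact_mod_cast h6.trans h5
  have h3 : X ^ 2 * e⁻¹ ≤ 2 ^ (n - lg P.C0 e) := by
    have h4 : X ^ 2 * e⁻¹ ≤ e ^ (-(P.C0)) := by
      have h5 := mul_le_mul_of_nonneg_right hX2 (inv_pos.2 he).le
      refine h5.trans ?_
      rw [← Real.rpow_neg_one, ← Real.rpow_add he]
      exact Real.rpow_le_rpow_of_exponent_ge he he1 (by linarith)
    refine h4.trans ((rpow_le_two_lg he).trans ?_)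
    exact pow_le_pow_right₀ (by norm_num) (by omega)
  have h4 : (4 : ℝ) ^ (n - lg P.C0 e) = 2 ^ (n - lg P.C0 e) * 2 ^ (n - lg P.C0 e) := by
    rw [← mul_pow]
    norm_num
  rw [h4]
  have h5 : X ^ 2 * (1 + (r : ℝ) + r') * e⁻¹ = X ^ 2 * e⁻¹ * (1 + r + r') := by ring
  rw [h5]
  exact mul_le_mul h3 h2 (by positivity) (by positivity)

end

end Vale.Agent.P159.H789
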