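import Vale.Agent.P159.H789.TaF
import Vale.Agent.P159.H789.LgH
import Vale.Agent.P159.H30.RF1

/-!
P159, module TORAP (helper789), part G: instances in the letters of the state: the base torus of AP
to all tori (`ap_tor`); (j) of the AP chain, larger sizes `e'` from the smallest one (`ap_j`).
-/

set_option linter.unusedSectionVars false

namespace Vale.Agent.P159.H789

open Finset Matrix MeasureTheory ProbabilityTheory
open Vale.Agent.P159.H37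
open Vale.Agent.P159.TM.H104 (EM Lg li Cv)
open Vale.Agent.P159.TM.Spec (V Rng)
open Vale.Agent.P159.TM.H265 (HA)
open Vale.Agent.P159.H30 (chB cobB_gram chB_comm chB_sq ap_mono)
open Vale.Agent.P159.H972 (cobB AP RNG Par tn lg lg_anti)

noncomputable section

/-- the range at a larger size -/
lemma rng_e {P : Par} {b e e' : ℝ} {n r : ℕ} (h : RNG P b n r e) (he : 0 < e) (hee : e ≤ e')
    (hy : e' ^ (1 / 4 : ℝ) ≤ P.ys) : RNG P b n r e' := by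
  have h1 : e ^ (1 / 4 : ℝ) ≤ e' ^ (1 / 4 : ℝ) := Real.rpow_le_rpow he.le hee (by norm_num)
  exact { hb1 := h.hb1, hb2 := h.hb2, hX := h.hX, hK := h.hK, hd := h.hd,
          y0 := (Real.rpow_pos_of_pos (he.trans_le hee) _).le, y1 := hy,
          hyp := h.hyp.mono (by norm_num) le_rfl (Nat.cast_nonneg _) h1 le_rfl }

lemma ap_delta {b : ℝ} {n r s : ℕ} {X τ δ δ' : ℝ} (h : AP b n r s X τ δ) (hδ : δ ≤ δ') :
    AP b n r s X τ δ' := by
  intro B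
  refine le_trans (measureReal_mono fun g hg => ?_) (h B)
  exact lt_of_le_of_lt hδ hg

/-- the noise of coarser cells is smaller -/
theorem cobB_coarse {N l l' q q' : ℕ} [NeZero N] (hll : l ∣ l') (hl' : l' ∣ N)
    (hq : l * q = l' * q') (B : ℕ × ℕ) :
    (cobB N l q B * (cobB N l q B)ᵀ - cobB N l' q' B * (cobB N l' q' B)ᵀ).PosSemidef := by
  have hl : l ∣ N := hll.trans hl'
  rw [cobB_gram, cobB_gram, ← hq]
  obtain ⟨D, hD⟩ : ∃ D : Matrix (V N) (V N) ℝ, D = Matrix.diagonal (chB N (l * q) B) := ⟨_, rfl⟩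
  rw [← hD]
  have c1 : D * cellP N l = cellP N l * D := by
    rw [hD]
    exact chB_comm (dvd_mul_right l q) B
  have c2 : D * cellP N l' = cellP N l' * D := by
    rw [hD]
    exact chB_comm (by rw [hq]; exact dvd_mul_right l' q') B
  have dd : D * D = D := by
    rw [hD, Matrix.diagonal_mul_diagonal]
    congr 1
    funext x
    exact chB_sq _ _ _
  have dt : Dᵀ = D := by
    rw [hD, Matrix.diagonal_transpose]
  have p1 := H864.cellP_idem (N := N) hl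
  have p2 := H864.cellP_idem (N := N) hl'
  have p3 := H864.cellP_coarse_mul (N := N) hll hl'
  have p4 : cellP N l * cellP N l' = cellP N l' := by
    have h := congrArg Matrix.transpose p3
    rw [Matrix.transpose_mul, H864.cellP_tr, H864.cellP_tr] at h
    exact h
  have e1 : (cellP N l * D - cellP N l' * D)ᴴ = cellP N l * D - cellP N l' * D := by
    rw [Matrix.conjTranspose_eq_transpose_of_trivial, Matrix.transpose_sub, Matrix.transpose_mul,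
      Matrix.transpose_mul, dt, H864.cellP_tr, H864.cellP_tr, c1, c2]
  have e2 : cellP N l * D - cellP N l' * D =
      (cellP N l * D - cellP N l' * D)ᴴ * (cellP N l * D - cellP N l' * D) := by
    rw [e1]
    have f : ∀ X Y : Matrix (V N) (V N) ℝ, D * Y = Y * D → X * D * (Y * D) = X * Y * D := by
      intro X Y h
      rw [Matrix.mul_assoc, ← Matrix.mul_assoc D Y D, h, Matrix.mul_assoc Y D D, dd,
        ← Matrix.mul_assoc]
    rw [Matrix.sub_mul, Matrix.mul_sub, Matrix.mul_sub, f _ _ c1, f _ _ c2, f _ _ c1, f _ _ c2,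
      p1, p2, p3, p4]
    abel
  rw [e2]
  exact Matrix.posSemidef_conjTranspose_mul_self _

/-- **coarser cells** -/
theorem ap_coarse {b : ℝ} (hb : 0 ≤ b) {n r s s' : ℕ} (hss : s ≤ s') (hs : s' ≤ n) (hn : n ≤ r)
    {X τ δ : ℝ} (hτ : 0 < τ) (h : AP b n r s X τ δ) : AP b n r s' (X / 6) τ δ := by
  intro B
  have hμ := H789.em_wt (N := 2 ^ r) hb hτ
  have hE := H789.ev_wt (N := 2 ^ r) (b := b) (t := τ)
  have hK := H789.pk_wt (N := 2 ^ r) hb hτ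
  have h1 := cobB_coarse (N := 2 ^ r) (l := 2 ^ s) (l' := 2 ^ s') (q := 2 ^ (n - s))
    (q' := 2 ^ (n - s')) (pow_dvd_pow 2 hss) (pow_dvd_pow 2 (hs.trans hn))
    (by rw [← pow_add, ← pow_add]; congr 1; omega) B
  have h2 : (((X * √τ) • cobB (2 ^ r) (2 ^ s) (2 ^ (n - s)) B) *
      ((X * √τ) • cobB (2 ^ r) (2 ^ s) (2 ^ (n - s)) B)ᵀ -
      ((X * √τ) • cobB (2 ^ r) (2 ^ s') (2 ^ (n - s')) B) *
      ((X * √τ) • cobB (2 ^ r) (2 ^ s') (2 ^ (n - s')) B)ᵀ).PosSemidef := by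
    have e : ∀ {I : Type} [Fintype I] (A : Matrix (V (2 ^ r)) I ℝ),
        ((X * √τ) • A) * ((X * √τ) • A)ᵀ = (X * √τ) ^ 2 • (A * Aᵀ) := by
      intro I _ A
      rw [Matrix.transpose_smul, Matrix.smul_mul, Matrix.mul_smul, smul_smul, pow_two]
    rw [e, e, ← smul_sub]
    exact h1.smul (sq_nonneg _)
  have h3 := H586.small_hyp_Rs hμ hE hK h2 (h B)
  refine le_trans (le_of_eq ?_) h3
  congr 1
  ext g
  simp only [Set.mem_ofPred_eq]
  rw [← Matrix.smul_mulVec, smul_smul]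
  have e : (6 : ℝ)⁻¹ * (X * √τ) = X / 6 * √τ := by ring
  rw [e]

/-- numbers of the base torus -/
lemma xE_num {x1 ι : ℝ} (hx1 : 0 < x1) (hx1' : x1 ≤ 1 / 20) (hι : ι < x1) :
    ∃ e₀ : ℝ, 0 < e₀ ∧ e₀ ≤ 1 / 4 ∧ ∀ e, 0 < e → e ≤ e₀ →
      ((6 : ℝ) * 2 ^ lg x1 e) ^ 2 ≤ e ^ (-(1 / 5) : ℝ) ∧
      ((6 : ℝ) * 2 ^ lg x1 e) ^ 2 * e ^ (-ι) ≤ 2 ^ (3 * lg x1 e) ∧
      2 * e ^ (1 / 56 : ℝ) ≤ 1 := by
  obtain ⟨e1, he1, h1⟩ := small_pow 144 (p := 1 / 10) (by norm_num)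
  obtain ⟨e2, he2, h2⟩ := small_pow 36 (p := x1 - ι) (by linarith)
  obtain ⟨e3, he3, h3⟩ := small_pow 2 (p := 1 / 56) (by norm_num)
  refine ⟨min (1 / 4) (min e1 (min e2 e3)), by positivity, min_le_left _ _, fun e he hee => ?_⟩
  have l0 : e ≤ 1 / 4 := hee.trans (min_le_left _ _)
  have l1 : e ≤ e1 := hee.trans ((min_le_right _ _).trans (min_le_left _ _))
  have l2 : e ≤ e2 := hee.trans ((min_le_right _ _).trans ((min_le_right _ _).trans
    (min_le_left _ _)))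
  have l3 : e ≤ e3 := hee.trans ((min_le_right _ _).trans ((min_le_right _ _).trans
    (min_le_right _ _)))
  have he1' : e ≤ 1 := by linarith
  have m1 := h1 e he l1
  have m2 := h2 e he l2
  have pe : ∀ p : ℝ, 0 < e ^ p := fun p => Real.rpow_pos_of_pos he p
  have u1 := two_lg_le hx1.le he he1'
  have u2 := rpow_le_two_lg (c := x1) he
  have h2pos : (0 : ℝ) < 2 ^ lg x1 e := by positivity
  refine ⟨?_, ?_, h3 e he l3⟩
  · have h4 : ((6 : ℝ) * 2 ^ lg x1 e) ^ 2 ≤ (6 * (2 * e ^ (-x1))) ^ 2 :=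
      pow_le_pow_left₀ (by positivity) (by linarith) 2
    refine h4.trans ?_
    have h5 : (6 * (2 * e ^ (-x1))) ^ 2 = 144 * e ^ (-(2 * x1)) := by
      have h6 : e ^ (-(2 * x1)) = e ^ (-x1) * e ^ (-x1) := by
        rw [← Real.rpow_add he]
        ring_nf
      rw [h6]
      ring
    rw [h5]
    have h6 : e ^ (-(2 * x1)) ≤ e ^ (-(1 / 10) : ℝ) :=
      Real.rpow_le_rpow_of_exponent_ge he he1' (by linarith)
    have h7 : e ^ (-(1 / 10) : ℝ) = e ^ (1 / 10 : ℝ) * e ^ (-(1 / 5) : ℝ) := by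
      rw [← Real.rpow_add he]
      norm_num
    calc 144 * e ^ (-(2 * x1)) ≤ 144 * e ^ (-(1 / 10) : ℝ) := by linarith
      _ = 144 * e ^ (1 / 10 : ℝ) * e ^ (-(1 / 5) : ℝ) := by rw [h7]; ring
      _ ≤ 1 * e ^ (-(1 / 5) : ℝ) := mul_le_mul_of_nonneg_right m1 (pe _).le
      _ = _ := one_mul _
  · have h4 : (2 : ℝ) ^ (3 * lg x1 e) = 2 ^ lg x1 e * (2 ^ lg x1 e) ^ 2 := by
      rw [← pow_mul, ← pow_add]
      congr 1
      ring
    rw [h4]
    have h5 : 36 * e ^ (-ι) ≤ e ^ (-x1) := by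
      have h6 : e ^ (-ι) = e ^ (x1 - ι) * e ^ (-x1) := by
        rw [← Real.rpow_add he]
        ring_nf
      calc 36 * e ^ (-ι) = 36 * e ^ (x1 - ι) * e ^ (-x1) := by rw [h6]; ring
        _ ≤ 1 * e ^ (-x1) := mul_le_mul_of_nonneg_right m2 (pe _).le
        _ = _ := one_mul _
    calc ((6 : ℝ) * 2 ^ lg x1 e) ^ 2 * e ^ (-ι) = 36 * e ^ (-ι) * (2 ^ lg x1 e) ^ 2 := by ring
      _ ≤ e ^ (-x1) * (2 ^ lg x1 e) ^ 2 := mul_le_mul_of_nonneg_right h5 (by positivity)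
      _ ≤ 2 ^ lg x1 e * (2 ^ lg x1 e) ^ 2 := mul_le_mul_of_nonneg_right u2 (by positivity)

/-- the base torus has side at most `ξ ^ 2` -/
lemma base_le {P : Par} (hx1' : P.x1 ≤ 1 / 20) (hC0 : 6 / 5 ≤ P.C0) {n : ℕ} {e : ℝ} (he : 0 < e)
    (he4 : e ≤ 1 / 4) (hnE : 2 * lg P.C0 e ≤ n) : n + 3 * P.xE e ≤ 2 * n := by
  have hx1 := P.x10
  have h2 : 2 ≤ Real.logb 2 (1 / e) := by
    rw [Real.le_logb_iff_rpow_le one_lt_two (by positivity), le_div_iff₀ he]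
    have : (2 : ℝ) ^ (2 : ℝ) = 4 := by norm_num
    rw [this]
    linarith
  have h3 : (P.xE e : ℝ) ≤ P.x1 * Real.logb 2 (1 / e) + 1 :=
    (Nat.ceil_lt_add_one (by positivity)).le
  have h4 : P.C0 * Real.logb 2 (1 / e) ≤ lg P.C0 e := Nat.le_ceil _
  have h5 : (3 * (P.xE e : ℝ)) ≤ 2 * lg P.C0 e := by nlinarith
  have h6 : 3 * P.xE e ≤ 2 * lg P.C0 e := by exact_mod_cast h5
  omega

/-- cells against powers -/
lemma cell_num (C0 : ℝ) (hC0 : 0 ≤ C0) {p : ℝ} (hp : 0 < p) :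
    ∃ e₀ : ℝ, 0 < e₀ ∧ ∀ P : Par, P.C0 = C0 → ∀ (n : ℕ) (e : ℝ), 0 < e → e ≤ e₀ →
      ((n - P.sE n e : ℕ) : ℝ) ≤ e ^ (-p) := by
  obtain ⟨e1, he1, h1⟩ := small_log 0 ((C0 + 1) / Real.log 2) (p := p) hp
  refine ⟨min (1 / 2) e1, by positivity, fun P hP n e he hee => ?_⟩
  have l0 : e ≤ 1 / 2 := hee.trans (min_le_left _ _)
  have h2 : n - P.sE n e ≤ lg P.C0 e := by
    unfold Par.sE
    omega
  have h3 : ((n - P.sE n e : ℕ) : ℝ) ≤ (lg P.C0 e : ℕ) := by exact_mod_cast h2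
  refine h3.trans ?_
  rw [hP]
  refine (lg_le hC0 he l0).trans ?_
  have := h1 e he (hee.trans (min_le_right _ _))
  linarith

/-- **AP of the state on all tori**: amplitude `X / 6`, `X ≤ 2 ^ xE`,
`X ^ 2 e ^ (-ι) ≤ 2 ^ (r - n)` -/
theorem ap_tor {b1 b2 W ys : ℝ} {X0 : ℕ} (hb1 : 0 < b1) {c C : ℝ} (hc : 0 < c) (hC : 0 < C)
    (hHA : ∀ (N : ℕ) [NeZero N] (b : ℝ) (hb : 0 ≤ b) (ξ : ℕ) (y : ℝ),
      Rng b1 b2 (5 / 2) W ys X0 N b ξ y → HA N b ξ hb y c C) {ι x1 C0 : ℝ} (hι : 0 < ι)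
    (hι2 : ι ≤ 1 / 80) (hιx : ι < x1) (hx1' : x1 ≤ 1 / 20) (hC0 : 6 / 5 ≤ C0) :
    ∃ e₀ : ℝ, 0 < e₀ ∧ ∀ P : Par, P.b1 = b1 → P.b2 = b2 → P.W = W → P.ys ≤ ys → X0 ≤ P.X0 →
      P.x1 = x1 → P.C0 = C0 →
      ∀ (b : ℝ) (n r : ℕ) (e X : ℝ), 0 < e → e ≤ e₀ → 12 ≤ n → 2 * lg P.C0 e ≤ n → n ≤ r →
      r ≤ 2 * n → RNG P b n (n + 3 * P.xE e) e → RNG P b n r e → 1 ≤ X → X ≤ 2 ^ P.xE e →
      X ^ 2 * e ^ (-ι) ≤ 2 ^ (r - n) →
      AP b n (n + 3 * P.xE e) (P.sE n e) (2 ^ P.xE e) (tn n) (e ^ (1 / 8 : ℝ)) →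
      AP b n r (P.sE n e) (X / 6) (tn n) (2 * e ^ (1 / 8 : ℝ)) := by
  have hx1 : 0 < x1 := hι.trans hιx
  obtain ⟨e1, he1, hT⟩ := torap_good hb1 hc hC hHA hι hι2
  obtain ⟨e2, he2, he2', hnum⟩ := xE_num hx1 hx1' hιx
  obtain ⟨e3, he3, hcell⟩ := cell_num C0 (by linarith) (p := ι / 2) (by positivity)
  refine ⟨min e1 (min e2 e3), by positivity, ?_⟩
  intro P hP1 hP2 hPW hPy hPX hPx hPC b n r e X he hee hn hnE hnr hr2 hR0 hR hX hX2 hXr hAP
  have l1 : e ≤ e1 := hee.trans (min_le_left _ _)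
  have l2 : e ≤ e2 := hee.trans ((min_le_right _ _).trans (min_le_left _ _))
  have l3 : e ≤ e3 := hee.trans ((min_le_right _ _).trans (min_le_right _ _))
  have l4 : e ≤ 1 / 4 := l2.trans he2'
  have hb : 0 ≤ b := by
    have := hR.hb1
    rw [hP1] at this
    linarith
  obtain ⟨n1, n2, n3⟩ := hnum e he l2
  have hxE : lg x1 e = P.xE e := by
    unfold Par.xE
    rw [hPx]
  rw [hxE] at n1 n2
  have pe : ∀ p : ℝ, 0 < e ^ p := fun p => Real.rpow_pos_of_pos he p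
  have hXX : X ^ 2 ≤ ((6 : ℝ) * 2 ^ P.xE e) ^ 2 := by
    refine pow_le_pow_left₀ (by linarith) (hX2.trans ?_) 2
    have : (0 : ℝ) < 2 ^ P.xE e := by positivity
    linarith
  have hAP' := ap_mono hb (tn_pos n) (by linarith) hX2 hAP
  have hXs : X ^ 2 ≤ e ^ (-(1 / 5) : ℝ) := hXX.trans n1
  have key := hT P hP1 hP2 hPW hPy hPX b n (n + 3 * P.xE e) r (P.sE n e) e X _ he l1 hR0 hR
    (Nat.sub_le _ _) (Nat.le_add_right _ _) hnr (hcell P hPC n e he l3) hX hXs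
    (by
      rw [Nat.add_sub_cancel_left]
      refine le_trans (mul_le_mul_of_nonneg_right hXX (pe _).le) n2) hXr
    (size_of (by rw [hPC]; exact hC0) hn he (by linarith) hnE hXs
      (base_le (by rw [hPx]; exact hx1') (by rw [hPC]; exact hC0) he l4 hnE) hr2)
    (pe _).le hAP'
  refine ap_delta key ?_
  have h1 : e ≤ e ^ (1 / 8 : ℝ) := by
    have := Real.rpow_le_rpow_of_exponent_ge he (by linarith : e ≤ 1)
      (by norm_num : (1 / 8 : ℝ) ≤ 1)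
    rwa [Real.rpow_one] at this
  linarith

/-- **(j) of the AP chain**: the strong a priori bound at the smallest size `ε` gives AP at every
larger size `e` -/
theorem ap_j {b1 b2 W ys : ℝ} {X0 : ℕ} (hb1 : 0 < b1) {c C : ℝ} (hc : 0 < c) (hC : 0 < C)
    (hHA : ∀ (N : ℕ) [NeZero N] (b : ℝ) (hb : 0 ≤ b) (ξ : ℕ) (y : ℝ),
      Rng b1 b2 (5 / 2) W ys X0 N b ξ y → HA N b ξ hb y c C) {x1 C0 : ℝ} (hx1 : 0 < x1)
    (hx1' : x1 ≤ 1 / 20) (hC0 : 6 / 5 ≤ C0) :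
    ∃ e₀ : ℝ, 0 < e₀ ∧ ∀ P : Par, P.b1 = b1 → P.b2 = b2 → P.W = W → P.ys ≤ ys → X0 ≤ P.X0 →
      P.x1 = x1 → P.C0 = C0 →
      ∀ (b : ℝ) (m : ℕ) (ε e : ℝ), 0 < ε → ε ≤ e → e ≤ e₀ → 12 ≤ m → 2 * lg P.C0 ε ≤ m →
      RNG P b m (m + 3 * P.xE ε) ε → RNG P b m (m + 3 * P.xE e) e →
      AP b m (m + 3 * P.xE ε) (P.sE m ε) (36 * 2 ^ P.xE ε) (tn m) (ε ^ (1 / 7 : ℝ)) →
      AP b m (m + 3 * P.xE e) (P.sE m e) (2 ^ P.xE e) (tn m) (e ^ (1 / 8 : ℝ)) := by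
  obtain ⟨ι, hιd⟩ : ∃ ι : ℝ, ι = min (x1 / 2) (1 / 80) := ⟨_, rfl⟩
  have hι : 0 < ι := by rw [hιd]; positivity
  have hι2 : ι ≤ 1 / 80 := hιd ▸ min_le_right _ _
  have hιx : ι < x1 := by
    have : ι ≤ x1 / 2 := hιd ▸ min_le_left _ _
    linarith
  obtain ⟨e1, he1, hT⟩ := torap_good hb1 hc hC hHA hι hι2
  obtain ⟨e2, he2, he2', hnum⟩ := xE_num hx1 hx1' hιx
  obtain ⟨e3, he3, hcell⟩ := cell_num C0 (by linarith) (p := ι / 2) (by positivity)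
  refine ⟨min e1 (min e2 e3), by positivity, ?_⟩
  intro P hP1 hP2 hPW hPy hPX hPx hPC b m ε e hε hεe hee hm hnE hRε hRe hAP
  have he : 0 < e := hε.trans_le hεe
  have l1 : e ≤ e1 := hee.trans (min_le_left _ _)
  have l2 : e ≤ e2 := hee.trans ((min_le_right _ _).trans (min_le_left _ _))
  have l3 : e ≤ e3 := hee.trans ((min_le_right _ _).trans (min_le_right _ _))
  have l4 : e ≤ 1 / 4 := l2.trans he2'
  have hb : 0 ≤ b := by
    have := hRe.hb1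
    rw [hP1] at this
    linarith
  obtain ⟨n1, n2, n3⟩ := hnum e he l2
  have hxE : lg x1 e = P.xE e := by
    unfold Par.xE
    rw [hPx]
  rw [hxE] at n1 n2
  have pe : ∀ p : ℝ, 0 < e ^ p := fun p => Real.rpow_pos_of_pos he p
  have hxx : P.xE e ≤ P.xE ε := lg_anti P.x10.le hε hεe
  have hCC : lg P.C0 e ≤ lg P.C0 ε := lg_anti P.C00.le hε hεe
  have hss : P.sE m ε ≤ P.sE m e := by
    unfold Par.sE
    omega
  have hnE' : 2 * lg P.C0 e ≤ m := (Nat.mul_le_mul_left 2 hCC).trans hnE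
  -- coarser cells
  have a1 := ap_coarse hb hss (Nat.sub_le _ _) (Nat.le_add_right _ _) (tn_pos m) hAP
  -- smaller amplitude
  have a2 := ap_mono hb (tn_pos m) (X' := 6 * 2 ^ P.xE e) (by positivity) (by
    have : (2 : ℝ) ^ P.xE e ≤ 2 ^ P.xE ε := pow_le_pow_right₀ (by norm_num) hxx
    linarith) a1
  have hRε' : RNG P b m (m + 3 * P.xE ε) e := rng_e hRε hε hεe hRe.y1
  have hp1 : (1 : ℝ) ≤ 2 ^ P.xE e := one_le_pow₀ (by norm_num)
  have key := hT P hP1 hP2 hPW hPy hPX b m (m + 3 * P.xE ε) (m + 3 * P.xE e) (P.sE m e) e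
    (6 * 2 ^ P.xE e) _ he l1 hRε' hRe (Nat.sub_le _ _) (Nat.le_add_right _ _)
    (Nat.le_add_right _ _) (hcell P hPC m e he l3) (by linarith) n1
    (by
      rw [Nat.add_sub_cancel_left]
      exact n2.trans (pow_le_pow_right₀ (by norm_num) (by omega)))
    (by
      rw [Nat.add_sub_cancel_left]
      exact n2)
    (size_of (by rw [hPC]; exact hC0) hm he (by linarith) hnE' n1
      (base_le (by rw [hPx]; exact hx1') (by rw [hPC]; exact hC0) hε (hεe.trans l4) hnE)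
      (base_le (by rw [hPx]; exact hx1') (by rw [hPC]; exact hC0) he l4 hnE'))
    (Real.rpow_pos_of_pos hε _).le a2
  have e6 : (6 : ℝ) * 2 ^ P.xE e / 6 = 2 ^ P.xE e := by ring
  rw [e6] at key
  refine ap_delta key ?_
  have h1 : ε ^ (1 / 7 : ℝ) ≤ e ^ (1 / 7 : ℝ) := Real.rpow_le_rpow hε.le hεe (by norm_num)
  have h2 : e ≤ e ^ (1 / 7 : ℝ) := by
    have := Real.rpow_le_rpow_of_exponent_ge he (by linarith : e ≤ 1)
      (by norm_num : (1 / 7 : ℝ) ≤ 1)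
    rwa [Real.rpow_one] at this
  have h3 : e ^ (1 / 7 : ℝ) = e ^ (1 / 56 : ℝ) * e ^ (1 / 8 : ℝ) := by
    rw [← Real.rpow_add he]
    norm_num
  have h4 := mul_le_mul_of_nonneg_right n3 (pe (1 / 8)).le
  linarith

end

end Vale.Agent.P159.H789
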